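import Vale.Agent.P097A.Bern

/-!
# P097A: AVG, the maximum principle in the parameter
-/

noncomputable section

namespace Vale.Agent.P097A

open Filter Topology Set Metric Polynomial Bern

namespace Avg

variable {E : ℂ × ℂ × ℂ × ℂ → ℂ} {ε x : ℂ} {J : ℂ × ℂ × ℂ → ℂ} {N : ℕ} {t : ℕ → ℂ → ℂ}

/-- the orbit of the step map -/
def orb (x : ℂ) (J : ℂ × ℂ × ℂ → ℂ) : ℕ → ℂ × ℂ → ℂ
  | 0, _ => x
  | 1, q => x + q.2
  | n + 2, q => J (q.1, orb x J n q, orb x J (n + 1) q)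

/-- germs of orbits -/
structure Orb (E : ℂ × ℂ × ℂ × ℂ → ℂ) (ε x : ℂ) (N : ℕ) (t : ℕ → ℂ → ℂ) : Prop where
  lim : ∀ i ≤ N, Tendsto (t i) (𝓝 0) (𝓝 x)
  t0 : ∀ᶠ v in 𝓝 (0 : ℂ), t 0 v = x
  t1 : ∀ᶠ v in 𝓝 (0 : ℂ), t 1 v = x + v
  law : ∀ i, i + 2 ≤ N → ∀ᶠ v in 𝓝 (0 : ℂ), E (ε, t i v, t (i + 1) v, t (i + 2) v) = 0

theorem Orb.uniq (h : Orb E ε x N t)
    (hJ : ∀ᶠ q in 𝓝 (ε, x, x, x), E q = 0 ↔ q.2.2.2 = J (q.1, q.2.1, q.2.2.1)) (i : ℕ) :
    i ≤ N → ∀ᶠ v in 𝓝 (0 : ℂ), t i v = orb x J i (ε, v) := by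
  induction i using Nat.twoStepInduction with
  | zero => exact fun _ => h.t0
  | one => exact fun _ => h.t1
  | more i h1 h2 =>
    intro hi
    filter_upwards [h1 (by omega), h2 (by omega), h.law i hi, (tendsto_const_nhds.prodMk_nhds
      ((h.lim i (by omega)).prodMk_nhds ((h.lim (i + 1) (by omega)).prodMk_nhds
        (h.lim _ hi)))).eventually hJ] with v a1 a2 a3 a4
    rw [orb, ← a1, ← a2]
    exact a4.1 a3

theorem orb_an (hJ : AnalyticAt ℂ J (ε, x, x)) (h0 : ∀ᶠ e in 𝓝 ε, J (e, x, x) = x) (i : ℕ) :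
    AnalyticAt ℂ (orb x J i) (ε, 0) ∧ ∀ᶠ e in 𝓝 ε, orb x J i (e, 0) = x := by
  induction i using Nat.twoStepInduction with
  | zero => exact ⟨analyticAt_const, .of_forall fun _ => rfl⟩
  | one => exact ⟨analyticAt_const.add analyticAt_snd, .of_forall fun _ => add_zero x⟩
  | more i h1 h2 =>
    refine ⟨hJ.comp_of_eq (analyticAt_fst.prod (h1.1.prod h2.1)) (by
      simp only [h1.2.self_of_nhds, h2.2.self_of_nhds]), ?_⟩
    filter_upwards [h1.2, h2.2, h0] with e a1 a2 a3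
    rw [orb, a1, a2, a3]

theorem orb_near (h : ∀ i, AnalyticAt ℂ (orb x J i) (ε, 0) ∧ ∀ᶠ e in 𝓝 ε, orb x J i (e, 0) = x)
    (hJ : ∀ᶠ q in 𝓝 (ε, x, x, x), E q = 0 ↔ q.2.2.2 = J (q.1, q.2.1, q.2.2.1)) (N : ℕ) :
    ∀ᶠ e in 𝓝 ε, Orb E e x N fun i v => orb x J i (e, v) := by
  have t : ∀ i, Tendsto (orb x J i) (𝓝 (ε, 0)) (𝓝 x) := fun i =>
    (h i).1.continuousAt.tendsto.mono_right (congrArg 𝓝 (h i).2.self_of_nhds).le
  have h1 : ∀ i, ∀ᶠ e in 𝓝 ε, Tendsto (fun v => orb x J i (e, v)) (𝓝 0) (𝓝 x) := fun i => by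
    filter_upwards [(h i).1.eventually_analyticAt.curry_nhds, (h i).2] with e a1 a2
    exact (a1.self_of_nhds.continuousAt.comp (f := fun v => (e, v))
      (by fun_prop)).tendsto.mono_right (congrArg 𝓝 a2).le
  have h2 : ∀ i, ∀ᶠ q in 𝓝 (ε, (0 : ℂ)),
      E (q.1, orb x J i q, orb x J (i + 1) q, orb x J (i + 2) q) = 0 := fun i =>
    ((continuousAt_fst.tendsto.prodMk_nhds ((t i).prodMk_nhds ((t (i + 1)).prodMk_nhds
      (t (i + 2))))).eventually hJ).mono fun _ k => k.2 rfl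
  filter_upwards [(eventually_all_finite (finite_Iic N)).2 fun i _ =>
    (h1 i).and (h2 i).curry_nhds] with e he
  exact ⟨fun i hi => (he i hi).1, .of_forall fun _ => rfl, .of_forall fun _ => rfl,
    fun i hi => (he i (by simp only [mem_Iic]; omega)).2⟩

/-- the Taylor coefficients depend analytically on the parameter -/
theorem tc_an {F : ℂ × ℂ → ℂ} (h : AnalyticAt ℂ F (ε, 0)) (k : ℕ) :
    AnalyticAt ℂ (fun e => tc k fun v => F (e, v)) ε := by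
  have hU : AnalyticOnNhd ℂ F {p | AnalyticAt ℂ F p} := fun _ hp => hp
  have h1 : AnalyticAt ℂ (fun e : ℂ => iteratedFDeriv ℂ k F (e, 0) fun _ => (0, 1)) ε :=
    ((ContinuousMultilinearMap.apply ℂ (fun _ : Fin k => ℂ × ℂ) ℂ fun _ => (0, 1)).analyticAt _).comp
      ((hU.iteratedFDeriv k _ h).comp_of_eq (analyticAt_id.prod analyticAt_const) rfl)
  refine (h1.div_const (c := k.factorial)).congr ?_
  filter_upwards [h.eventually_analyticAt.curry_nhds] with e he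
  have := P097.Hol.iteratedDeriv_line (isOpen_analyticAt ℂ F) (n := k) hU.contDiffOn_of_completeSpace
    (x := (e, 0)) (y := (0, 1)) (t := 0) (by simpa using he.self_of_nhds)
  simp only [Prod.smul_mk, smul_eq_mul, mul_zero, mul_one, Prod.mk_add_mk, add_zero,
    zero_add] at this
  rw [tc, this]

theorem eq_of_tc1 {f g : ℂ → ℂ} (h : AnalyticAt ℂ f 0) (h' : AnalyticAt ℂ g 0)
    (e : ∀ k, tc k f = tc k g) : ∀ᶠ v in 𝓝 (0 : ℂ), f v = g v := by
  obtain ⟨p, h⟩ := h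
  obtain ⟨p', h'⟩ := h'
  filter_upwards [hasFPowerSeriesAt_iff.1 h, hasFPowerSeriesAt_iff.1 h'] with y k k'
  simp only [zero_add, ← tc_eq h, ← tc_eq h', e] at k k'
  exact k.unique k'

/-- a germ which vanishes on the slices vanishes -/
theorem joint {V : Type} [NormedAddCommGroup V] [NormedSpace ℂ V] {F : ℂ × V → ℂ} {y : V}
    (h : AnalyticAt ℂ F (ε, y)) (h0 : ∀ᶠ e in 𝓝 ε, ∀ᶠ p in 𝓝 y, F (e, p) = 0) :
    ∀ᶠ q in 𝓝 (ε, y), F q = 0 := by
  obtain ⟨r, hr, h1⟩ := Metric.eventually_nhds_iff_ball.1 h.eventually_analyticAt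
  filter_upwards [continuousAt_fst.eventually h0, ball_mem_nhds _ hr] with q a1 a2
  rw [← ball_prod_same] at a2 h1
  exact AnalyticOnNhd.eqOn_zero_of_preconnected_of_eventuallyEq_zero (f := fun p => F (q.1, p))
    (fun p hp => (h1 (q.1, p) ⟨a2.1, hp⟩).comp (analyticAt_const.prod analyticAt_id))
    (convex_ball y r).isPreconnected (mem_ball_self hr) a1 a2.2

/-- the orbits given by a gauged solution -/
theorem orb_gauged {H : ℂ × ℂ × ℂ → ℂ} (h : Gauged E ε x H) : ∀ᶠ e in 𝓝 ε,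
    AnalyticAt ℂ H (e, 0, 0) ∧ ∀ N, Orb E e x N fun i v => H (e, i * v, v) := by
  filter_upwards [h.an.eventually_analyticAt.curry_nhds, h.g0.curry_nhds, h.g1.curry_nhds,
    h.sol.curry_nhds] with e a1 a2 a3 a4
  have t : ∀ s : ℂ, Tendsto (fun v : ℂ => (s * v, v)) (𝓝 0) (𝓝 (0, 0)) := fun s =>
    Continuous.tendsto' (by fun_prop) _ _ (by simp)
  refine ⟨a1.self_of_nhds, fun N => ⟨fun i _ => ?_, by simpa using a2, by simpa using a3,
    fun i _ => ((t (i + 1)).eventually a4).mono fun v hv => ?_⟩⟩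
  · exact (show H (e, 0, 0) = x from a2.self_of_nhds) ▸ a1.self_of_nhds.continuousAt.tendsto.comp
      (tendsto_const_nhds.prodMk_nhds (t i))
  · rw [← hv]
    push_cast
    ring_nf

end Avg

open Avg

theorem avg (hS : Spec_STEP) (hL : Spec_LAWF) : Spec_AVG := by
  intro E x ε₀ h0 hE hC
  choose! J J1 J2 J3 J4 using fun ε => hS E ε x
  have hD : ∀ {ε}, IsLawF E ε x → ∀ᶠ e in 𝓝 ε, IsLawF E e x := fun h =>
    (hL.1 E _ x h).1.curry_nhds.mono fun _ k => k.self_of_nhds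
  have oa : ∀ {ε}, IsLawF E ε x → ∀ i, AnalyticAt ℂ (orb x (J ε) i) (ε, 0) ∧
      ∀ᶠ e in 𝓝 ε, orb x (J ε) i (e, 0) = x := fun {ε} h => orb_an (J1 _ h) (by
    filter_upwards [(J3 _ h).curry_nhds, h.diag.curry_nhds] with e a1 a2
      using (a1.self_of_nhds.1 a2.self_of_nhds).symm)
  obtain ⟨c, hc⟩ : ∃ c : ℕ → ℕ → ℂ → ℂ, ∀ k n ε, c k n ε = tc k fun v => orb x (J ε) n (ε, v) :=
    ⟨_, fun _ _ _ => rfl⟩
  have ca : ∀ k n ε, ‖ε‖ ≤ ε₀ → AnalyticAt ℂ (c k n) ε := fun k n ε h =>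
    (tc_an (oa (hE ε h) n).1 k).congr (by
      filter_upwards [orb_near (oa (hE ε h)) (J3 _ (hE ε h)) n, hD (hE ε h)] with e a1 a2
        using (tc_congr (a1.uniq (J3 _ a2) n le_rfl) k).trans (hc k n e).symm)
  obtain ⟨P, hP⟩ : ∃ P : ℕ → ℂ → ℂ[X], ∀ k ε, P k ε =
      Lagrange.interpolate (Finset.range (k + 1)) (fun j : ℕ => (j : ℂ)) fun j => c k j ε :=
    ⟨_, fun _ _ => rfl⟩
  have inj : ∀ k, InjOn (fun j : ℕ => (j : ℂ)) (Finset.range (k + 1)) := fun _ =>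
    Nat.cast_injective.injOn
  have pa : ∀ k (l : ℂ[X] →ₗ[ℂ] ℂ) ε, ‖ε‖ ≤ ε₀ → AnalyticAt ℂ (fun e => l (P k e)) ε :=
    fun k l ε h => by
      simp only [hP, Lagrange.interpolate_apply, map_sum, ← smul_eq_C_mul, map_smul]
      exact Finset.analyticAt_fun_sum _ fun j _ => (ca k j ε h).smul analyticAt_const
  have mx : ∀ {f : ℂ → ℂ} {C : ℝ}, (∀ ε, ‖ε‖ ≤ ε₀ → AnalyticAt ℂ f ε) →
      (∀ ε, ‖ε‖ = ε₀ → ‖f ε‖ ≤ C) → ∀ ε ∈ ball (0 : ℂ) ε₀, ‖f ε‖ ≤ C := fun h1 h2 ε hε =>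
    Complex.norm_le_of_forall_mem_frontier_norm_le isBounded_ball (DifferentiableOn.diffContOnCl
      fun z hz => (h1 z (mem_closedBall_zero_iff.1 (closure_ball_subset_closedBall hz))
        ).differentiableAt.differentiableWithinAt)
      (fun z hz => h2 z (mem_sphere_zero_iff_norm.1 (frontier_ball_subset_sphere hz)))
      (subset_closure hε)
  have circ : ∀ ε, ‖ε‖ = ε₀ → ∃ H, Gauged E ε x H ∧ ∀ᶠ e in 𝓝 ε, ∀ k,
      (∀ s, (P k e).eval s = tc k fun v => H (e, s * v, v)) ∧ ∀ n : ℕ, (P k e).eval ↑n = c k n e :=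
    fun ε h => (hC ε h).imp fun H hH => ⟨hH, by
      filter_upwards [orb_gauged hH, hD (hE ε h.le)] with e ⟨a1, a2⟩ a3 k
      obtain ⟨Q, q1, q2⟩ := hom (fun p => H (e, p)) (a1.comp (analyticAt_const.prod analyticAt_id)) k
      have q3 : ∀ n : ℕ, Q.eval ↑n = c k n e := fun n =>
        (q2 n).symm.trans ((tc_congr ((a2 n).uniq (J3 _ a3) n le_rfl) k).trans (hc k n e).symm)
      have q4 : Q = P k e := hP k e ▸ Lagrange.eq_interpolate_of_eval_eq _ (inj k) (by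
        rw [Finset.card_range]
        exact degree_le_natDegree.trans_lt (Nat.cast_lt.2 (Nat.lt_succ_of_le q1))) fun n _ => q3 n
      exact q4 ▸ ⟨fun s => (q2 s).symm, q3⟩⟩
  obtain ⟨A, hA, hB⟩ : ∃ A : ℝ, 0 < A ∧ ∀ᶠ e in 𝓝ˢ (sphere (0 : ℂ) ε₀), ∀ k (s : ℝ), 0 ≤ s → s ≤ 1 →
      ‖(P k e).eval ↑s‖ ≤ A * A ^ k := by
    refine ((eventually_gt_atTop 0).and (Eventually.curry (p := fun q : ℝ × ℂ => ∀ k (s : ℝ),
      0 ≤ s → s ≤ 1 → ‖(P k q.2).eval ↑s‖ ≤ q.1 * q.1 ^ k)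
      ((isCompact_sphere _ _).mem_prod_nhdsSet_of_forall fun ε h => ?_))).exists
    obtain ⟨H, hH, h1⟩ := circ ε (mem_sphere_zero_iff_norm.1 h)
    obtain ⟨M, hM⟩ := hH.an.continuousAt.norm.isBoundedUnder_le
    obtain ⟨r, hr, h2⟩ := Metric.eventually_nhds_iff_ball.1
      (hH.an.eventually_analyticAt.and (eventually_map.1 hM))
    refine (((eventually_ge_atTop M).and (eventually_ge_atTop r⁻¹)).prod_mk
      (h1.and (ball_mem_nhds ε hr))).mono fun q ⟨⟨a1, a2⟩, a3, a4⟩ k s s0 s1 => ?_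
    have m : ∀ v ∈ ball (0 : ℂ) r, (q.2, s * v, v) ∈ ball (ε, (0 : ℂ), (0 : ℂ)) r := fun v hv => by
      rw [← ball_prod_same, ← ball_prod_same]
      refine ⟨a4, mem_ball_zero_iff.2 ?_, hv⟩
      rw [norm_mul, Complex.norm_real, Real.norm_of_nonneg s0]
      exact (mul_le_of_le_one_left (norm_nonneg v) s1).trans_lt (mem_ball_zero_iff.1 hv)
    rw [(a3 k).1]
    refine (tc_le hr (fun v hv => ((h2 _ (m v hv)).1.differentiableAt.comp v
      (f := fun v : ℂ => (q.2, s * v, v)) (by fun_prop)).differentiableWithinAt)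
      (fun v hv => (h2 _ (m v hv)).2.trans a1) k).trans ?_
    have := (inv_pos.2 hr).le
    gcongr
    exact this.trans a2
  obtain ⟨H, H1, -, H3⟩ := sum (ball 0 ε₀) P A A 1 isOpen_ball hA one_pos
    (fun k ε _ => natDegree_le_iff_degree_le.2 (by
      simpa [hP] using Lagrange.degree_interpolate_le (fun j => c k j ε) (inj k)))
    (fun k i ε h => (pa k (lcoeff ℂ i) ε
      (mem_ball_zero_iff.1 h).le).differentiableAt.differentiableWithinAt)
    fun k ε h s s0 s1 => mx (pa k (leval ↑s)) (fun e he =>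
      hB.self_of_nhdsSet e (mem_sphere_zero_iff_norm.2 he) k s s0 s1) ε h
  have an : ∀ ε ∈ ball (0 : ℂ) ε₀, AnalyticAt ℂ H (ε, 0, 0) := fun ε h =>
    H1 _ ⟨h, mem_ball_self (by positivity), mem_ball_self (by positivity)⟩
  have key : ∀ ε ∈ ball (0 : ℂ) ε₀, ∀ n : ℕ, ∀ᶠ v in 𝓝 (0 : ℂ),
      H (ε, n * v, v) = orb x (J ε) n (ε, v) := fun ε h n => eq_of_tc1
    ((an ε h).comp_of_eq (f := fun v : ℂ => (ε, n * v, v)) (by fun_prop) (by simp))
    ((oa (hE ε (mem_ball_zero_iff.1 h).le) n).1.comp (analyticAt_const.prod analyticAt_id))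
    fun k => (H3 ε h n k).trans ((sub_eq_zero.1 (norm_le_zero_iff.1
      (mx (f := fun e => (P k e).eval ↑n - c k n e)
        (fun e he => (pa k (leval ↑n) e he).sub (ca k n e he)) (fun e he => by
          rw [((circ e he).choose_spec.2.self_of_nhds k).2, sub_self, norm_zero]) ε h))).trans
        (hc k n ε))
  have nb := ball_mem_nhds (0 : ℂ) h0
  have a0 := an 0 (mem_ball_self h0)
  have g0 : ∀ ε ∈ ball (0 : ℂ) ε₀, ∀ᶠ v in 𝓝 (0 : ℂ), H (ε, 0, v) = x := fun ε h => by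
    simpa [orb] using key ε h 0
  refine ⟨H, a0, ?_, ?_, ?_⟩
  · refine (joint (F := fun q => H (q.1, 0, q.2) - x) ((a0.comp_of_eq
      (f := fun q : ℂ × ℂ => (q.1, 0, q.2)) (analyticAt_fst.prod
        (analyticAt_const.prod analyticAt_snd)) rfl).sub analyticAt_const) ?_).mono
      fun _ => sub_eq_zero.1
    filter_upwards [nb] with e he using (g0 e he).mono fun _ => sub_eq_zero.2
  · refine (joint (F := fun q => H (q.1, q.2, q.2) - (x + q.2)) ((a0.comp_of_eq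
      (f := fun q : ℂ × ℂ => (q.1, q.2, q.2)) (analyticAt_fst.prod (analyticAt_snd.prod
        analyticAt_snd)) rfl).sub (analyticAt_const.add analyticAt_snd)) ?_).mono
      fun _ => sub_eq_zero.1
    filter_upwards [nb] with e he using (key e he 1).mono fun _ k => sub_eq_zero.2 (by
      simpa [orb] using k)
  have b1 : ∀ q : ℂ × ℂ × ℂ, AnalyticAt ℂ (fun q : ℂ × ℂ × ℂ => q.2.1) q := fun q =>
    analyticAt_fst.comp analyticAt_snd
  have b2 : ∀ q : ℂ × ℂ × ℂ, AnalyticAt ℂ (fun q : ℂ × ℂ × ℂ => q.2.2) q := fun q =>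
    analyticAt_snd.comp analyticAt_snd
  have aF : ∀ ε ∈ ball (0 : ℂ) ε₀, AnalyticAt ℂ (fun q : ℂ × ℂ × ℂ =>
      E (q.1, H (q.1, q.2.1 - q.2.2, q.2.2), H q, H (q.1, q.2.1 + q.2.2, q.2.2))) (ε, 0, 0) :=
    fun ε h => (hE ε (mem_ball_zero_iff.1 h).le).an.comp_of_eq (analyticAt_fst.prod
      (((an ε h).comp_of_eq (f := fun q : ℂ × ℂ × ℂ => (q.1, q.2.1 - q.2.2, q.2.2))
        (analyticAt_fst.prod (((b1 _).sub (b2 _)).prod (b2 _))) (by simp)).prod ((an ε h).prod ((an ε h).comp_of_eq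
          (f := fun q : ℂ × ℂ × ℂ => (q.1, q.2.1 + q.2.2, q.2.2))
          (analyticAt_fst.prod (((b1 _).add (b2 _)).prod (b2 _))) (by simp)))))
      (by simp [(g0 ε h).self_of_nhds])
  refine joint (aF 0 (mem_ball_self h0)) ?_
  filter_upwards [nb] with e he
  have hl := hE e (mem_ball_zero_iff.1 he).le
  refine lines _ 1 ((aF e he).comp (analyticAt_const.prod analyticAt_id)) fun n hn => ?_
  obtain ⟨n, rfl⟩ := Nat.exists_eq_add_of_le' hn
  filter_upwards [key e he n, key e he (n + 1), key e he (n + 2),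
    (orb_near (oa hl) (J3 _ hl) (n + 2)).self_of_nhds.law n le_rfl] with v a1 a2 a3 a4
  rw [← a4, ← a1, ← a2, ← a3]
  push_cast
  ring_nf

end Vale.Agent.P097A
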