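import Mathlib

/-!
# P097A: complexification of a real analytic germ in two variables
-/

noncomputable section

namespace Vale.Agent.P097A

open Filter Topology Set Metric ContinuousMultilinearMap

theorem cx2 {f : ℝ × ℝ → ℝ} (hf : AnalyticAt ℝ f 0) :
    ∃ G : ℂ × ℂ → ℂ, AnalyticAt ℂ G 0 ∧ ∀ᶠ z in 𝓝 (0 : ℝ × ℝ), G (z.1, z.2) = f z := by
  obtain ⟨p, R, hp⟩ := hf
  obtain ⟨r, r0, hr⟩ := ENNReal.lt_iff_exists_nnreal_btwn.1 hp.r_pos
  obtain ⟨C, -, hC⟩ := p.norm_mul_pow_le_of_lt_radius (hr.trans_le hp.r_le)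
  let bs : Bool → ℝ × ℝ := fun b => cond b (1, 0) (0, 1)
  let pr : Bool → ℂ × ℂ →L[ℂ] ℂ := fun b => cond b (.fst ℂ ℂ ℂ) (.snd ℂ ℂ ℂ)
  let q : FormalMultilinearSeries ℂ (ℂ × ℂ) ℂ := fun n => ∑ s : Fin n → Bool,
    ((p n fun i => bs (s i) : ℝ) : ℂ) •
      (ContinuousMultilinearMap.mkPiAlgebra ℂ (Fin n) ℂ).compContinuousLinearMap fun i => pr (s i)
  have hq : ∀ n, ‖q n‖ ≤ 2 ^ n * ‖p n‖ := fun n => by
    refine (norm_sum_le _ _).trans ((Finset.sum_le_card_nsmul _ _ ‖p n‖ fun s _ => ?_).trans_eq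
      (by simp))
    rw [norm_smul, Complex.norm_real]
    refine (mul_le_of_le_one_right (norm_nonneg _) ((norm_compContinuousLinearMap_le _ _).trans ?_)).trans
      ((p n).unit_le_opNorm ((pi_norm_le_iff_of_nonneg zero_le_one).2 fun i => ?_))
    · rw [norm_mkPiAlgebra, one_mul]
      refine Finset.prod_le_one (fun _ _ => norm_nonneg _) fun i _ => ?_
      cases s i
      exacts [ContinuousLinearMap.norm_snd_le .., ContinuousLinearMap.norm_fst_le ..]
    · cases s i <;> simp [bs]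
  have q0 : 0 < q.radius := lt_of_lt_of_le (by simpa using r0.ne') (q.le_radius_of_bound C
    (r := r / 2) fun n => (mul_le_mul_of_nonneg_right (hq n) (by positivity)).trans
      (le_of_eq_of_le (by push_cast; rw [div_pow]; field_simp) (hC n)))
  have h1 := q.hasFPowerSeriesOnBall q0
  refine ⟨q.sum, h1.analyticAt, ?_⟩
  have t : Tendsto (fun z : ℝ × ℝ => ((z.1 : ℂ), (z.2 : ℂ))) (𝓝 0) (𝓝 0) :=
    Continuous.tendsto' (by fun_prop) _ _ (by simp)
  filter_upwards [t.eventually h1.hasFPowerSeriesAt.eventually_hasSum,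
    hp.hasFPowerSeriesAt.eventually_hasSum] with z k1 k2
  rw [zero_add] at k1 k2
  refine k1.unique ((Complex.hasSum_ofReal.2 k2).congr_fun fun n => ?_)
  have e : (fun _ : Fin n => z) = fun _ => ∑ b : Bool, cond b z.1 z.2 • bs b := by
    funext i
    simp [bs]
  rw [e, (p n).map_sum, Complex.ofReal_sum, sum_apply]
  refine Finset.sum_congr rfl fun s _ => ?_
  rw [(p n).map_smul_univ, smul_apply, compContinuousLinearMap_apply, mkPiAlgebra_apply,
    smul_eq_mul, smul_eq_mul, mul_comm, Complex.ofReal_mul, Complex.ofReal_prod]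
  congr 1
  exact Finset.prod_congr rfl fun i _ => by cases s i <;> rfl

end Vale.Agent.P097A
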