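import Vale.Agent.P097A.Spec

/-!
# P097A: basic properties of `lawZ`, `Reg`, `IntAt` (step LAW)
-/

set_option linter.all false

noncomputable section

namespace Vale.Agent.P097A

open Filter Topology Set Metric

namespace Law

theorem an_ds (hDD : Spec_DD) {f : ℂ → ℂ} {x : ℂ} (hf : AnalyticAt ℂ f x) :
    AnalyticAt ℂ (fun q : ℂ × ℂ => dslope f q.1 q.2) (x, x) := by
  have h0 : AnalyticAt ℂ (fun q : ℂ × ℂ => f q.2) (0, x) :=
    AnalyticAt.comp_of_eq (g := f) (f := fun q : ℂ × ℂ => q.2) hf analyticAt_snd rfl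
  have h : AnalyticAt ℂ (fun q : ℂ × ℂ × ℂ => dslope f q.2.1 q.2.2) (0, x, x) :=
    hDD ℂ (fun q : ℂ × ℂ => f q.2) 0 x h0
  have h2 : AnalyticAt ℂ (fun q : ℂ × ℂ => (((0 : ℂ), q) : ℂ × ℂ × ℂ)) (x, x) :=
    analyticAt_const.prod analyticAt_id
  exact AnalyticAt.comp_of_eq (g := fun q : ℂ × ℂ × ℂ => dslope f q.2.1 q.2.2)
    (f := fun q : ℂ × ℂ => (((0 : ℂ), q) : ℂ × ℂ × ℂ)) h h2 rfl

theorem an_21 (y : ℂ × ℂ × ℂ) : AnalyticAt ℂ (fun q : ℂ × ℂ × ℂ => q.2.1) y :=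
  AnalyticAt.comp (g := Prod.fst) (f := fun q : ℂ × ℂ × ℂ => q.2) analyticAt_fst analyticAt_snd

theorem an_22 (y : ℂ × ℂ × ℂ) : AnalyticAt ℂ (fun q : ℂ × ℂ × ℂ => q.2.2) y :=
  AnalyticAt.comp (g := Prod.snd) (f := fun q : ℂ × ℂ × ℂ => q.2) analyticAt_snd analyticAt_snd

theorem an_ds21 (hDD : Spec_DD) {f : ℂ → ℂ} {x : ℂ} (hf : AnalyticAt ℂ f x) :
    AnalyticAt ℂ (fun q : ℂ × ℂ × ℂ => dslope f q.2.1 q.1) (x, x, x) := by
  have h2 : AnalyticAt ℂ (fun q : ℂ × ℂ × ℂ => (q.2.1, q.1)) (x, x, x) :=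
    (an_21 _).prod analyticAt_fst
  exact AnalyticAt.comp_of_eq (g := fun q : ℂ × ℂ => dslope f q.1 q.2)
    (f := fun q : ℂ × ℂ × ℂ => (q.2.1, q.1)) (an_ds hDD hf) h2 rfl

theorem an_ds23 (hDD : Spec_DD) {f : ℂ → ℂ} {x : ℂ} (hf : AnalyticAt ℂ f x) :
    AnalyticAt ℂ (fun q : ℂ × ℂ × ℂ => dslope f q.2.1 q.2.2) (x, x, x) := by
  have h2 : AnalyticAt ℂ (fun q : ℂ × ℂ × ℂ => (q.2.1, q.2.2)) (x, x, x) :=
    (an_21 _).prod (an_22 _)
  exact AnalyticAt.comp_of_eq (g := fun q : ℂ × ℂ => dslope f q.1 q.2)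
    (f := fun q : ℂ × ℂ × ℂ => (q.2.1, q.2.2)) (an_ds hDD hf) h2 rfl

theorem an_d2 {f : ℂ → ℂ} {x : ℂ} (hf : AnalyticAt ℂ f x) :
    AnalyticAt ℂ (fun q : ℂ × ℂ × ℂ => deriv f q.2.1) (x, x, x) := by
  exact AnalyticAt.comp_of_eq (g := deriv f) (f := fun q : ℂ × ℂ × ℂ => q.2.1) hf.deriv
    (an_21 _) rfl

theorem an_lawZ (hDD : Spec_DD) {Z W : ℂ → ℂ} {x : ℂ} (hZ : AnalyticAt ℂ Z x)
    (hW : AnalyticAt ℂ W x) : AnalyticAt ℂ (lawZ Z W) (x, x, x) := by
  have : lawZ Z W = fun q => dslope W q.2.1 q.1 * dslope W q.2.1 q.2.2 * deriv Z q.2.1 ^ 2 -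
    dslope Z q.2.1 q.1 * dslope Z q.2.1 q.2.2 * deriv W q.2.1 ^ 2 := rfl
  rw [this]
  exact (((an_ds21 hDD hW).mul (an_ds23 hDD hW)).mul ((an_d2 hZ).pow 2)).sub
    (((an_ds21 hDD hZ).mul (an_ds23 hDD hZ)).mul ((an_d2 hW).pow 2))

theorem an_dslope {f : ℂ → ℂ} {x : ℂ} (hf : AnalyticAt ℂ f x) :
    AnalyticAt ℂ (dslope f x) x := by
  obtain ⟨p, hp⟩ := hf
  exact ⟨_, hp.has_fpower_series_dslope_fslope⟩

/-- the derivative of the divided difference on the diagonal -/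
theorem hasDerivAt_dslope {f : ℂ → ℂ} {x : ℂ} (hf : AnalyticAt ℂ f x) :
    HasDerivAt (dslope f x) (deriv (deriv f) x / 2) x := by
  have hg := an_dslope hf
  set g := dslope f x with hgdef
  have h1 : f = fun y => f x + (y - x) * g y := by
    funext y
    have := sub_smul_dslope f x y
    rw [smul_eq_mul] at this
    rw [hgdef, this]; ring
  have h2 : deriv f =ᶠ[𝓝 x] fun y => g y + (y - x) * deriv g y := by
    filter_upwards [hg.eventually_analyticAt] with y hy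
    have : HasDerivAt (fun y => f x + (y - x) * g y) (1 * g y + (y - x) * deriv g y) y :=
      (((hasDerivAt_id y).sub_const x).mul hy.differentiableAt.hasDerivAt).const_add _
    rw [← h1] at this
    rw [this.deriv]; ring
  have h3 : HasDerivAt (fun y => g y + (y - x) * deriv g y)
      (deriv g x + (1 * deriv g x + (x - x) * deriv (deriv g) x)) x :=
    hg.differentiableAt.hasDerivAt.add
      (((hasDerivAt_id x).sub_const x).mul hg.deriv.differentiableAt.hasDerivAt)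
  have h4 : deriv (deriv f) x = 2 * deriv g x := by
    rw [h2.deriv_eq, h3.deriv]; ring
  have : deriv (deriv f) x / 2 = deriv g x := by rw [h4]; ring
  rw [this]
  exact hg.differentiableAt.hasDerivAt

theorem fderiv_third {E : ℂ × ℂ × ℂ → ℂ} {x d : ℂ} (hE : DifferentiableAt ℂ E (x, x, x))
    (h : HasDerivAt (fun c => E (x, x, c)) d x) : fderiv ℂ E (x, x, x) (0, 0, 1) = d := by
  have h1 : HasDerivAt (fun c : ℂ => ((x, x, c) : ℂ × ℂ × ℂ)) (0, 0, 1) x :=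
    (hasDerivAt_const x x).prodMk ((hasDerivAt_const x x).prodMk (hasDerivAt_id x))
  have h2 := hE.hasFDerivAt.comp_hasDerivAt x h1
  exact h2.unique h

theorem isLaw (hDD : Spec_DD) {Z W : ℂ → ℂ} {x : ℂ} (h : Reg Z W x) : IsLaw (lawZ Z W) x := by
  have han := an_lawZ hDD h.anZ h.anW
  refine ⟨han, Eventually.of_forall fun q => ?_, Eventually.of_forall fun y => ?_, ?_⟩
  · simp only [lawZ]; ring
  · simp only [lawZ, dslope_same]; ring
  · have h1 : HasDerivAt (fun c => lawZ Z W (x, x, c))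
        (deriv W x * (deriv (deriv W) x / 2) * deriv Z x ^ 2 -
          deriv Z x * (deriv (deriv Z) x / 2) * deriv W x ^ 2) x := by
      simp only [lawZ, dslope_same]
      exact (((hasDerivAt_dslope h.anW).const_mul _).mul_const _).sub
        (((hasDerivAt_dslope h.anZ).const_mul _).mul_const _)
    rw [fderiv_third han.differentiableAt h1]
    have : deriv W x * (deriv (deriv W) x / 2) * deriv Z x ^ 2 -
          deriv Z x * (deriv (deriv Z) x / 2) * deriv W x ^ 2 =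
        deriv Z x * deriv W x *
          (deriv Z x * deriv (deriv W) x - deriv W x * deriv (deriv Z) x) / 2 := by ring
    rw [this]
    exact div_ne_zero (mul_ne_zero (mul_ne_zero h.dZ h.dW) (sub_ne_zero.mpr h.curv)) two_ne_zero

theorem reg_eventually {Z W : ℂ → ℂ} {x : ℂ} (h : Reg Z W x) : ∀ᶠ y in 𝓝 x, Reg Z W y := by
  have h1 := h.anZ.deriv.continuousAt.eventually_ne h.dZ
  have h2 := h.anW.deriv.continuousAt.eventually_ne h.dW
  have h3 : ContinuousAt (fun y => deriv Z y * deriv (deriv W) y - deriv W y * deriv (deriv Z) y) x :=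
    ((h.anZ.deriv.mul h.anW.deriv.deriv).sub (h.anW.deriv.mul h.anZ.deriv.deriv)).continuousAt
  have h4 := h3.eventually_ne (sub_ne_zero.mpr h.curv)
  filter_upwards [h.anZ.eventually_analyticAt, h.anW.eventually_analyticAt, h1, h2, h4]
    with y a b c d e
  exact ⟨a, b, c, d, sub_ne_zero.mp e⟩

theorem tendsto_triple {Θ : ℂ × ℂ → ℂ} {x : ℂ} (hΘ : ContinuousAt Θ 0) (h0 : Θ 0 = x) :
    Tendsto (fun p : ℂ × ℂ => (Θ (p.1 - p.2, p.2), Θ p, Θ (p.1 + p.2, p.2))) (𝓝 0)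
      (𝓝 (x, x, x)) := by
  have a : Tendsto (fun p : ℂ × ℂ => (p.1 - p.2, p.2)) (𝓝 0) (𝓝 0) := by
    have : Continuous (fun p : ℂ × ℂ => (p.1 - p.2, p.2)) := by fun_prop
    exact this.tendsto' 0 0 (by simp)
  have b : Tendsto (fun p : ℂ × ℂ => (p.1 + p.2, p.2)) (𝓝 0) (𝓝 0) := by
    have : Continuous (fun p : ℂ × ℂ => (p.1 + p.2, p.2)) := by fun_prop
    exact this.tendsto' 0 0 (by simp)
  have c : Tendsto Θ (𝓝 0) (𝓝 x) := h0 ▸ hΘ.tendsto
  exact (c.comp a).prodMk_nhds (c.prodMk_nhds (c.comp b))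

/-- transport of integrability along an analytic local diffeomorphism -/
theorem intLaw_map {E E' : ℂ × ℂ × ℂ → ℂ} {B : ℂ → ℂ} {x : ℂ} (hB : AnalyticAt ℂ B x)
    (hB' : deriv B x ≠ 0)
    (h : ∀ᶠ q in 𝓝 (x, x, x), E q = 0 → E' (B q.1, B q.2.1, B q.2.2) = 0)
    (hE : IntLaw E x) : IntLaw E' (B x) := by
  obtain ⟨Θ, han, h0, hd, hs⟩ := hE
  have hB0 : AnalyticAt ℂ B (Θ 0) := h0 ▸ hB
  refine ⟨fun p => B (Θ p), hB0.comp han, by simp only [h0], ?_, ?_⟩
  · have h1 : HasFDerivAt (fun p => B (Θ p)) (deriv B (Θ 0) • fderiv ℂ Θ 0) 0 :=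
      hB0.differentiableAt.hasDerivAt.comp_hasFDerivAt (0 : ℂ × ℂ)
        han.differentiableAt.hasFDerivAt
    rw [h1.fderiv, ContinuousLinearMap.smul_apply, smul_eq_mul, h0]
    exact mul_ne_zero hB' hd
  · filter_upwards [(tendsto_triple han.continuousAt h0).eventually h, hs] with p h1 h2
    exact h1 h2

theorem intLaw_mono {E E' : ℂ × ℂ × ℂ → ℂ} {x : ℂ}
    (h : ∀ᶠ q in 𝓝 (x, x, x), E q = 0 → E' q = 0) (hE : IntLaw E x) : IntLaw E' x :=
  intLaw_map (B := id) analyticAt_id (by simp) h hE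

theorem dslope_congr {f g : ℂ → ℂ} {a b : ℂ} (h : f =ᶠ[𝓝 b] g) (ha : f a = g a) :
    dslope f b a = dslope g b a := by
  by_cases hab : a = b
  · subst hab; simp only [dslope_same]; exact h.deriv_eq
  · rw [dslope_of_ne _ hab, dslope_of_ne _ hab, slope_def_field, slope_def_field, ha, h.eq_of_nhds]

theorem ev_triple {p : ℂ → Prop} {x : ℂ} (h : ∀ᶠ y in 𝓝 x, p y) :
    ∀ᶠ q : ℂ × ℂ × ℂ in 𝓝 (x, x, x), p q.1 ∧ p q.2.1 ∧ p q.2.2 := by
  have a : Tendsto (fun q : ℂ × ℂ × ℂ => q.1) (𝓝 (x, x, x)) (𝓝 x) := continuous_fst.tendsto _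
  have b : Tendsto (fun q : ℂ × ℂ × ℂ => q.2.1) (𝓝 (x, x, x)) (𝓝 x) :=
    (continuous_fst.comp continuous_snd).tendsto _
  have c : Tendsto (fun q : ℂ × ℂ × ℂ => q.2.2) (𝓝 (x, x, x)) (𝓝 x) :=
    (continuous_snd.comp continuous_snd).tendsto _
  exact (a.eventually h).and ((b.eventually h).and (c.eventually h))

theorem lawZ_congr {Z W Z' W' : ℂ → ℂ} {x : ℂ} (hZ : Z =ᶠ[𝓝 x] Z') (hW : W =ᶠ[𝓝 x] W') :
    lawZ Z W =ᶠ[𝓝 (x, x, x)] lawZ Z' W' := by
  filter_upwards [ev_triple hZ.eventuallyEq_nhds, ev_triple hW.eventuallyEq_nhds] with q h1 h2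
  simp only [lawZ]
  rw [dslope_congr h1.2.1 h1.1.eq_of_nhds, dslope_congr h1.2.1 h1.2.2.eq_of_nhds,
    dslope_congr h2.2.1 h2.1.eq_of_nhds, dslope_congr h2.2.1 h2.2.2.eq_of_nhds,
    h1.2.1.deriv_eq, h2.2.1.deriv_eq]

theorem reg_congr {Z W Z' W' : ℂ → ℂ} {x : ℂ} (hZ : Z =ᶠ[𝓝 x] Z') (hW : W =ᶠ[𝓝 x] W')
    (h : Reg Z W x) : Reg Z' W' x := by
  refine ⟨h.anZ.congr hZ, h.anW.congr hW, hZ.deriv_eq ▸ h.dZ, hW.deriv_eq ▸ h.dW, ?_⟩
  rw [← hZ.deriv_eq, ← hW.deriv_eq, ← hZ.deriv.deriv_eq, ← hW.deriv.deriv_eq]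
  exact h.curv

theorem intAt_congr {Z W Z' W' : ℂ → ℂ} {x : ℂ} (hZ : Z =ᶠ[𝓝 x] Z') (hW : W =ᶠ[𝓝 x] W')
    (h : IntAt Z W x) : IntAt Z' W' x := by
  refine intLaw_mono ?_ h
  filter_upwards [lawZ_congr hZ hW] with q hq h0
  rw [← hq, h0]

theorem deriv_aff (f : ℂ → ℂ) (a b : ℂ) :
    deriv (fun τ => a * f τ + b) = fun τ => a * deriv f τ := by
  funext τ
  rw [deriv_add_const, deriv_const_mul_field]

theorem deriv2_aff (f : ℂ → ℂ) (a b : ℂ) :
    deriv (deriv (fun τ => a * f τ + b)) = fun τ => a * deriv (deriv f) τ := by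
  rw [deriv_aff]
  funext τ
  rw [deriv_const_mul_field]

theorem dslope_aff (f : ℂ → ℂ) (a b y z : ℂ) :
    dslope (fun τ => a * f τ + b) y z = a * dslope f y z := by
  by_cases h : z = y
  · subst h; simp only [dslope_same, deriv_aff]
  · rw [dslope_of_ne _ h, dslope_of_ne _ h, slope_def_field, slope_def_field]; ring

theorem lawZ_aff (Z W : ℂ → ℂ) (a b c d : ℂ) (q : ℂ × ℂ × ℂ) :
    lawZ (fun τ => a * Z τ + b) (fun τ => c * W τ + d) q = a ^ 2 * c ^ 2 * lawZ Z W q := by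
  simp only [lawZ, dslope_aff, deriv_aff]; ring

theorem reg_aff {Z W : ℂ → ℂ} {x a c : ℂ} (b d : ℂ) (ha : a ≠ 0) (hc : c ≠ 0) (h : Reg Z W x) :
    Reg (fun τ => a * Z τ + b) (fun τ => c * W τ + d) x := by
  refine ⟨(analyticAt_const.mul h.anZ).add analyticAt_const,
    (analyticAt_const.mul h.anW).add analyticAt_const, ?_, ?_, ?_⟩
  · rw [deriv_aff]; exact mul_ne_zero ha h.dZ
  · rw [deriv_aff]; exact mul_ne_zero hc h.dW
  · rw [deriv2_aff, deriv2_aff, deriv_aff, deriv_aff]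
    intro e
    apply h.curv
    apply mul_left_cancel₀ (mul_ne_zero ha hc)
    linear_combination e

theorem lawZ_swap (Z W : ℂ → ℂ) (q : ℂ × ℂ × ℂ) : lawZ W Z q = -lawZ Z W q := by
  simp only [lawZ]; ring

theorem dslope_comp {f B : ℂ → ℂ} {a b : ℂ} (hB : DifferentiableAt ℂ B b)
    (hf : DifferentiableAt ℂ f (B b)) :
    dslope (f ∘ B) b a = dslope f (B b) (B a) * dslope B b a := by
  by_cases h : a = b
  · subst h; simp only [dslope_same]; exact deriv_comp a hf hB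
  · have h1 := sub_smul_dslope f (B b) (B a)
    rw [smul_eq_mul] at h1
    rw [dslope_of_ne _ h, dslope_of_ne _ h, slope_def_field, slope_def_field]
    simp only [Function.comp]
    rw [← h1]; ring

theorem lawZ_comp {Z W B : ℂ → ℂ} {q : ℂ × ℂ × ℂ} (hB : DifferentiableAt ℂ B q.2.1)
    (hZ : DifferentiableAt ℂ Z (B q.2.1)) (hW : DifferentiableAt ℂ W (B q.2.1)) :
    lawZ (Z ∘ B) (W ∘ B) q = lawZ Z W (B q.1, B q.2.1, B q.2.2) *
      (dslope B q.2.1 q.1 * dslope B q.2.1 q.2.2 * deriv B q.2.1 ^ 2) := by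
  simp only [lawZ]
  rw [dslope_comp hB hZ, dslope_comp hB hZ, dslope_comp hB hW, dslope_comp hB hW,
    deriv_comp _ hZ hB, deriv_comp _ hW hB]
  ring

theorem deriv_comp_ev {f B : ℂ → ℂ} {x : ℂ} (hB : AnalyticAt ℂ B x) (hf : AnalyticAt ℂ f (B x)) :
    deriv (f ∘ B) =ᶠ[𝓝 x] fun y => deriv f (B y) * deriv B y := by
  filter_upwards [hB.eventually_analyticAt, hB.continuousAt.eventually hf.eventually_analyticAt]
    with y h1 h2
  exact deriv_comp y h2.differentiableAt h1.differentiableAt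

theorem deriv2_comp {f B : ℂ → ℂ} {x : ℂ} (hB : AnalyticAt ℂ B x) (hf : AnalyticAt ℂ f (B x)) :
    deriv (deriv (f ∘ B)) x =
      deriv (deriv f) (B x) * deriv B x ^ 2 + deriv f (B x) * deriv (deriv B) x := by
  rw [(deriv_comp_ev hB hf).deriv_eq]
  have h1 : HasDerivAt (fun y => deriv f (B y)) (deriv (deriv f) (B x) * deriv B x) x :=
    hf.deriv.differentiableAt.hasDerivAt.comp x hB.differentiableAt.hasDerivAt
  have h2 := h1.mul hB.deriv.differentiableAt.hasDerivAt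
  have h3 : HasDerivAt (fun y => deriv f (B y) * deriv B y)
    (deriv (deriv f) (B x) * deriv B x * deriv B x + deriv f (B x) * deriv (deriv B) x) x := h2
  rw [h3.deriv]; ring

theorem reg_comp {Z W B : ℂ → ℂ} {x : ℂ} (hB : AnalyticAt ℂ B x) (hB' : deriv B x ≠ 0)
    (hZ : AnalyticAt ℂ Z (B x)) (hW : AnalyticAt ℂ W (B x)) :
    Reg Z W (B x) ↔ Reg (Z ∘ B) (W ∘ B) x := by
  have e1 := deriv_comp x hZ.differentiableAt hB.differentiableAt
  have e2 := deriv_comp x hW.differentiableAt hB.differentiableAt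
  have e3 := deriv2_comp hB hZ
  have e4 := deriv2_comp hB hW
  constructor
  · intro h
    refine ⟨hZ.comp hB, hW.comp hB, ?_, ?_, ?_⟩
    · rw [e1]; exact mul_ne_zero h.dZ hB'
    · rw [e2]; exact mul_ne_zero h.dW hB'
    · rw [e1, e2, e3, e4]
      intro e
      apply h.curv
      apply mul_left_cancel₀ (pow_ne_zero 3 hB')
      linear_combination e
  · intro h
    refine ⟨hZ, hW, ?_, ?_, ?_⟩
    · have := h.dZ; rw [e1] at this; exact left_ne_zero_of_mul this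
    · have := h.dW; rw [e2] at this; exact left_ne_zero_of_mul this
    · have := h.curv
      rw [e1, e2, e3, e4] at this
      intro e
      apply this
      linear_combination (deriv B x ^ 3) * e

theorem lawZ_comp_ev {Z W B : ℂ → ℂ} {x : ℂ} (hB : AnalyticAt ℂ B x)
    (hZ : AnalyticAt ℂ Z (B x)) (hW : AnalyticAt ℂ W (B x)) :
    ∀ᶠ q in 𝓝 (x, x, x), lawZ (Z ∘ B) (W ∘ B) q = lawZ Z W (B q.1, B q.2.1, B q.2.2) *
      (dslope B q.2.1 q.1 * dslope B q.2.1 q.2.2 * deriv B q.2.1 ^ 2) := by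
  filter_upwards [ev_triple hB.eventually_analyticAt,
    ev_triple (hB.continuousAt.eventually hZ.eventually_analyticAt),
    ev_triple (hB.continuousAt.eventually hW.eventually_analyticAt)] with q h1 h2 h3
  exact lawZ_comp h1.2.1.differentiableAt h2.2.1.differentiableAt h3.2.1.differentiableAt

theorem intAt_comp (hDD : Spec_DD) {Z W B : ℂ → ℂ} {x : ℂ} (hB : AnalyticAt ℂ B x)
    (hB' : deriv B x ≠ 0) (hZ : AnalyticAt ℂ Z (B x)) (hW : AnalyticAt ℂ W (B x)) :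
    IntAt Z W (B x) ↔ IntAt (Z ∘ B) (W ∘ B) x := by
  constructor
  · intro h
    let r := hB.hasStrictDerivAt.localInverse _ _ _ hB'
    have hra : AnalyticAt ℂ r (B x) := hB.analyticAt_localInverse hB'
    have hr0 : r (B x) = x := HasStrictFDerivAt.localInverse_apply_image ..
    have hri : ∀ᶠ y in 𝓝 (B x), B (r y) = y := HasStrictDerivAt.eventually_right_inverse ..
    have hrd : deriv r (B x) ≠ 0 := by
      have := (hB.hasStrictDerivAt.to_localInverse hB').hasDerivAt.deriv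
      rw [show deriv r (B x) = (deriv B x)⁻¹ from this]
      exact inv_ne_zero hB'
    have ht : Tendsto (fun q : ℂ × ℂ × ℂ => (r q.1, r q.2.1, r q.2.2)) (𝓝 (B x, B x, B x))
        (𝓝 (x, x, x)) := by
      have c : Tendsto r (𝓝 (B x)) (𝓝 x) := by
        have := hra.continuousAt.tendsto
        rwa [hr0] at this
      exact (c.comp (continuous_fst.tendsto _)).prodMk_nhds
        ((c.comp ((continuous_fst.comp continuous_snd).tendsto _)).prodMk_nhds
          (c.comp ((continuous_snd.comp continuous_snd).tendsto _)))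
    have := intLaw_map (E' := lawZ (Z ∘ B) (W ∘ B)) hra hrd ?_ h
    · rwa [hr0] at this
    · filter_upwards [ht.eventually (lawZ_comp_ev hB hZ hW), ev_triple hri] with q h1 h2 h3
      rw [h1]
      simp only [h2.1, h2.2.1, h2.2.2]
      rw [h3, zero_mul]
  · intro h
    refine intLaw_map hB hB' ?_ h
    have hc : ContinuousAt (fun q : ℂ × ℂ × ℂ =>
        dslope B q.2.1 q.1 * dslope B q.2.1 q.2.2 * deriv B q.2.1 ^ 2) (x, x, x) :=
      (((an_ds21 hDD hB).mul (an_ds23 hDD hB)).mul ((an_d2 hB).pow 2)).continuousAt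
    have hne := hc.eventually_ne (y := 0) (by
      simp only [dslope_same]
      exact mul_ne_zero (mul_ne_zero hB' hB') (pow_ne_zero 2 hB'))
    filter_upwards [lawZ_comp_ev hB hZ hW, hne] with q h1 h2 h3
    rw [h1] at h3
    exact (mul_eq_zero.mp h3).resolve_right h2

end Law

theorem law (hDD : Spec_DD) : Spec_LAW := by
  refine ⟨fun Z W x h => ⟨Law.isLaw hDD h, Law.reg_eventually h⟩,
    fun Z W Z' W' x hZ hW => ⟨Law.reg_congr hZ hW, Law.intAt_congr hZ hW⟩,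
    fun Z W x a b c d ha hc => ⟨Law.reg_aff b d ha hc, fun _ _ h => ?_⟩,
    fun Z W x => ⟨fun h => ⟨h.anW, h.anZ, h.dW, h.dZ, fun e => h.curv e.symm⟩, fun h => ?_⟩,
    fun Z W B x hB hB' hZ hW => ⟨Law.reg_comp hB hB' hZ hW, Law.intAt_comp hDD hB hB' hZ hW⟩⟩
  · refine Law.intLaw_mono (Eventually.of_forall fun q hq => ?_) h
    rw [Law.lawZ_aff, hq, mul_zero]
  · refine Law.intLaw_mono (Eventually.of_forall fun q hq => ?_) h
    rw [Law.lawZ_swap, hq, neg_zero]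

end Vale.Agent.P097A
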