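import Vale.Agent.P097A.SpecR
import Vale.Agent.P097A.Law
import Vale.Agent.P097A.Cx2

/-!
# P097A: the bridge from the real billiard, and the theorem on the zeros of the radius of curvature
-/

noncomputable section

namespace Vale.Agent.P097A

open Filter Topology Set Metric Complex Vale.Agent.P097

attribute [local fun_prop] analyticAt_fst analyticAt_snd

namespace Bridge

variable {H : ℂ → ℂ} {z : ℂ}

theorem an_Z (hH : AnalyticAt ℂ H z) : AnalyticAt ℂ (Zc H) z := by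
  have := hH.deriv
  unfold Zc
  fun_prop

theorem an_W (hH : AnalyticAt ℂ H z) : AnalyticAt ℂ (Wc H) z := by
  have := hH.deriv
  unfold Wc
  fun_prop

theorem der_Z (hH : AnalyticAt ℂ H z) :
    HasDerivAt (Zc H) ((H z + deriv (deriv H) z) * I * exp (z * I)) z := by
  refine ((hH.differentiableAt.hasDerivAt.add (hH.deriv.differentiableAt.hasDerivAt.mul_const I)).mul
    ((hasDerivAt_id z).mul_const I).cexp).congr_deriv ?_
  simp only [id, Pi.add_apply]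
  linear_combination deriv H z * exp (z * I) * I_mul_I

theorem der_W (hH : AnalyticAt ℂ H z) :
    HasDerivAt (Wc H) (-((H z + deriv (deriv H) z) * I * exp (-(z * I)))) z := by
  refine ((hH.differentiableAt.hasDerivAt.sub (hH.deriv.differentiableAt.hasDerivAt.mul_const I)).mul
    ((hasDerivAt_id z).mul_const I).neg.cexp).congr_deriv ?_
  simp only [id, Pi.sub_apply, Pi.neg_apply]
  linear_combination deriv H z * exp (-(z * I)) * I_mul_I

/-- the complex curve is the boundary at the real point `a` -/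
def Rl (h : ℝ → ℝ) (H : ℂ → ℂ) (a : ℝ) : Prop :=
  AnalyticAt ℂ H a ∧ Zc H a = bdry h a ∧ Wc H a = (starRingEnd ℂ) (bdry h a)

theorem ev_rl {h : ℝ → ℝ} {ψ₀ : ℝ} (hT : IsTable h) (aH : AnalyticAt ℂ H ψ₀)
    (eH : ∀ᶠ ψ in 𝓝 ψ₀, H (ψ : ℝ) = (h ψ : ℝ)) : ∀ᶠ a in 𝓝 ψ₀, Rl h H a := by
  filter_upwards [eH.eventually_nhds,
    (continuous_ofReal.tendsto ψ₀).eventually aH.eventually_analyticAt] with a k1 k2
  have k3 : deriv H a = (deriv h a : ℝ) := k2.differentiableAt.hasDerivAt.comp_ofReal.unique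
    ((hT.1 a).differentiableAt.hasDerivAt.ofReal_comp.congr_of_eventuallyEq k1)
  refine ⟨k2, by rw [Zc, bdry, k1.self_of_nhds, k3], ?_⟩
  rw [Wc, bdry, k1.self_of_nhds, k3]
  simp [← exp_conj, sub_eq_add_neg]

theorem law_real {h : ℝ → ℝ} {a b c α β γ : ℝ} (s1 : Step h a α b β) (s2 : Step h b β c γ)
    (ha : Rl h H a) (hb : Rl h H b) (hc : Rl h H c) : lawZ (Zc H) (Wc H) (a, b, c) = 0 := by
  obtain ⟨a0, -, b0, -, e1, l, -, e2⟩ := s1
  obtain ⟨-, -, c0, -, e3, m, -, e4⟩ := s2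
  have n1 : (a : ℂ) ≠ b := ofReal_injective.ne (by linarith)
  have n2 : (c : ℂ) ≠ b := ofReal_injective.ne (by linarith)
  have e5 := congrArg (starRingEnd ℂ) e2
  have e6 := congrArg (starRingEnd ℂ) e4
  simp only [map_add, map_mul, conj_ofReal, conj_I, ← exp_conj, mul_neg] at e5 e6
  rw [show a + α = b - β by linarith] at e2 e5
  have x1 : exp (((b - β : ℝ) : ℂ) * I) * exp (((b + β : ℝ) : ℂ) * I) = exp (b * I) ^ 2 := by
    rw [← exp_add, sq, ← exp_add]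
    congr 1
    push_cast
    ring
  have x2 : exp (-(((b - β : ℝ) : ℂ) * I)) * exp (-(((b + β : ℝ) : ℂ) * I)) =
      exp (-(b * I)) ^ 2 := by
    rw [exp_neg, exp_neg, exp_neg, ← mul_inv, x1, inv_pow]
  simp only [lawZ, dslope_of_ne _ n1, dslope_of_ne _ n2, slope_def_field, (der_Z hb.1).deriv,
    (der_W hb.1).deriv, ha.2.1, ha.2.2, hb.2.1, hb.2.2, hc.2.1, hc.2.2]
  rw [e6, e4, eq_sub_of_add_eq e5.symm, eq_sub_of_add_eq e2.symm]
  linear_combination (-(l * m * (H b + deriv (deriv H) b) ^ 2 * I ^ 4 / (a - b) / (c - b))) *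
    (exp (b * I) ^ 2 * x2 - exp (-(b * I)) ^ 2 * x1)

theorem place {ρ f g : ℂ → ℂ} {k j : ℕ} (hρ : AnalyticAt ℂ ρ 0) (hk : analyticOrderAt ρ 0 = k)
    (hg : AnalyticAt ℂ g 0) (hj : analyticOrderAt g 0 = j) (hf : AnalyticAt ℂ f 0) (f0 : f 0 = 0)
    (e : deriv f =ᶠ[𝓝 0] ρ * g) :
    ∃ u, AnalyticAt ℂ u 0 ∧ u 0 ≠ 0 ∧ f =ᶠ[𝓝 0] pw ((k + j + 1 : ℕ) : ℤ) u := by
  obtain ⟨u, h1, h2, h3⟩ := (hf.analyticOrderAt_eq_natCast (n := k + j + 1)).1
    ((analyticOrderAt_deriv_eq_iff hf f0 (n := k + j)).2 (by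
      rw [analyticOrderAt_congr e, analyticOrderAt_mul hρ hg, hk, hj, Nat.cast_add]))
  exact ⟨u, h1, h2, h3.mono fun τ hτ => by rw [hτ, pw, zpow_natCast, sub_zero, smul_eq_mul]⟩

end Bridge

open Bridge

theorem br (hL : Spec_LINES) (hD : Spec_DD) : Spec_BR := by
  rintro h H ψ₀ hT ⟨ε, η, Φ, J, ε0, η0, aΦ, aJ, h1, h2, -, h4, h5, -⟩ aH eH
  obtain ⟨q1, q2⟩ := h1 (ψ₀, 0) (by simpa)
  generalize J (ψ₀, 0) = q at q1 q2
  obtain ⟨x, w⟩ := q
  obtain rfl : w = 0 := by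
    have k := abs_lt.1 q1
    rcases lt_trichotomy w 0 with m | m | m
    · have := (h5 x (-w) (by linarith) (by linarith)).1
      simp [h4 x w q1, q2] at this
    · exact m
    · have := (h5 x w m k.2).1
      simp [q2] at this
  have z0 : ∀ y, (Φ (y, 0)).2 = 0 := fun y => by
    have := congrArg Prod.snd (h4 y 0 (by simpa))
    rw [neg_zero] at this
    linarith
  have a1 : AnalyticAt ℝ (fun z : ℝ × ℝ => (Φ (x + z.1, z.2)).1) 0 :=
    analyticAt_fst.comp ((aΦ (x, 0) q1).comp_of_eq (by fun_prop) (by simp))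
  obtain ⟨Θ, aΘ, eΘ⟩ := cx2 a1
  have Θ0 : Θ (0, 0) = ψ₀ := by simpa [q2] using eΘ.self_of_nhds
  refine ⟨Θ, aΘ, Θ0, fun k => ?_, ?_⟩
  · have d1 : HasDerivAt (fun y : ℂ => Θ (y, 0)) 0 ((0 : ℝ) : ℂ) :=
      (HasFDerivAt.comp_hasDerivAt (l := Θ) (f := fun y : ℂ => (y, 0)) 0
        aΘ.differentiableAt.hasFDerivAt
        ((hasDerivAt_id _).prodMk (hasDerivAt_const _ _))).congr_deriv k
    have d2 : HasDerivAt (fun y : ℝ => (Φ (x + y, 0)).1) 0 0 :=
      d1.real_of_complex.congr_of_eventuallyEq (((Continuous.tendsto' (f := fun y : ℝ => (y, (0 : ℝ)))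
        (by fun_prop) 0 0 rfl).eventually eΘ).mono fun y hy => (congrArg re hy).symm)
    have d3 := HasFDerivAt.comp_hasDerivAt (l := J) (f := fun y : ℝ => ((Φ (x + y, 0)).1, (0 : ℝ))) 0
      (aJ _ (by simpa)).differentiableAt.hasFDerivAt (d2.prodMk (hasDerivAt_const _ _))
    have e : (J ∘ fun y : ℝ => ((Φ (x + y, 0)).1, (0 : ℝ))) = fun y => (x + y, 0) := funext fun y =>
      (congrArg J (Prod.ext rfl (z0 (x + y)).symm : (_, (0 : ℝ)) = Φ (x + y, 0))).trans (h2 (x + y, 0) q1)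
    rw [e] at d3
    have := d3.unique (((hasDerivAt_id 0).const_add x).prodMk (hasDerivAt_const _ _))
    rw [Prod.mk_zero_zero, map_zero] at this
    exact zero_ne_one (congrArg Prod.fst this)
  have aG : AnalyticAt ℂ (fun p : ℂ × ℂ => lawZ (Zc H) (Wc H)
      (Θ (p.1 - p.2, p.2), Θ p, Θ (p.1 + p.2, p.2))) 0 :=
    (Law.an_lawZ hD (an_Z aH) (an_W aH)).comp_of_eq ((aΘ.comp_of_eq (by fun_prop) (by simp)).prod
      (aΘ.prod (aΘ.comp_of_eq (by fun_prop) (by simp)))) (by simp [Θ0, ← Prod.mk_zero_zero])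
  have t0 : Tendsto (fun z : ℝ × ℝ => (Φ (x + z.1, z.2)).1) (𝓝 0) (𝓝 ψ₀) := by
    simpa [q2] using a1.continuousAt.tendsto
  have k0 := eΘ.and (t0.eventually (ev_rl hT aH eH))
  refine hL _ 0 aG fun n _ => ?_
  have t : ∀ c : ℝ, Tendsto (fun w : ℝ => (c * w, w)) (𝓝[>] 0) (𝓝 0) := fun c =>
    (Continuous.tendsto' (by fun_prop) _ _ (by simp)).mono_left nhdsWithin_le_nhds
  refine (aG.comp_of_eq (f := fun v : ℂ => ((n : ℂ) * v, v)) (by fun_prop)
    (by simp)).frequently_zero_iff_eventually_zero.1 (Tendsto.frequently (f := ofReal)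
      (l₁ := 𝓝[>] 0) (tendsto_nhdsWithin_iff.2 ⟨(continuous_ofReal.tendsto 0).mono_left
        nhdsWithin_le_nhds, eventually_mem_nhdsWithin.mono fun w hw =>
          ofReal_ne_zero.2 (ne_of_gt hw)⟩) (Eventually.frequently ?_))
  filter_upwards [(t (n - 1)).eventually k0, (t n).eventually k0, (t (n + 1)).eventually k0,
    Ioo_mem_nhdsGT ε0] with w k1 k2 k3 k4
  have s1 := h5 (x + (n - 1) * w) w k4.1 k4.2
  have s2 := h5 (x + n * w) w k4.1 k4.2
  rw [show x + (n - 1) * w + w = x + n * w by ring] at s1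
  rw [show x + n * w + w = x + (n + 1) * w by ring] at s2
  have := law_real s1 s2 k1.2 k2.2 k3.2
  rw [← k1.1, ← k2.1, ← k3.1] at this
  simpa [sub_mul, add_mul] using this

theorem t2 (hB : Spec_BR) (hZ : Spec_ZW) (hP : Spec_PROP) (hL : Spec_LAW) (hE : Spec_EXP)
    (hb : Spec_PB) : Spec_T2 := by
  intro h H U ψ₀ hT hI hU hc hH h0 eH z hz z0
  have aH := hH.analyticOnNhd hU
  have aρ : AnalyticOnNhd ℂ (fun z => H z + deriv (deriv H) z) U := aH.add aH.deriv.deriv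
  have ρ0 : H ψ₀ + deriv (deriv H) ψ₀ ≠ 0 := by
    rw [hZ.2.2.1 h H ψ₀ (hT.1 _) (aH _ h0) eH]
    exact ofReal_ne_zero.2 (hT.2.2 _).ne'
  have top : ∀ y ∈ U, analyticOrderAt (fun z => H z + deriv (deriv H) z) y ≠ ⊤ := fun y hy =>
    aρ.analyticOrderAt_ne_top_of_isPreconnected hc h0 hy
      (by rw [(aρ _ h0).analyticOrderAt_eq_zero.2 ρ0]; simp)
  have pr : ∀ D ⊆ U, IsOpen D → IsPreconnected D → (∀ y ∈ D, H y + deriv (deriv H) y ≠ 0) →
      (∃ y ∈ D, IntAt (Zc H) (Wc H) y) → ∀ y ∈ D, IntAt (Zc H) (Wc H) y :=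
    fun D k1 k2 k3 k4 ⟨y, k5, k6⟩ => hP _ D k2 k3
      (fun x hx => (hL.1 _ _ _ (hZ.1 H x (aH x (k1 hx)) (k4 x hx))).1) y k5 k6
  have key : ∀ᶠ τ in 𝓝[≠] z, IntAt (Zc H) (Wc H) τ := by
    refine hc.induction₂' (fun x y => (∀ᶠ τ in 𝓝[≠] x, IntAt (Zc H) (Wc H) τ) →
      ∀ᶠ τ in 𝓝[≠] y, IntAt (Zc H) (Wc H) τ) (fun x hx => ?_)
      (fun _ _ _ _ _ _ a b c => b (a c)) h0 hz ?_
    · obtain ⟨r, r0, hr⟩ := Metric.eventually_nhds_iff_ball.1 ((eventually_nhdsWithin_iff.1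
        ((aρ x hx).eventually_eq_zero_or_eventually_ne_zero.resolve_left fun k =>
          top x hx (analyticOrderAt_eq_top.2 k))).and (hU.mem_nhds hx))
      have m1 : ∀ y ∈ ball x r, ∀ᶠ τ in 𝓝[≠] y, τ ∈ ball x r \ {x} := fun y hy => by
        refine Eventually.and (nhdsWithin_le_nhds (isOpen_ball.mem_nhds hy)) ?_
        rcases eq_or_ne y x with rfl | k
        exacts [self_mem_nhdsWithin, nhdsWithin_le_nhds (eventually_ne_nhds k)]
      have m2 : ∀ y ∈ ball x r, ∀ y' ∈ ball x r, (∀ᶠ τ in 𝓝[≠] y, IntAt (Zc H) (Wc H) τ) →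
          ∀ᶠ τ in 𝓝[≠] y', IntAt (Zc H) (Wc H) τ := fun y hy y' hy' k =>
        (m1 y' hy').mono (pr _ (fun τ k => (hr τ k.1).2) (isOpen_ball.sdiff isClosed_singleton)
          (hb x r) (fun τ k => (hr τ k.1).1 k.2) ((m1 y hy).and k).exists)
      exact nhdsWithin_le_nhds (mem_of_superset (ball_mem_nhds x r0) fun y hy =>
        ⟨m2 x (mem_ball_self r0) y hy, m2 y hy x (mem_ball_self r0)⟩)
    · obtain ⟨r, r0, hr⟩ := Metric.eventually_nhds_iff_ball.1
        (((aρ _ h0).continuousAt.eventually_ne ρ0).and (hU.mem_nhds h0))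
      exact nhdsWithin_le_nhds (mem_of_superset (ball_mem_nhds _ r0)
        (pr _ (fun τ k => (hr τ k).2) isOpen_ball (convex_ball _ _).isPreconnected
          (fun τ k => (hr τ k).1) ⟨_, mem_ball_self r0, hB h H ψ₀ hT hI (aH _ h0) eH⟩))
  have aB : ∀ τ, AnalyticAt ℂ (fun τ => z + τ) τ := fun τ => by fun_prop
  have ev : ∀ᶠ τ in 𝓝 (0 : ℂ), z + τ ∈ U := (aB 0).continuousAt.eventually
    (by simpa using hU.mem_nhds hz)
  obtain ⟨k, hk⟩ := ENat.ne_top_iff_exists.1 (top z hz)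
  have k0 : k ≠ 0 := fun m => by
    rw [m] at hk
    exact (aρ z hz).analyticOrderAt_eq_zero.1 hk.symm z0
  have a0 : AnalyticAt ℂ (fun τ => H (z + τ) + deriv (deriv H) (z + τ)) 0 :=
    (aρ z hz).comp_of_eq (aB 0) (add_zero z)
  have o0 : analyticOrderAt (fun τ => H (z + τ) + deriv (deriv H) (z + τ)) 0 = k := by
    have := analyticOrderAt_comp_of_deriv_ne_zero (f := fun z => H z + deriv (deriv H) z) (aB 0)
      (by simp)
    rwa [add_zero, ← hk] at this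
  obtain ⟨X, hX⟩ : ∃ X : ℂ → ℂ, X = fun τ => -I * exp (-(z * I)) * (Zc H ∘ fun τ => z + τ) τ +
    I * exp (-(z * I)) * Zc H z := ⟨_, rfl⟩
  obtain ⟨Y, hY⟩ : ∃ Y : ℂ → ℂ, Y = fun τ => I * exp (z * I) * (Wc H ∘ fun τ => z + τ) τ +
    -(I * exp (z * I) * Wc H z) := ⟨_, rfl⟩
  have dX : ∀ τ, z + τ ∈ U → AnalyticAt ℂ X τ ∧
      HasDerivAt X ((H (z + τ) + deriv (deriv H) (z + τ)) * exp (τ * I)) τ := fun τ m => by
    rw [hX]
    refine ⟨(analyticAt_const.mul ((an_Z (aH _ m)).comp (aB τ))).add analyticAt_const,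
      ((((der_Z (aH _ m)).comp τ ((hasDerivAt_id τ).const_add z)).const_mul _).add_const
        _).congr_deriv ?_⟩
    rw [add_mul z, exp_add, exp_neg]
    field_simp
    simp
  have dY : ∀ τ, z + τ ∈ U → AnalyticAt ℂ Y τ ∧
      HasDerivAt Y ((H (z + τ) + deriv (deriv H) (z + τ)) * exp (-τ * I)) τ := fun τ m => by
    rw [hY]
    refine ⟨(analyticAt_const.mul ((an_W (aH _ m)).comp (aB τ))).add analyticAt_const,
      ((((der_W (aH _ m)).comp τ ((hasDerivAt_id τ).const_add z)).const_mul _).add_const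
        _).congr_deriv ?_⟩
    rw [add_mul z, neg_add, exp_add, exp_neg, neg_mul]
    field_simp
    simp
  have m0 : z + 0 ∈ U := by rwa [add_zero]
  obtain ⟨u, u1, u2, u3⟩ := place (f := fun τ => (X τ + Y τ) / 2) (g := cos) (j := 0) a0 o0
    (by fun_prop) (analyticOrderAt_eq_zero.2 (.inr (by simp)))
    (((dX 0 m0).1.add (dY 0 m0).1).div_const) (by simp [hX, hY]) (ev.mono fun τ m => by
      rw [(((dX τ m).2.fun_add (dY τ m).2).div_const 2).deriv, Pi.mul_apply, Complex.cos]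
      ring)
  obtain ⟨v, v1, v2, v3⟩ := place (f := fun τ => (Y τ - X τ) / 2) (g := fun τ => -I * sin τ) (j := 1)
    a0 o0 (by fun_prop) (AnalyticAt.analyticOrderAt_eq_one_of_zero_deriv_ne_zero (by fun_prop)
      (by simp) (by simp)) (((dY 0 m0).1.sub (dX 0 m0).1).div_const) (by simp [hX, hY])
    (ev.mono fun τ m => by
      rw [(((dY τ m).2.fun_sub (dX τ m).2).div_const 2).deriv, Pi.mul_apply, Complex.sin]
      linear_combination (H (z + τ) + deriv (deriv H) (z + τ)) *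
        (exp (-τ * I) - exp (τ * I)) / 2 * I_mul_I)
  have tB : Tendsto (fun τ => z + τ) (𝓝[≠] 0) (𝓝[≠] z) := tendsto_nhdsWithin_iff.2
    ⟨(Continuous.tendsto' (by fun_prop) _ _ (add_zero z)).mono_left nhdsWithin_le_nhds,
      eventually_mem_nhdsWithin.mono fun τ k m => k (by simpa using m)⟩
  have := hE.2 ((k + 0 + 1 : ℕ) : ℤ) ((k + 1 + 1 : ℕ) : ℤ) u v (by omega)
    (by omega) (by omega) (by omega) u1 v1 u2 v2 (by
    filter_upwards [tB.eventually key, nhdsWithin_le_nhds ev,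
      nhdsWithin_le_nhds (u3.and v3).eventually_nhds] with τ k1 k2 k3
    have m1 := an_Z (aH _ k2)
    have m2 := an_W (aH _ k2)
    refine (hL.2.1 X Y _ _ τ (k3.mono fun s m => ?_) (k3.mono fun s m => ?_)).2 ?_
    · rw [Pi.sub_apply, ← m.1, ← m.2]
      ring
    · rw [Pi.add_apply, ← m.1, ← m.2]
      ring
    · rw [hX, hY]
      exact (hL.2.2.1 _ _ τ _ _ _ _ (by simp) (by simp)).2 (m1.comp (aB τ)) (m2.comp (aB τ))
        ((hL.2.2.2.2 _ _ _ τ (aB τ) (by simp) m1 m2).2.1 k1))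
  omega

end Vale.Agent.P097A
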