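import Vale.Agent.P097A.Spec

/-!
# P097A: DEG, CLG, CLE, the classification of the models
-/

noncomputable section

namespace Vale.Agent.P097A

open Filter Topology Set Metric Bornology Function

namespace ClsH

variable {f g χ Ψ : ℂ → ℂ} {t c m : ℂ} {a b : ℤ}

theorem ev_inf {P : ℂ → Prop} (h : ∀ᶠ t in cobounded ℂ, P t) :
    ∀ᶠ t in cobounded ℂ, ∀ᶠ s in 𝓝 t, P s := by
  obtain ⟨r, -, hr⟩ := (hasBasis_cobounded_compl_closedBall (0 : ℂ)).eventually_iff.1 h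
  exact (hasBasis_cobounded_compl_closedBall (0 : ℂ)).eventually_iff.2 ⟨r, trivial, fun t ht =>
    mem_of_superset (isClosed_closedBall.isOpen_compl.mem_nhds ht) hr⟩

/-- the identity theorem, from infinity -/
theorem ident (hf : MeromorphicOn f univ) (hg : MeromorphicOn g univ)
    (h : ∀ᶠ t in cobounded ℂ, f t = g t) (t : ℂ) : ∀ᶠ s in 𝓝[≠] t, f s = g s := by
  obtain ⟨u, hu⟩ := (ev_inf h).exists
  by_contra k
  exact (hf.sub hg).meromorphicOrderAt_ne_top_of_isPreconnected isPreconnected_univ (mem_univ t)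
    (mem_univ u) (fun e => k ((meromorphicOrderAt_eq_top_iff.1 e).mono fun _ => sub_eq_zero.1))
    (meromorphicOrderAt_eq_top_iff.2 (nhdsWithin_le_nhds (hu.mono fun _ => sub_eq_zero.2)))

theorem liou {K : ℂ → ℂ} (hg : Differentiable ℂ g) (h0 : g 0 ≠ 0)
    (hK : Tendsto K (cobounded ℂ) (𝓝 c)) (e : ∀ᶠ t in cobounded ℂ, g t = t ^ a * K t) : 0 ≤ a := by
  by_contra ha
  obtain ⟨n, rfl⟩ : ∃ n : ℕ, a = -(n + 1 : ℕ) := ⟨(-a - 1).toNat, by omega⟩
  have h := (tendsto_inv₀_cobounded.pow (n + 1)).mul hK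
  rw [zero_pow n.succ_ne_zero, zero_mul] at h
  refine h0 (hg.apply_eq_of_tendsto_cocompact 0 (cobounded_eq_cocompact (α := ℂ) ▸ h.congr' ?_))
  exact e.mono fun t ht => by simp only [ht, zpow_neg, zpow_natCast, inv_pow]

theorem prod_zp (S : Finset ℂ) (l : ℂ → ℤ) (ht : t ≠ 0) :
    ∏ u ∈ S, (t - u) ^ l u = t ^ (∑ u ∈ S, l u) * ∏ u ∈ S, (1 - u * t⁻¹) ^ l u := by
  induction S using Finset.induction_on with
  | empty => simp
  | insert u S hu ih =>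
    rw [Finset.prod_insert hu, Finset.prod_insert hu, Finset.sum_insert hu, ih, zpow_add₀ ht,
      mul_mul_mul_comm, ← mul_zpow, mul_sub, mul_left_comm t, mul_inv_cancel₀ ht, mul_one, mul_one]

/-- `f` has the order `n` at `t` -/
def O (f : ℂ → ℂ) (t : ℂ) (n : ℤ) : Prop := MeromorphicAt f t ∧ meromorphicOrderAt f t = n

theorem O.mul (h : O f t a) (k : O g t b) : O (fun s => f s * g s) t (a + b) :=
  ⟨h.1.mul k.1, by rw [fun_meromorphicOrderAt_mul h.1 k.1, h.2, k.2, WithTop.coe_add]⟩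

theorem O.zpow (h : O f t a) (n : ℤ) : O (fun s => f s ^ n) t (n * a) :=
  ⟨h.1.zpow n, by rw [fun_meromorphicOrderAt_zpow h.1, h.2, WithTop.coe_mul]⟩

theorem o_const (hc : c ≠ 0) (t : ℂ) : O (fun _ => c) t 0 := by
  classical
  exact ⟨.const c t, (meromorphicOrderAt_const t c).trans (if_neg hc)⟩

theorem O.eq (h : O f t a) (k : O g t b) (e : ∀ᶠ s in 𝓝[≠] t, f s = g s) : a = b :=
  WithTop.coe_injective (h.2.symm.trans ((meromorphicOrderAt_congr e).trans k.2))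

theorem O.shift (h : O f (t + 1) a) : O (fun s => f (s + 1)) t a :=
  ⟨meromorphicAt_fun_comp_add_const_iff_meromorphicAt.2 h.1,
    meromorphicOrderAt_fun_comp_add_const_eq_meromorphicOrderAt.trans h.2⟩

theorem O.ne (h : O f t a) : ∀ᶠ s in 𝓝[≠] t, DifferentiableAt ℂ f s ∧ f s ≠ 0 :=
  (h.1.eventually_analyticAt.mono fun _ k => k.differentiableAt).and
    ((meromorphicOrderAt_ne_top_iff_eventually_ne_zero h.1).1 (h.2 ▸ WithTop.coe_ne_top))

theorem O.sub (h : O f t a) (k : O (fun s => c - f s) t b) (hc : c ≠ 0) :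
    (a < 0 → b = a) ∧ (0 < a → b = 0) ∧ (a = 0 → 0 ≤ b) := by
  have h1 := o_const hc t
  have h2 : meromorphicOrderAt (-f) t = a := meromorphicOrderAt_neg.symm.trans h.2
  have h3 : meromorphicOrderAt ((fun _ => c) + -f) t = b :=
    (meromorphicOrderAt_congr (.of_forall fun s => (sub_eq_add_neg _ _).symm)).trans k.2
  refine ⟨fun ha => ?_, fun ha => ?_, fun ha => ?_⟩
  · rw [meromorphicOrderAt_add_eq_right_of_lt h1.1 (by rw [h1.2, h2]; exact_mod_cast ha), h2] at h3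
    exact_mod_cast h3.symm
  · rw [meromorphicOrderAt_add_eq_left_of_lt h.1.neg (by rw [h1.2, h2]; exact_mod_cast ha),
      h1.2] at h3
    exact_mod_cast h3.symm
  · have := meromorphicOrderAt_add h1.1 h.1.neg
    rw [h1.2, h2, h3, ha, min_self] at this
    exact_mod_cast this

theorem O.der (h : O f t a) (k : O (deriv f) t b) : (a ≠ 0 → b = a - 1) ∧ (a = 0 → 0 ≤ b) := by
  refine ⟨fun ha => WithTop.coe_injective (k.2.symm.trans
    (meromorphicOrderAt_deriv_eq_sub_one (Int.cast_ne_zero.2 ha) h.2)), fun ha => ?_⟩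
  obtain ⟨g, g1, g2⟩ := h.1.meromorphicOrderAt_nonneg_iff.1 (by rw [h.2, ha]; rfl)
  have := k.1.meromorphicOrderAt_nonneg_iff.2 ⟨_, g1.deriv, g2.nhdsNE_deriv⟩
  rw [k.2] at this
  exact_mod_cast this

/-- finite support and sum -/
def Fs (l : ℂ → ℤ) (d : ℤ) : Prop := (support l).Finite ∧ ∑ᶠ t, l t = d

theorem Fs.add {l l' : ℂ → ℤ} (h : Fs l a) (k : Fs l' b) : Fs (fun t => l t + l' t) (a + b) :=
  ⟨(h.1.union k.1).subset (support_add _ _), by rw [finsum_add_distrib h.1 k.1, h.2, k.2]⟩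

theorem Fs.mul {l : ℂ → ℤ} (h : Fs l a) (n : ℤ) : Fs (fun t => n * l t) (n * a) :=
  ⟨h.1.subset (support_mul_subset_right _ _), by rw [← mul_finsum, h.2]⟩

theorem Fs.ind {l : ℂ → ℤ} (h : Fs l a) {P : ℂ → Prop} (h0 : ∀ t, l t = 0 → P t)
    (hs : ∀ t, P t → P (t + 1)) (t : ℂ) : P t := by
  obtain ⟨_, ⟨n, rfl⟩, hn⟩ := (infinite_range_of_injective (f := fun n : ℕ => t - n)
    fun _ _ k => Nat.cast_injective (sub_right_injective k)).exists_notMem_finite h.1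
  have : ∀ k : ℕ, P (t - n + k) := fun k => by
    induction k with
    | zero => simpa using h0 _ (notMem_support.1 hn)
    | succ k ih => simpa only [Nat.cast_succ, add_assoc] using hs _ ih
  simpa using this n

theorem Fs.dvd {l : ℂ → ℤ} (h : Fs l a) (hs : ∀ t, b ∣ l (t + 1) - l t) : b ∣ a :=
  h.2 ▸ finsum_induction (b ∣ ·) (dvd_zero b) (fun _ _ => dvd_add) (h.ind (P := fun t => b ∣ l t)
    (fun t k => k ▸ dvd_zero b) fun t k => by simpa using dvd_add (hs t) k)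

theorem Fs.left {l : ℂ → ℤ} (h : Fs l a) (ha : 0 < a) : ∃ t, l t ≤ 0 ∧ 0 < l (t + 1) := by
  by_contra! k
  exact ha.not_ge (h.2 ▸ finsum_induction (· ≤ 0) le_rfl (fun _ _ => add_nonpos)
    (h.ind (P := fun t => l t ≤ 0) (fun _ k => k.le) k))

end ClsH

open ClsH

theorem deg : Spec_DEG := by
  intro f h d hf ha h0 he
  have h1 : ∀ᶠ t in cobounded ℂ, AnalyticAt ℂ f t ∧ f t ≠ 0 := by
    filter_upwards [ev_inf he, eventually_ne_cobounded 0, tendsto_inv₀_cobounded.eventually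
      (ha.eventually_analyticAt.and (ha.continuousAt.eventually_ne h0))] with t a1 a2 a3
    exact ⟨((analyticAt_id.fun_zpow a2).mul (a3.1.comp (analyticAt_inv a2))).congr
      (a1.mono fun _ => Eq.symm), a1.self_of_nhds ▸ mul_ne_zero (zpow_ne_zero d a2) a3.2⟩
  have h2 : ∀ᶠ t in cobounded ℂ, meromorphicOrderAt f t = (0 : ℤ) := h1.mono fun t k =>
    (meromorphicOrderAt_eq_int_iff k.1.meromorphicAt).2 ⟨f, k.1, k.2, by simp⟩
  have h3 : ∀ t, meromorphicOrderAt f t ≠ ⊤ := fun t =>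
    hf.meromorphicOrderAt_ne_top_of_isPreconnected isPreconnected_univ (mem_univ _) (mem_univ t)
      (h2.exists.choose_spec ▸ WithTop.coe_ne_top)
  have h4 : (MeromorphicOn.divisor f univ).support.Finite := by
    obtain ⟨r, -, hr⟩ := (hasBasis_cobounded_compl_closedBall (0 : ℂ)).eventually_iff.1 h2
    refine ((MeromorphicOn.divisor f (closedBall 0 r)).finiteSupport
      (isCompact_closedBall 0 r)).subset fun t ht => ?_
    rw [mem_support, hf.divisor_apply trivial] at ht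
    rwa [mem_support, (hf.mono_set (subset_univ _)).divisor_apply
      (by_contra fun k => ht (by rw [hr k]; rfl))]
  refine ⟨MeromorphicOn.divisor f univ, fun t => by
    rw [hf.divisor_apply trivial, WithTop.coe_untop₀_of_ne_top (h3 t)], h4, ?_⟩
  obtain ⟨g, g1, g2, g3⟩ := hf.extract_zeros_poles (fun u => h3 u) h4
  set l : ℂ → ℤ := ⇑(MeromorphicOn.divisor f univ)
  rw [finsum_eq_sum l h4]
  set S := h4.toFinset
  have g4 : ∀ t, ∀ᶠ s in 𝓝[≠] t, f s = (∏ u ∈ S, (s - u) ^ l u) * g s := fun t => by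
    filter_upwards [mem_codiscreteWithin_iff_forall_mem_nhdsNE.1 g3 t trivial] with s hs
    rw [← finprod_eq_prod_of_mulSupport_subset _ (fun u hu => h4.mem_toFinset.2 fun k => hu (by
      rw [show l u = 0 from k, zpow_zero])), ← congrFun (FactorizedRational.finprod_eq_fun h4) s]
    simpa using hs
  have g5 : Differentiable ℂ g := fun t => (g1 t trivial).differentiableAt
  have c1 : ContinuousAt (fun x : ℂ => ∏ u ∈ S, (1 - u * x) ^ l u) 0 :=
    tendsto_finsetProd _ fun u _ => ContinuousAt.zpow₀ (by fun_prop) _ (.inl (by simp))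
  have c2 : (∏ u ∈ S, (1 - u * 0) ^ l u : ℂ) ≠ 0 := by simp
  have hK := (ha.continuousAt.div c1 c2).tendsto.comp tendsto_inv₀_cobounded
  have e : ∀ᶠ t in cobounded ℂ, g t = t ^ (d - ∑ u ∈ S, l u) *
      (h t⁻¹ / ∏ u ∈ S, (1 - u * t⁻¹) ^ l u) := by
    filter_upwards [h1, he, eventually_ne_cobounded 0, (S.eventually_all).2 fun u _ =>
      eventually_ne_cobounded u, tendsto_inv₀_cobounded.eventually (c1.eventually_ne c2)]
      with t a1 a2 a3 a4 a5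
    have := tendsto_nhds_unique_of_eventuallyEq (a1.1.continuousAt.tendsto.mono_left
      nhdsWithin_le_nhds) (((tendsto_finsetProd S fun u hu => ContinuousAt.zpow₀
        (f := fun s => s - u) (by fun_prop) (l u) (.inl (sub_ne_zero.2 (a4 u hu)))).mul
          (g5 t).continuousAt).mono_left nhdsWithin_le_nhds) (g4 t)
    have a6 := zpow_ne_zero (∑ u ∈ S, l u) a3
    rw [a2, prod_zp S l a3] at this
    rw [zpow_sub₀ a3, div_mul_div_comm, this, mul_div_cancel_left₀ _ (mul_ne_zero a6 a5)]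
  have k1 := liou g5 (g2 ⟨0, trivial⟩) hK e
  have k2 := liou (g5.inv fun t => g2 ⟨t, trivial⟩) (inv_ne_zero (g2 ⟨0, trivial⟩))
    (hK.inv₀ (div_ne_zero h0 c2)) (a := -(d - ∑ u ∈ S, l u)) (e.mono fun t ht => by
      rw [Pi.inv_apply, ht, mul_inv, zpow_neg]; rfl)
  omega

namespace ClsH

variable {χ Ψ Φ φ : ℂ → ℂ} {m : ℂ} {α β : ℤ} {euc : Bool}

/-- the orders of `χ`, `1 - χ`, `m - χ`, `χ'` -/
structure Pk (m : ℂ) (χ : ℂ → ℂ) (n₀ n₁ a b : ℂ → ℤ) : Prop where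
  o0 : ∀ t, O χ t (n₀ t)
  o1 : ∀ t, O (fun s => 1 - χ s) t (n₁ t)
  oa : ∀ t, O (fun s => m - χ s) t (a t)
  ob : ∀ t, O (deriv χ) t (b t)
  s0 : Fs n₀ 0
  sa : Fs a (-1)
  sb : Fs b (-2)

theorem pk (h : AnalyticAt ℂ Ψ 0) (h0 : Ψ 0 = m) (m0 : m ≠ 0) (m1 : m ≠ 1) (hd : deriv Ψ 0 ≠ 0)
    (hχ : MeromorphicOn χ univ) (e : ∀ᶠ t in cobounded ℂ, χ t = Ψ t⁻¹) :
    ∃ n₀ n₁ a b, Pk m χ n₀ n₁ a b := by
  have k : ∀ c : ℂ, MeromorphicOn (fun s => c - χ s) univ := fun c t _ =>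
    (MeromorphicAt.const c t).sub (hχ t trivial)
  obtain ⟨n₀, a1, a2⟩ := deg χ Ψ 0 hχ h (h0 ▸ m0) (by simpa using e)
  obtain ⟨n₁, b1, -⟩ := deg _ (fun x => 1 - Ψ x) 0 (k 1) (analyticAt_const.sub h)
    (sub_ne_zero.2 (h0 ▸ m1.symm)) (e.mono fun t ht => by simp [ht])
  obtain ⟨a, c1, c2⟩ := deg _ (fun x => -dslope Ψ 0 x) (-1) (k m)
    (let ⟨_, k⟩ := h; k.has_fpower_series_dslope_fslope.analyticAt.neg)
    (by simpa using hd) (e.mono fun t ht => by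
      have := sub_smul_dslope Ψ 0 t⁻¹
      rw [sub_zero, smul_eq_mul, h0] at this
      rw [ht, zpow_neg_one, mul_neg, this, neg_sub])
  obtain ⟨b, d1, d2⟩ := deg _ (fun x => -deriv Ψ x) (-2) hχ.deriv h.deriv.neg (neg_ne_zero.2 hd) (by
    filter_upwards [ev_inf e, eventually_ne_cobounded 0,
      tendsto_inv₀_cobounded.eventually h.eventually_analyticAt] with t a1 a2 a3
    rw [EventuallyEq.deriv_eq a1, zpow_neg, zpow_ofNat]
    exact (a3.differentiableAt.hasDerivAt.comp t (hasDerivAt_inv a2)).deriv.trans (by ring))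
  exact ⟨n₀, n₁, a, b, fun t => ⟨hχ t trivial, a1 t⟩, fun t => ⟨k 1 t trivial, b1 t⟩,
    fun t => ⟨k m t trivial, c1 t⟩, fun t => ⟨hχ.deriv t trivial, d1 t⟩, a2, c2, d2⟩

theorem Pk.st {n₀ n₁ a b : ℂ → ℤ} (h : Pk m χ n₀ n₁ a b) (m0 : m ≠ 0) (t : ℂ) :
    (n₀ t < 0 → n₁ t = n₀ t ∧ a t = n₀ t ∧ b t = n₀ t - 1) ∧
    (0 < n₀ t → n₁ t = 0 ∧ a t = 0 ∧ b t = n₀ t - 1) ∧
    (n₀ t = 0 → 0 ≤ n₁ t ∧ 0 ≤ a t ∧ 0 ≤ b t) :=
  have h1 := (h.o0 t).sub (h.o1 t) one_ne_zero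
  have h2 := (h.o0 t).sub (h.oa t) m0
  have h3 := (h.o0 t).der (h.ob t)
  ⟨fun k => ⟨h1.1 k, h2.1 k, h3.1 k.ne⟩, fun k => ⟨h1.2.1 k, h2.2.1 k, h3.1 k.ne'⟩,
    fun k => ⟨h1.2.2 k, h2.2.2 k, h3.2 k⟩⟩

theorem kap_der {x : ℂ} (h0 : x ≠ 0) (h1 : 1 - x ≠ 0) :
    HasDerivAt (kap α β) (kap α β x * ((α * x - β) / (x * (1 - x)))) x := by
  refine (((hasDerivAt_zpow (β - α) (1 - x) (.inl h1)).comp x ((hasDerivAt_id x).const_sub 1)).mul
    (hasDerivAt_zpow (-β) x (.inl h0))).congr_deriv ?_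
  simp only [kap, comp_apply, zpow_sub_one₀ h0, zpow_sub_one₀ h1]
  push_cast
  field_simp
  ring

theorem core (hG : Good euc α β) (hF : Fatou euc α β Φ) (hφ : MeromorphicOn φ univ)
    (e : ∀ᶠ t in cobounded ℂ, φ t = Φ t⁻¹) : ∃ ψ n₀ n₁ a b n₀' n₁' a' b', (β : ℂ) / α ≠ 0 ∧
      Pk (β / α) φ n₀ n₁ a b ∧ Pk (β / α) ψ n₀' n₁' a' b' ∧ ∀ t,
      (∃ ρ, n₀ t - n₀' t = (β - α) * ρ ∧ n₁ t - n₁' t = β * ρ) ∧
      a t + b t + (n₀' t + n₁' t) = a' t + b' t + (n₀ t + n₁ t) ∧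
      ∀ᶠ s in 𝓝[≠] t, φ (s + 1) = refl euc α β (ψ s) := by
  have a0 : (α : ℂ) ≠ 0 := Int.cast_ne_zero.2 hG.a0
  have m0 : (β : ℂ) / α ≠ 0 := div_ne_zero (Int.cast_ne_zero.2 hG.b0) a0
  have m1 : (β : ℂ) / α ≠ 1 := fun k => hG.ab (Int.cast_injective ((div_eq_one_iff_eq a0).1 k)).symm
  have hψ : MeromorphicOn (fun t => φ (-t)) univ := fun t _ =>
    (hφ _ trivial).comp_analyticAt (g := fun t => -t) analyticAt_id.neg
  have e' : ∀ᶠ t in cobounded ℂ, φ (-t) = Φ (-t⁻¹) :=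
    (tendsto_neg_cobounded.eventually e).mono fun t k => by rw [k, inv_neg]
  obtain ⟨n₀, n₁, a, b, P⟩ := pk hF.an hF.val m0 m1 hF.der hφ e
  obtain ⟨n₀', n₁', a', b', P'⟩ := pk (Ψ := fun x => Φ (-x)) (hF.an.comp_of_eq
    (f := fun x => -x) analyticAt_id.neg neg_zero) (by simpa using hF.val) m0 m1
    (by simpa [deriv_comp_neg] using hF.der) hψ e'
  set ψ := fun t => φ (-t)
  have k : ∀ t, ∀ᶠ s in 𝓝[≠] t, kap α β (φ s) = kap α β (ψ s) := ident
    (fun t _ => (((P.o1 t).zpow _).mul ((P.o0 t).zpow _)).1)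
    (fun t _ => (((P'.o1 t).zpow _).mul ((P'.o0 t).zpow _)).1) (by
      filter_upwards [e, e', tendsto_inv₀_cobounded'.eventually hF.line] with t a1 a2 a3
      rw [a1, show ψ t = _ from a2, a3])
  refine ⟨ψ, n₀, n₁, a, b, n₀', n₁', a', b', m0, P, P', fun t => ⟨?_, ?_, ident
    (fun t _ => (P.o0 _).shift.1) (fun t _ => ?_) ?_ t⟩⟩
  · have h1 := (((P.o1 t).zpow _).mul ((P.o0 t).zpow _)).eq
      (((P'.o1 t).zpow _).mul ((P'.o0 t).zpow _)) (k t)
    obtain ⟨u, v, huv⟩ := hG.cop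
    exact ⟨v * (n₁ t - n₁' t) + u * (n₁ t - n₁' t - (n₀ t - n₀' t)),
      by linear_combination (-(n₀ t - n₀' t)) * huv - (u + v) * h1,
      by linear_combination (-(n₁ t - n₁' t)) * huv - u * h1⟩
  · refine (((P.oa t).mul (P.ob t)).mul ((P'.o0 t).mul (P'.o1 t))).eq
      (((P'.oa t).mul (P'.ob t)).mul ((P.o0 t).mul (P.o1 t))) ?_
    filter_upwards [k t, EventuallyEq.nhdsNE_deriv (k t), (P.o0 t).ne, (P.o1 t).ne, (P'.o0 t).ne,
      (P'.o1 t).ne] with s a1 a2 a3 a4 a5 a6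
    have a7 := ((kap_der a3.2 a4.2).comp s a3.1.hasDerivAt).deriv.symm.trans
      (a2.trans ((kap_der a5.2 a6.2).comp s a5.1.hasDerivAt).deriv)
    rw [a1, mul_assoc, mul_assoc] at a7
    have a8 := mul_left_cancel₀ (mul_ne_zero (zpow_ne_zero _ a6.2) (zpow_ne_zero _ a5.2)) a7
    have := a3.2; have := a4.2; have := a5.2; have := a6.2
    field_simp at a8 ⊢
    linear_combination -a8
  · cases euc
    · exact (MeromorphicAt.const _ t).sub (hψ t trivial)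
    · exact (MeromorphicAt.const _ t).div (hψ t trivial)
  · filter_upwards [(tendsto_add_const_cobounded 1).eventually e, e', eventually_ne_cobounded 0,
      tendsto_inv₀_cobounded'.eventually hF.step] with t a1 a2 a3 a4
    rw [a1, show ψ t = _ from a2, ← a4, ← div_self a3, div_eq_mul_inv t, ← mul_one t⁻¹]
    congr 1
    field_simp

/-- the relations between the orders -/
def St (n₀ n₁ a b : ℤ) : Prop := (n₀ < 0 → n₁ = n₀ ∧ a = n₀ ∧ b = n₀ - 1) ∧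
  (0 < n₀ → n₁ = 0 ∧ a = 0 ∧ b = n₀ - 1) ∧ (n₀ = 0 → 0 ≤ n₁ ∧ 0 ≤ a ∧ 0 ≤ b)

theorem ar {n₀ n₁ a b n₀' n₁' a' b' N₀ N₁ A B l L ρ : ℤ} (s : St n₀ n₁ a b) (s' : St n₀' n₁' a' b')
    (S : St N₀ N₁ A B) (h0 : N₀ + n₀' = 0) (h1 : n₀ - n₀' = (5 - 1) * ρ) (h2 : n₁ - n₁' = 5 * ρ)
    (hl : l = 3 * n₀ + -2 * (a + b)) (hL : L = 3 * N₀ + -2 * (A + B)) :
    (0 < ρ → n₀ = 0 ∧ l ≤ 0 ∧ N₀ = 4 * ρ ∧ L = 4 * ρ + 2) ∧ (ρ < 0 → n₀ < 0 ∧ l = 2 - 4 * ρ) := by
  unfold St at *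
  refine ⟨fun h => ?_, fun h => ?_⟩
  · have : n₀ = 0 := by omega
    omega
  · have : n₀' = 0 := by omega
    omega

end ClsH

theorem clg : Spec_CLG := by
  intro α β Φ φ hG hab hF hφ e
  obtain ⟨ψ, n₀, n₁, a, b, n₀', n₁', a', b', m0, P, P', h⟩ := core hG hF hφ e
  have ha : ∀ t, a (t + 1) = a' t := fun t => (P.oa _).shift.eq
    ((o_const (neg_ne_zero.2 one_ne_zero) t).mul (P'.oa t)) ((h t).2.2.mono fun s k => by
      rw [k, refl, if_neg Bool.false_ne_true]; ring) |>.trans (zero_add _)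
  have hb : ∀ t, b (t + 1) = b' t := fun t => (P.ob _).shift.eq
    ((o_const (neg_ne_zero.2 one_ne_zero) t).mul (P'.ob t))
    ((EventuallyEq.nhdsNE_deriv (h t).2.2).mono fun s k => by
      simpa [refl, deriv_comp_add_const, deriv_const_sub] using k) |>.trans (zero_add _)
  have F := (P.sa.add P.sb).mul (-1)
  have hd := F.dvd (b := 2 * β - α) fun t => by
    obtain ⟨⟨ρ, h1, h2⟩, h3, -⟩ := h t
    exact ⟨ρ, by rw [ha, hb]; linear_combination h1 + h2 + h3⟩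
  obtain ⟨t, t1, t2⟩ := F.left (by norm_num)
  obtain ⟨⟨ρ, h1, h2⟩, h3, -⟩ := h t
  have s := P.st m0 t
  have s' := P'.st m0 t
  rw [ha, hb] at t2
  have r1 : 0 < ρ := pos_of_mul_pos_right (b := ρ) (a := β - α) (by omega) (by omega)
  have r2 : 0 < β := pos_of_mul_pos_left (b := ρ) (by omega) r1.le
  have r3 : 2 * β - α ≤ 3 := Int.le_of_dvd (by norm_num) hd
  have := hG.a0
  have r4 : 2 * β - α ≠ 2 := fun k => by rw [k] at hd; norm_num at hd
  omega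

theorem cle : Spec_CLE := by
  intro α β Φ φ hG hab hγ hF hφ e
  obtain ⟨ψ, n₀, n₁, a, b, n₀', n₁', a', b', m0, P, P', h⟩ := core hG hF hφ e
  have h0 : ∀ t, n₀ (t + 1) + n₀' t = 0 := fun t => ((P.o0 _).shift.mul (P'.o0 t)).eq
    (o_const (pow_ne_zero 2 m0) t) (by
      filter_upwards [(h t).2.2, (P'.o0 t).ne] with s a1 a2
      rw [a1, refl, if_pos rfl, div_mul_cancel₀ _ a2.2])
  have ha : ∀ t, a (t + 1) + n₀' t = 0 + a' t := fun t => ((P.oa _).shift.mul (P'.o0 t)).eq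
    ((o_const (neg_ne_zero.2 m0) t).mul (P'.oa t)) (by
      filter_upwards [(h t).2.2, (P'.o0 t).ne] with s a1 a2
      rw [a1, refl, if_pos rfl, sub_mul, div_mul_cancel₀ _ a2.2]
      ring)
  have hb : ∀ t, b (t + 1) + 2 * n₀' t = 0 + b' t := fun t =>
    ((P.ob _).shift.mul ((P'.o0 t).zpow 2)).eq
    ((o_const (neg_ne_zero.2 (pow_ne_zero 2 m0)) t).mul (P'.ob t)) (by
      filter_upwards [EventuallyEq.nhdsNE_deriv (h t).2.2, (P'.o0 t).ne] with s a1 a2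
      simp only [refl, if_true, deriv_comp_add_const] at a1
      rw [a1, deriv_const_div _ a2.1 a2.2, zpow_ofNat, div_mul_cancel₀ _ (pow_ne_zero 2 a2.2)])
  obtain ⟨l, hl⟩ : ∃ l : ℂ → ℤ, l = fun t => 3 * n₀ t + -2 * (a t + b t) := ⟨_, rfl⟩
  have F : Fs l 6 := hl ▸ (P.s0.mul 3).add ((P.sa.add P.sb).mul (-2))
  have hl : ∀ t, l t = 3 * n₀ t + -2 * (a t + b t) := congrFun hl
  have hs : ∀ t, ∃ ρ, n₀ t - n₀' t = (β - α) * ρ ∧ n₁ t - n₁' t = β * ρ ∧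
      l (t + 1) - l t = (α + β) * ρ := fun t => by
    obtain ⟨⟨ρ, h1, h2⟩, h3, -⟩ := h t
    exact ⟨ρ, h1, h2, by
      rw [hl, hl]
      linear_combination 3 * h0 t - 2 * ha t - 2 * hb t - h1 + 2 * h2 + 2 * h3⟩
  have hd := F.dvd (b := α + β) fun t => let ⟨ρ, k⟩ := hs t; ⟨ρ, k.2.2⟩
  obtain ⟨t, t1, t2⟩ := F.left (by norm_num)
  obtain ⟨ρ, h1, h2, h3⟩ := hs t
  have r1 : 0 < ρ := pos_of_mul_pos_right (b := ρ) (a := α + β) (by omega) hγ.le
  have r2 : 0 < (β - α) * ρ := mul_pos (by omega) r1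
  have s := P.st m0 t
  have s' := P'.st m0 t
  have l1 := hl t
  have r3 : 0 ≤ α * ρ := by
    have : α * ρ = β * ρ - (β - α) * ρ := by ring
    omega
  have r4 : 0 < α := (nonneg_of_mul_nonneg_left r3 r1).lt_of_ne' hG.a0
  have r5 : α + β ≤ 6 := Int.le_of_dvd (by norm_num) hd
  have r6 : ¬ (α = 2 ∧ β = 4) := fun k => by
    have := hG.cop
    rw [k.1, k.2, Int.isCoprime_iff_gcd_eq_one] at this
    norm_num at this
  have r7 : α + β ≠ 4 := fun k => by rw [k] at hd; norm_num at hd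
  have r8 : α + β ≠ 5 := fun k => by rw [k] at hd; norm_num at hd
  by_contra hc
  obtain ⟨rfl, rfl⟩ : α = 1 ∧ β = 5 := by
    clear * - hc r4 r5 r6 r7 r8 hab
    omega
  have key : ∀ t, l t = 0 ∨ l t = 6 := F.ind (fun _ => .inl) fun t k => by
    obtain ⟨ρ, h1, h2, h3⟩ := hs t
    have := ar (P.st m0 t) (P'.st m0 t) (P.st m0 (t + 1)) (h0 t) h1 h2 (hl t) (hl _)
    clear * - this k h3
    omega
  obtain ⟨ρ', k1, k2, k3⟩ := hs (t + 1)
  have k4 := (ar s s' (P.st m0 (t + 1)) (h0 t) h1 h2 l1 (hl _)).1 r1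
  have k5 := ar (P.st m0 _) (P'.st m0 _) (P.st m0 (t + 1 + 1)) (h0 _) k1 k2 (hl _) (hl _)
  have k6 := key (t + 1)
  have e1 : l (t + 1) = 6 ∧ l (t + 1 + 1) = 6 := by
    clear * - k3 k4 k5 k6 r1
    omega
  have := Finset.add_le_sum (s := F.1.toFinset) (f := l)
    (fun u _ => (key u).elim (·.ge) fun k => k ▸ by norm_num)
    (F.1.mem_toFinset.2 (show l (t + 1) ≠ 0 by rw [e1.1]; norm_num))
    (F.1.mem_toFinset.2 (show l (t + 1 + 1) ≠ 0 by rw [e1.2]; norm_num)) (by simp)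
  rw [← finsum_eq_sum l F.1, F.2, e1.1, e1.2] at this
  norm_num at this

end Vale.Agent.P097A
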