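import Vale.Agent.P097A.Spec

/-!
# P097A: descent and normalisation of the local parameter (DESC)
-/

set_option linter.all false

noncomputable section

namespace Vale.Agent.P097A

open Filter Topology Set Metric

namespace Desc

theorem fin_roots {a : ℕ} (ha : 0 < a) : {ζ : ℂ | ζ ^ a = 1}.Finite :=
  (Polynomial.nthRoots a (1 : ℂ)).finite_toSet.subset fun _ h =>
    (Polynomial.mem_nthRoots ha).2 h

theorem root_tend {a : ℕ} (ha : 0 < a) :
    Tendsto (fun s : ℂ => s ^ ((a : ℂ)⁻¹)) (𝓝 0) (𝓝 0) := by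
  have h0 : (a : ℂ)⁻¹ ≠ 0 := inv_ne_zero (Nat.cast_ne_zero.2 ha.ne')
  have h := (Complex.continuousAt_cpow_zero_of_re_pos (z := (a : ℂ)⁻¹) (by
    rw [← Complex.ofReal_natCast, ← Complex.ofReal_inv, Complex.ofReal_re]
    positivity)).tendsto.comp ((continuous_id.prodMk continuous_const).tendsto (0 : ℂ))
  simpa [Function.comp_def, Complex.zero_cpow h0] using h

theorem desc1 {a : ℕ} {w : ℂ → ℂ} (ha : 0 < a) (hw : AnalyticAt ℂ w 0)
    (h : ∀ ζ : ℂ, ζ ^ a = 1 → ∀ᶠ τ in 𝓝 (0 : ℂ), w (ζ * τ) = w τ) :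
    ∃ w₁ : ℂ → ℂ, AnalyticAt ℂ w₁ 0 ∧ ∀ᶠ τ in 𝓝 (0 : ℂ), w τ = w₁ (τ ^ a) := by
  have hp : ∀ s : ℂ, (s ^ ((a : ℂ)⁻¹)) ^ a = s := fun s => Complex.cpow_nat_inv_pow s ha.ne'
  have e : ∀ᶠ τ in 𝓝 (0 : ℂ), w τ = w ((τ ^ a) ^ ((a : ℂ)⁻¹)) := by
    filter_upwards [((fin_roots ha).eventually_all).2 h] with τ h1
    by_cases h0 : τ = 0
    · rw [pow_eq_zero_iff ha.ne' |>.1 ((hp (τ ^ a)).trans (by rw [h0, zero_pow ha.ne'])), h0]
    · rw [← h1 ((τ ^ a) ^ ((a : ℂ)⁻¹) / τ) (by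
        rw [div_pow, hp, div_self (pow_ne_zero _ h0)]), div_mul_cancel₀ _ h0]
  refine ⟨fun s => w (s ^ ((a : ℂ)⁻¹)),
    Complex.analyticAt_of_differentiable_on_punctured_nhds_of_continuousAt ?_ ?_, e⟩
  · filter_upwards [self_mem_nhdsWithin, mem_nhdsWithin_of_mem_nhds
      ((root_tend ha).eventually (e.eventually_nhds.and hw.eventually_analyticAt))] with s s0 hs
    have h0 : s ^ ((a : ℂ)⁻¹) ≠ 0 := fun c => s0 (by rw [← hp s, c, zero_pow ha.ne']; rfl)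
    have k := (analyticAt_comp_iff_of_deriv_ne_zero (f := fun τ : ℂ => τ ^ a)
      (g := fun s => w (s ^ ((a : ℂ)⁻¹))) (analyticAt_id.pow a) (by
        rw [(hasDerivAt_pow a _).deriv]
        exact mul_ne_zero (Nat.cast_ne_zero.2 ha.ne') (pow_ne_zero _ h0))).1 (hs.2.congr hs.1)
    rw [hp] at k
    exact k.differentiableAt
  · have h0 : (0 : ℂ) ^ ((a : ℂ)⁻¹) = 0 :=
      Complex.zero_cpow (inv_ne_zero (Nat.cast_ne_zero.2 ha.ne'))
    rw [ContinuousAt, h0]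
    exact hw.continuousAt.tendsto.comp (root_tend ha)

end Desc

open Desc in
theorem desc : Spec_DESC := by
  refine ⟨fun a w ha hw h => desc1 ha hw h, fun α β z w α0 hz hw z0 w0 => ?_⟩
  obtain ⟨r, hr⟩ : ∃ r : ℂ → ℂ, r = fun σ =>
    Complex.exp ((Complex.log (z σ / z 0) + Complex.log (z 0)) / α) := ⟨_, rfl⟩
  have r0 : ∀ σ, r σ ≠ 0 := fun σ => hr ▸ Complex.exp_ne_zero _
  have ar : AnalyticAt ℂ r 0 := hr ▸ ((((hz.div_const (c := z 0)).clog (by simp [z0])).add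
    analyticAt_const).div_const).cexp
  have er : ∀ σ, z σ ≠ 0 → r σ ^ α = z σ := fun σ h => by
    rw [hr, ← Complex.exp_int_mul, mul_div_cancel₀ _ (Int.cast_ne_zero.2 α0), Complex.exp_add,
      Complex.exp_log (div_ne_zero h z0), Complex.exp_log z0, div_mul_cancel₀ _ z0]
  have aφ : AnalyticAt ℂ (fun σ => σ * r σ) 0 := analyticAt_id.mul ar
  have dφ : deriv (fun σ => σ * r σ) 0 ≠ 0 := by
    have k : deriv (fun σ => σ * r σ) 0 = _ :=
      ((hasDerivAt_id (0 : ℂ)).mul ar.differentiableAt.hasDerivAt).deriv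
    simpa [k] using r0 0
  have hs := aφ.hasStrictDerivAt
  obtain ⟨B, hB⟩ : ∃ B, B = hs.localInverse _ _ _ dφ := ⟨_, rfl⟩
  have aB : AnalyticAt ℂ B 0 := by simpa [hB] using aφ.analyticAt_localInverse dφ
  have B0 : B 0 = 0 := by
    simpa [hB] using (hs.hasStrictFDerivAt_equiv dφ).localInverse_apply_image
  have dB : deriv B 0 ≠ 0 := by
    have k := (hs.to_localInverse dφ).hasDerivAt
    rw [zero_mul, ← hB] at k
    rw [k.deriv]
    exact inv_ne_zero dφ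
  have eB : ∀ᶠ τ in 𝓝 (0 : ℂ), B τ * r (B τ) = τ := by
    simpa [hB] using hs.eventually_right_inverse dφ
  have tB : Tendsto B (𝓝 0) (𝓝 0) := by simpa [B0] using aB.continuousAt.tendsto
  have a1 : AnalyticAt ℂ (fun τ => r (B τ)) 0 := ar.comp_of_eq aB B0
  refine ⟨B, fun τ => r (B τ) ^ (-β) * w (B τ), aB, B0, dB,
    (a1.zpow (r0 _)).mul (hw.comp_of_eq aB B0),
    mul_ne_zero (zpow_ne_zero _ (r0 _)) (by rwa [B0]), mem_nhdsWithin_of_mem_nhds ?_⟩
  filter_upwards [eB, tB.eventually (hz.continuousAt.eventually_ne z0)] with τ h1 h2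
  simp only [pw]
  refine ⟨by rw [← er _ h2, ← mul_zpow, h1, mul_one], ?_⟩
  conv_rhs => rw [← mul_assoc]; enter [1, 1]; rw [← h1]
  rw [mul_zpow, zpow_neg, mul_inv_cancel_right₀ (zpow_ne_zero _ (r0 _))]

end Vale.Agent.P097A
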