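import Vale.Agent.P097A.SpecR

/-!
# P097A: the complexified boundary (`Spec_ZW`), and `GG` constant means an ellipse (`Spec_ELL`)
-/

set_option linter.all false

noncomputable section

namespace Vale.Agent.P097A

open Filter Topology Set Metric Vale.Agent.P097

namespace Ell

/-! ### Holomorphic extensions -/

theorem cx_local {F : ℝ → ℝ} {x : ℝ} (hF : AnalyticAt ℝ F x) : ∃ (ρ : ℝ) (G : ℂ → ℂ), 0 < ρ ∧
    DifferentiableOn ℂ G (ball (x : ℂ) ρ) ∧ ∀ y : ℝ, |y - x| < ρ → G y = F y := by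
  obtain ⟨p, R, hp⟩ := hF
  obtain ⟨r, hr0, hrR⟩ : ∃ r : NNReal, 0 < r ∧ (r : ENNReal) < R := by
    obtain ⟨r, h1, h2⟩ := ENNReal.lt_iff_exists_nnreal_btwn.1 hp.r_pos
    exact ⟨r, by exact_mod_cast h1, h2⟩
  obtain ⟨C, hC, hb⟩ := p.norm_mul_pow_le_of_lt_radius (hrR.trans_le hp.r_le)
  have hr0' : (0 : ℝ) < r := by exact_mod_cast hr0
  have hb' : ∀ n, |p.coeff n| * (r : ℝ) ^ n ≤ C := fun n => by
    have := hb n
    rwa [FormalMultilinearSeries.norm_apply_eq_norm_coef] at this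
  refine ⟨r / 2, fun z => ∑' n : ℕ, ((p.coeff n : ℝ) : ℂ) * (z - x) ^ n, by positivity, ?_, ?_⟩
  · refine Complex.differentiableOn_tsum_of_summable_norm (u := fun n : ℕ => C * (1 / 2) ^ n)
      (summable_geometric_two.mul_left C) (fun n => by fun_prop) isOpen_ball ?_
    intro n w hw
    rw [mem_ball, dist_eq_norm] at hw
    rw [norm_mul, norm_pow, Complex.norm_real, Real.norm_eq_abs]
    calc |p.coeff n| * ‖w - x‖ ^ n ≤ |p.coeff n| * ((r : ℝ) / 2) ^ n := by gcongr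
      _ = (|p.coeff n| * (r : ℝ) ^ n) * (1 / 2) ^ n := by rw [div_pow, one_div, inv_pow]; ring
      _ ≤ C * (1 / 2) ^ n := mul_le_mul_of_nonneg_right (hb' n) (by positivity)
  · intro y hy
    have hmem : y - x ∈ Metric.eball (0 : ℝ) R := by
      rw [Metric.mem_eball, edist_zero_right]
      refine lt_trans ?_ hrR
      rw [← ofReal_norm_eq_enorm, Real.norm_eq_abs]
      rw [ENNReal.ofReal_lt_coe_iff (abs_nonneg _)]
      linarith
    have h1 := hp.hasSum hmem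
    rw [add_sub_cancel] at h1
    have h2 : HasSum (fun n : ℕ => p.coeff n * (y - x) ^ n) (F y) := by
      refine h1.congr_fun ?_ |> fun h => h
      intro n
      simp [mul_comm]
    have h3 := (Complex.hasSum_ofReal.2 h2).tsum_eq
    rw [← h3]
    show ∑' n : ℕ, ((p.coeff n : ℝ) : ℂ) * ((y : ℂ) - x) ^ n = _
    refine tsum_congr fun n => ?_
    push_cast
    ring

/-- `F` is a holomorphic extension of `f` near `x` -/
structure Ext (F : ℂ → ℂ) (f : ℝ → ℝ) (x : ℝ) : Prop where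
  aF : AnalyticAt ℂ F x
  af : AnalyticAt ℝ f x
  eq : ∀ᶠ ψ in 𝓝 x, F (ψ : ℝ) = (f ψ : ℝ)

theorem tend (x : ℝ) : Tendsto (fun ψ : ℝ => (ψ : ℂ)) (𝓝 x) (𝓝 (x : ℂ)) :=
  Complex.continuous_ofReal.tendsto x

theorem tendNE (x : ℝ) : Tendsto (fun ψ : ℝ => (ψ : ℂ)) (𝓝[≠] x) (𝓝[≠] (x : ℂ)) := by
  refine tendsto_nhdsWithin_iff.2 ⟨(tend x).mono_left nhdsWithin_le_nhds, ?_⟩
  filter_upwards [self_mem_nhdsWithin] with y hy
  simpa using hy

theorem Ext.deriv {F : ℂ → ℂ} {f : ℝ → ℝ} {x : ℝ} (h : Ext F f x) :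
    Ext (deriv F) (deriv f) x := by
  refine ⟨h.aF.deriv, h.af.deriv, ?_⟩
  filter_upwards [(tend x).eventually h.aF.eventually_analyticAt, h.af.eventually_analyticAt,
    h.eq.eventually_nhds] with ψ h1 h2 h3
  have a := h1.differentiableAt.hasDerivAt.comp_ofReal
  have b := h2.differentiableAt.hasDerivAt.ofReal_comp
  exact a.unique (b.congr_of_eventuallyEq h3)

theorem Ext.add {F G : ℂ → ℂ} {f g : ℝ → ℝ} {x : ℝ} (h : Ext F f x) (h' : Ext G g x) :
    Ext (fun z => F z + G z) (fun y => f y + g y) x :=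
  ⟨h.aF.add h'.aF, h.af.add h'.af, by
    filter_upwards [h.eq, h'.eq] with ψ h1 h2
    rw [h1, h2, Complex.ofReal_add]⟩

theorem Ext.div {F G : ℂ → ℂ} {f g : ℝ → ℝ} {x : ℝ} (h : Ext F f x) (h' : Ext G g x)
    (h0 : g x ≠ 0) : Ext (fun z => F z / G z) (fun y => f y / g y) x :=
  ⟨h.aF.div h'.aF (by rw [h'.eq.self_of_nhds]; exact_mod_cast h0), h.af.div h'.af h0, by
    filter_upwards [h.eq, h'.eq] with ψ h1 h2
    rw [h1, h2, Complex.ofReal_div]⟩

/-! ### The complexified boundary -/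

/-- the radius of curvature -/
def rc (H : ℂ → ℂ) (τ : ℂ) : ℂ := H τ + deriv (deriv H) τ

theorem rc_an {H : ℂ → ℂ} {x : ℂ} (h : AnalyticAt ℂ H x) : AnalyticAt ℂ (rc H) x :=
  h.add h.deriv.deriv

theorem Z_an {H : ℂ → ℂ} {x : ℂ} (h : AnalyticAt ℂ H x) : AnalyticAt ℂ (Zc H) x :=
  (h.add (h.deriv.mul analyticAt_const)).mul (analyticAt_id.mul analyticAt_const).cexp'

theorem W_an {H : ℂ → ℂ} {x : ℂ} (h : AnalyticAt ℂ H x) : AnalyticAt ℂ (Wc H) x :=
  (h.sub (h.deriv.mul analyticAt_const)).mul (analyticAt_id.mul analyticAt_const).neg.cexp'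

theorem dE (x : ℂ) : HasDerivAt (fun τ => Complex.exp (τ * Complex.I))
    (Complex.exp (x * Complex.I) * Complex.I) x := by
  simpa using ((hasDerivAt_id x).mul_const Complex.I).cexp

theorem dE' (x : ℂ) : HasDerivAt (fun τ => Complex.exp (-(τ * Complex.I)))
    (Complex.exp (-(x * Complex.I)) * -Complex.I) x := by
  simpa using ((hasDerivAt_id x).mul_const Complex.I).neg.cexp

theorem dZ {H : ℂ → ℂ} {x : ℂ} (h : AnalyticAt ℂ H x) :
    deriv (Zc H) x = Complex.I * rc H x * Complex.exp (x * Complex.I) := by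
  have := ((h.differentiableAt.hasDerivAt.add
    (h.deriv.differentiableAt.hasDerivAt.mul_const Complex.I)).mul (dE x)).deriv
  refine Eq.trans this ?_
  simp only [rc, Pi.add_apply]
  linear_combination deriv H x * Complex.exp (x * Complex.I) * Complex.I_mul_I

theorem dW {H : ℂ → ℂ} {x : ℂ} (h : AnalyticAt ℂ H x) :
    deriv (Wc H) x = -Complex.I * rc H x * Complex.exp (-(x * Complex.I)) := by
  have := ((h.differentiableAt.hasDerivAt.sub
    (h.deriv.differentiableAt.hasDerivAt.mul_const Complex.I)).mul (dE' x)).deriv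
  refine Eq.trans this ?_
  simp only [rc, Pi.sub_apply]
  linear_combination deriv H x * Complex.exp (-(x * Complex.I)) * Complex.I_mul_I

theorem ddZ {H : ℂ → ℂ} {x : ℂ} (h : AnalyticAt ℂ H x) :
    deriv (deriv (Zc H)) x = (Complex.I * deriv (rc H) x - rc H x) * Complex.exp (x * Complex.I) := by
  have e : deriv (Zc H) =ᶠ[𝓝 x] fun τ => Complex.I * rc H τ * Complex.exp (τ * Complex.I) :=
    h.eventually_analyticAt.mono fun τ hτ => dZ hτ
  rw [e.deriv_eq]
  have := (((rc_an h).differentiableAt.hasDerivAt.const_mul Complex.I).mul (dE x)).deriv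
  refine Eq.trans this ?_
  linear_combination rc H x * Complex.exp (x * Complex.I) * Complex.I_mul_I

theorem ddW {H : ℂ → ℂ} {x : ℂ} (h : AnalyticAt ℂ H x) :
    deriv (deriv (Wc H)) x =
      (-Complex.I * deriv (rc H) x - rc H x) * Complex.exp (-(x * Complex.I)) := by
  have e : deriv (Wc H) =ᶠ[𝓝 x] fun τ => -Complex.I * rc H τ * Complex.exp (-(τ * Complex.I)) :=
    h.eventually_analyticAt.mono fun τ hτ => dW hτ
  rw [e.deriv_eq]
  have := (((rc_an h).differentiableAt.hasDerivAt.const_mul (-Complex.I)).mul (dE' x)).deriv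
  refine Eq.trans this ?_
  linear_combination rc H x * Complex.exp (-(x * Complex.I)) * Complex.I_mul_I

theorem EE (x : ℂ) : Complex.exp (x * Complex.I) * Complex.exp (-(x * Complex.I)) = 1 := by
  rw [← Complex.exp_add]
  simp

theorem reg {H : ℂ → ℂ} {x : ℂ} (h : AnalyticAt ℂ H x) (h0 : rc H x ≠ 0) :
    Reg (Zc H) (Wc H) x := by
  refine ⟨Z_an h, W_an h, ?_, ?_, ?_⟩
  · rw [dZ h]
    exact mul_ne_zero (mul_ne_zero Complex.I_ne_zero h0) (Complex.exp_ne_zero _)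
  · rw [dW h]
    exact mul_ne_zero (mul_ne_zero (neg_ne_zero.2 Complex.I_ne_zero) h0) (Complex.exp_ne_zero _)
  · rw [dZ h, dW h, ddZ h, ddW h]
    intro e
    apply mul_ne_zero (mul_ne_zero (mul_ne_zero (mul_ne_zero (two_ne_zero) Complex.I_ne_zero)
      (pow_ne_zero 2 h0)) (Complex.exp_ne_zero (x * Complex.I)))
      (Complex.exp_ne_zero (-(x * Complex.I)))
    linear_combination -e

/-- the polynomial in isotropic coordinates -/
def iso (p : MvPolynomial (Fin 2) ℝ) : MvPolynomial (Fin 2) ℂ :=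
  MvPolynomial.eval₂ (MvPolynomial.C.comp Complex.ofRealHom)
    ![MvPolynomial.C (1 / 2) * (MvPolynomial.X 0 + MvPolynomial.X 1),
      MvPolynomial.C (-Complex.I / 2) * (MvPolynomial.X 0 - MvPolynomial.X 1)] p

theorem eval_iso (p : MvPolynomial (Fin 2) ℝ) (x y : ℝ) :
    MvPolynomial.eval ![x + y * Complex.I, x - y * Complex.I] (iso p) =
      (MvPolynomial.eval ![x, y] p : ℝ) := by
  unfold iso
  induction p using MvPolynomial.induction_on with
  | C c => simp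
  | add P Q hP hQ => rw [MvPolynomial.eval₂_add, map_add, hP, hQ, map_add, Complex.ofReal_add]
  | mul_X P j hP =>
    rw [MvPolynomial.eval₂_mul, map_mul, hP, map_mul, Complex.ofReal_mul, MvPolynomial.eval₂_X,
      MvPolynomial.eval_X]
    congr 1
    fin_cases j
    · simp
      ring
    · simp
      linear_combination -(y : ℂ) * Complex.I_mul_I

theorem iso_ne {p : MvPolynomial (Fin 2) ℝ} (hp : p ≠ 0) : iso p ≠ 0 := by
  intro h
  apply hp
  apply MvPolynomial.funext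
  intro v
  have := eval_iso p (v 0) (v 1)
  rw [h, map_zero] at this
  have e : v = ![v 0, v 1] := by
    funext i
    fin_cases i <;> rfl
  rw [e, map_zero]
  exact_mod_cast this.symm

theorem an_eval {𝕜 : Type} [RCLike 𝕜] {g₀ g₁ : 𝕜 → 𝕜} {t : 𝕜} (h₀ : AnalyticAt 𝕜 g₀ t)
    (h₁ : AnalyticAt 𝕜 g₁ t) (P : MvPolynomial (Fin 2) 𝕜) :
    AnalyticAt 𝕜 (fun s => MvPolynomial.eval ![g₀ s, g₁ s] P) t := by
  induction P using MvPolynomial.induction_on with
  | C c => simpa using analyticAt_const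
  | add P Q hP hQ => simpa using hP.fun_add hQ
  | mul_X P j hP =>
    fin_cases j
    · simpa using hP.fun_mul h₀
    · simpa using hP.fun_mul h₁

theorem bdry_re (h : ℝ → ℝ) (ψ : ℝ) :
    (bdry h ψ).re = h ψ * Real.cos ψ - deriv h ψ * Real.sin ψ := by
  simp [bdry, Complex.exp_ofReal_mul_I_re, Complex.exp_ofReal_mul_I_im]

theorem bdry_im (h : ℝ → ℝ) (ψ : ℝ) :
    (bdry h ψ).im = h ψ * Real.sin ψ + deriv h ψ * Real.cos ψ := by
  simp [bdry, Complex.exp_ofReal_mul_I_re, Complex.exp_ofReal_mul_I_im]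

theorem alg {h : ℝ → ℝ} {H : ℂ → ℂ} {ψ₀ : ℝ} {p : MvPolynomial (Fin 2) ℝ} (hT : IsTable h)
    (hinf : {ψ ∈ Icc 0 (2 * Real.pi) |
      MvPolynomial.eval ![(bdry h ψ).re, (bdry h ψ).im] p = 0}.Infinite)
    (hE : Ext H h ψ₀) : ∀ᶠ τ in 𝓝 (ψ₀ : ℂ), MvPolynomial.eval ![Zc H τ, Wc H τ] (iso p) = 0 := by
  have hg : AnalyticOnNhd ℝ (fun ψ => MvPolynomial.eval ![(bdry h ψ).re, (bdry h ψ).im] p)
      univ := by
    intro ψ _
    simp only [bdry_re, bdry_im]
    exact an_eval (((hT.1 ψ).mul Real.analyticAt_cos).sub ((hT.1 ψ).deriv.mul Real.analyticAt_sin))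
      (((hT.1 ψ).mul Real.analyticAt_sin).add ((hT.1 ψ).deriv.mul Real.analyticAt_cos)) p
  obtain ⟨x, -, hx⟩ := hinf.exists_accPt_of_subset_isCompact isCompact_Icc (sep_subset _ _)
  have h0 := hg.eqOn_zero_of_preconnected_of_frequently_eq_zero isPreconnected_univ (mem_univ x)
    ((accPt_iff_frequently_nhdsNE.1 hx).mono fun y hy => hy.2)
  refine ((an_eval (Z_an hE.aF) (W_an hE.aF) (iso p)).frequently_zero_iff_eventually_zero).1 ?_
  refine (tendNE ψ₀).frequently (Eventually.frequently ?_)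
  filter_upwards [nhdsWithin_le_nhds hE.eq, nhdsWithin_le_nhds hE.deriv.eq] with ψ h1 h2
  have e1 : Zc H ψ = (bdry h ψ).re + (bdry h ψ).im * Complex.I := by
    rw [Complex.re_add_im, Zc, h1, h2, bdry]
  have e2 : Wc H ψ = (bdry h ψ).re - (bdry h ψ).im * Complex.I := by
    rw [Wc, h1, h2, bdry_re, bdry_im, ← neg_mul, Complex.exp_mul_I, Complex.cos_neg,
      Complex.sin_neg]
    push_cast
    linear_combination ((deriv h ψ : ℝ) : ℂ) * Complex.sin ψ * Complex.I_mul_I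
  rw [e1, e2, eval_iso]
  exact_mod_cast h0 (mem_univ ψ)

/-! ### The function `GG` -/

/-- the logarithmic derivative of the radius of curvature -/
def lm (H : ℂ → ℂ) (τ : ℂ) : ℂ := deriv (rc H) τ / rc H τ

/-- good points -/
def Ok (H : ℂ → ℂ) (x : ℂ) : Prop := AnalyticAt ℂ H x ∧ rc H x ≠ 0

theorem Ok.ev {H : ℂ → ℂ} {x : ℂ} (h : Ok H x) : ∀ᶠ τ in 𝓝 x, Ok H τ :=
  h.1.eventually_analyticAt.and ((rc_an h.1).continuousAt.eventually_ne h.2)

theorem Ok.om {H : ℂ → ℂ} {x : ℂ} (h : Ok H x) : om (Zc H) (Wc H) x = 2 * Complex.I := by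
  have h0 := h.2
  have h1 := Complex.exp_ne_zero (x * Complex.I)
  have h2 := Complex.exp_ne_zero (-(x * Complex.I))
  have h3 := Complex.I_ne_zero
  rw [P097A.om, dZ h.1, dW h.1, ddZ h.1, ddW h.1]
  field_simp
  linear_combination (-2 * rc H x) * Complex.I_mul_I

theorem Ok.KK {H : ℂ → ℂ} {x : ℂ} (h : Ok H x) : KK (Zc H) (Wc H) x = -4 / rc H x ^ 2 := by
  have h0 := h.2
  rw [P097A.KK, h.om, dZ h.1, dW h.1]
  have : Complex.I * rc H x * Complex.exp (x * Complex.I) *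
      (-Complex.I * rc H x * Complex.exp (-(x * Complex.I))) = rc H x ^ 2 := by
    linear_combination (-Complex.I ^ 2 * rc H x ^ 2) * EE x - rc H x ^ 2 * Complex.I_mul_I
  rw [this]
  congr 1
  linear_combination 4 * Complex.I_mul_I

theorem Ok.ell {H : ℂ → ℂ} {x : ℂ} (h : Ok H x) :
    ell (Zc H) (Wc H) x = Complex.I / 3 * lm H x := by
  have h0 := h.2
  have h3 := Complex.I_ne_zero
  have e : P097A.KK (Zc H) (Wc H) =ᶠ[𝓝 x] fun τ => -4 / rc H τ ^ 2 := h.ev.mono fun τ hτ => hτ.KK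
  have d := ((hasDerivAt_const x (-4 : ℂ)).div
    ((rc_an h.1).differentiableAt.hasDerivAt.pow 2) (pow_ne_zero 2 h0)).deriv
  rw [P097A.ell, e.deriv_eq, h.KK, h.om]
  rw [show (fun τ => -4 / rc H τ ^ 2) = (fun _ => (-4 : ℂ)) / rc H ^ 2 from rfl, d, lm]
  simp only [Pi.pow_apply]
  field_simp
  linear_combination (-8 * deriv (rc H) x * rc H x) * Complex.I_mul_I

theorem Ok.lm_an {H : ℂ → ℂ} {x : ℂ} (h : Ok H x) : AnalyticAt ℂ (lm H) x :=
  (rc_an h.1).deriv.div (rc_an h.1) h.2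

theorem Ok.GG {H : ℂ → ℂ} {x : ℂ} (h : Ok H x) :
    GG (Zc H) (Wc H) x = -4 / rc H x ^ 2 * (1 - deriv (lm H) x / 6 + lm H x ^ 2 / 9) ^ 3 := by
  have h3 := Complex.I_ne_zero
  have e : P097A.ell (Zc H) (Wc H) =ᶠ[𝓝 x] fun τ => Complex.I / 3 * lm H τ :=
    h.ev.mono fun τ hτ => hτ.ell
  rw [P097A.GG, e.deriv_eq, h.KK, h.om, h.ell, deriv_const_mul _ h.lm_an.differentiableAt]
  congr 2
  field_simp
  linear_combination (-108 * lm H x ^ 2) * Complex.I_mul_I

/-! ### The real differential equations -/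

theorem osc {y y' : ℝ → ℝ} {k : ℝ} (hk : k ≠ 0) (h1 : ∀ x, HasDerivAt y (y' x) x)
    (h2 : ∀ x, HasDerivAt y' (-k ^ 2 * y x) x) :
    ∃ B C : ℝ, ∀ x, y x = B * Real.cos (k * x) + C * Real.sin (k * x) ∧
      y' x = k * (C * Real.cos (k * x) - B * Real.sin (k * x)) := by
  refine ⟨y 0, y' 0 / k, ?_⟩
  have hc : ∀ x, HasDerivAt (fun x => Real.cos (k * x)) (-Real.sin (k * x) * k) x := fun x => by
    simpa using ((hasDerivAt_id x).const_mul k).cos
  have hs : ∀ x, HasDerivAt (fun x => Real.sin (k * x)) (Real.cos (k * x) * k) x := fun x => by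
    simpa using ((hasDerivAt_id x).const_mul k).sin
  have a : ∀ x, HasDerivAt (fun x => k * y x * Real.cos (k * x) - y' x * Real.sin (k * x)) 0 x :=
    fun x => ((((h1 x).const_mul k).mul (hc x)).sub ((h2 x).mul (hs x))).congr_deriv (by ring)
  have b : ∀ x, HasDerivAt (fun x => k * y x * Real.sin (k * x) + y' x * Real.cos (k * x)) 0 x :=
    fun x => ((((h1 x).const_mul k).mul (hs x)).add ((h2 x).mul (hc x))).congr_deriv (by ring)
  intro x
  have a' := is_const_of_deriv_eq_zero (fun x => (a x).differentiableAt) (fun x => (a x).deriv) x 0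
  have b' := is_const_of_deriv_eq_zero (fun x => (b x).differentiableAt) (fun x => (b x).deriv) x 0
  simp only [mul_zero, Real.cos_zero, Real.sin_zero, mul_one, sub_zero, zero_add] at a' b'
  have c := Real.sin_sq_add_cos_sq (k * x)
  constructor
  · field_simp
    linear_combination Real.cos (k * x) * a' + Real.sin (k * x) * b' - k * y x * c
  · field_simp
    linear_combination Real.cos (k * x) * b' - Real.sin (k * x) * a' - y' x * c

theorem real_ell {h : ℝ → ℝ} (hT : IsTable h) {ψ₀ c : ℝ}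
    (hc : ∀ᶠ ψ in 𝓝 ψ₀, 1 / (h ψ + deriv (deriv h) ψ) ^ 2 *
      (1 - deriv (fun y => deriv (fun y => h y + deriv (deriv h) y) y /
        (h y + deriv (deriv h) y)) ψ / 6 + (deriv (fun y => h y + deriv (deriv h) y) ψ /
        (h ψ + deriv (deriv h) ψ)) ^ 2 / 9) ^ 3 = c) : H407.IsEllipse h := by
  set r : ℝ → ℝ := fun y => h y + deriv (deriv h) y with hr
  have r0 : ∀ x, 0 < r x := hT.2.2
  have ra : ∀ x, AnalyticAt ℝ r x := fun x => (hT.1 x).add (hT.1 x).deriv.deriv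
  set m : ℝ → ℝ := fun y => deriv r y / r y with hm
  have ma : ∀ x, AnalyticAt ℝ m x := fun x => (ra x).deriv.div (ra x) (r0 x).ne'
  have hc' : ∀ᶠ ψ in 𝓝 ψ₀, 1 / r ψ ^ 2 * (1 - deriv m ψ / 6 + m ψ ^ 2 / 9) ^ 3 = c := hc
  clear hc
  set s : ℝ → ℝ := fun y => Real.exp (-(1 / 3) * Real.log (r y)) with hs
  have s0 : ∀ x, 0 < s x := fun x => Real.exp_pos _
  have sa : ∀ x, AnalyticAt ℝ s x := fun x =>
    (analyticAt_const.mul ((ra x).log (r0 x))).rexp'
  have s3 : ∀ x, s x ^ 3 * r x = 1 := fun x => by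
    have e : Real.exp (-(1 / 3) * Real.log (r x)) ^ 3 = Real.exp (-Real.log (r x)) := by
      rw [← Real.exp_nat_mul]
      congr 1
      push_cast
      ring
    show Real.exp (-(1 / 3) * Real.log (r x)) ^ 3 * r x = 1
    rw [e, Real.exp_neg, Real.exp_log (r0 x), inv_mul_cancel₀ (r0 x).ne']
  have dm : ∀ x, HasDerivAt m (deriv m x) x := fun x => (ma x).differentiableAt.hasDerivAt
  have ds : ∀ x, HasDerivAt s (-(1 / 3) * m x * s x) x := fun x => by
    convert ((((ra x).differentiableAt.hasDerivAt.log (r0 x).ne').const_mul (-(1 / 3)))).exp using 1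
    simp only [hm, hs]
    ring
  have hr' : ∀ x, r x = h x + deriv (deriv h) x := fun x => rfl
  clear hs hm hr
  clear_value s m r
  have dds : ∀ x, HasDerivAt (fun x => -(1 / 3) * m x * s x)
      ((-(1 / 3) * deriv m x + m x ^ 2 / 9) * s x) x := fun x =>
    (((dm x).const_mul (-(1 / 3))).mul (ds x)).congr_deriv (by ring)
  -- `u + u'' / 4` is constant
  have hA : ∃ A : ℝ, ∀ x, s x ^ 2 * (1 - deriv m x / 6 + m x ^ 2 / 9) = A := by
    have an : AnalyticOnNhd ℝ (fun x => s x ^ 2 * (1 - deriv m x / 6 + m x ^ 2 / 9)) univ :=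
      fun x _ => ((sa x).pow 2).mul ((analyticAt_const.sub ((ma x).deriv.div_const)).add
        (((ma x).pow 2).div_const))
    have cube : ∀ x, (s x ^ 2 * (1 - deriv m x / 6 + m x ^ 2 / 9)) ^ 3 =
        1 / r x ^ 2 * (1 - deriv m x / 6 + m x ^ 2 / 9) ^ 3 := fun x => by
      have : s x ^ 3 = 1 / r x := by
        rw [eq_div_iff (r0 x).ne']
        exact s3 x
      rw [mul_pow, ← pow_mul, show 2 * 3 = 3 * 2 from rfl, pow_mul, this, div_pow, one_pow]
    refine ⟨s ψ₀ ^ 2 * (1 - deriv m ψ₀ / 6 + m ψ₀ ^ 2 / 9), fun x => ?_⟩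
    refine an.eqOn_of_preconnected_of_eventuallyEq analyticOnNhd_const isPreconnected_univ
      (mem_univ ψ₀) ?_ (mem_univ x)
    filter_upwards [hc'] with ψ hψ
    apply (Odd.strictMono_pow (by decide : Odd 3)).injective
    simp only
    rw [cube, cube, hψ, hc'.self_of_nhds]
  obtain ⟨A, hA⟩ := hA
  obtain ⟨B, C, hBC⟩ := osc (y := fun x => s x ^ 2 - A) (y' := fun x => -(2 / 3) * m x * s x ^ 2)
    (k := 2) two_ne_zero (fun x => (((ds x).pow 2).sub_const A).congr_deriv (by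
      simp
      ring)) (fun x => (((dm x).const_mul (-(2 / 3))).mul ((ds x).pow 2)).congr_deriv (by
      simp
      linear_combination 4 * hA x))
  have hR : √(B ^ 2 + C ^ 2) < A := by
    let z : ℂ := ⟨B, C⟩
    have h1 : ‖z‖ * Real.cos z.arg = B := Complex.norm_mul_cos_arg z
    have h2 : ‖z‖ * Real.sin z.arg = C := Complex.norm_mul_sin_arg z
    have h3 : ‖z‖ = √(B ^ 2 + C ^ 2) := Complex.norm_eq_sqrt_sq_add_sq z
    have h4 := (hBC ((z.arg + Real.pi) / 2)).1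
    rw [show 2 * ((z.arg + Real.pi) / 2) = z.arg + Real.pi by ring, Real.cos_add_pi,
      Real.sin_add_pi] at h4
    have h5 := Real.sin_sq_add_cos_sq z.arg
    have h6 := pow_pos (s0 ((z.arg + Real.pi) / 2)) 2
    rw [← h3]
    have : s ((z.arg + Real.pi) / 2) ^ 2 = A - ‖z‖ := by
      linear_combination h4 + Real.cos z.arg * h1 + Real.sin z.arg * h2 - ‖z‖ * h5
    linarith
  have hD : 0 < A ^ 2 - B ^ 2 - C ^ 2 := by
    have h1 := Real.sq_sqrt (show 0 ≤ B ^ 2 + C ^ 2 by positivity)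
    have h2 := Real.sqrt_nonneg (B ^ 2 + C ^ 2)
    nlinarith
  obtain ⟨D, hDd⟩ : ∃ D, D = A ^ 2 - B ^ 2 - C ^ 2 := ⟨_, rfl⟩
  rw [← hDd] at hD
  have hsD : ∀ x, s x + (-(1 / 3) * deriv m x + m x ^ 2 / 9) * s x = D * r x := fun x => by
    obtain ⟨e1, e2⟩ := hBC x
    have e3 := Real.sin_sq_add_cos_sq (2 * x)
    have e4 : (s x ^ 2 - A) ^ 2 + (-(2 / 3) * m x * s x ^ 2) ^ 2 / 4 = B ^ 2 + C ^ 2 := by
      rw [e1, e2]
      linear_combination (B ^ 2 + C ^ 2) * e3
    have e5 : s x ^ 3 * (s x + (-(1 / 3) * deriv m x + m x ^ 2 / 9) * s x) = D := by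
      rw [hDd]
      linear_combination -e4 + 2 * s x ^ 2 * hA x
    rw [← e5]
    linear_combination -(s x + (-(1 / 3) * deriv m x + m x ^ 2 / 9) * s x) * s3 x
  obtain ⟨p, q, hpq⟩ := osc (y := fun x => h x - s x / D)
    (y' := fun x => deriv h x - -(1 / 3) * m x * s x / D) (k := 1) one_ne_zero
    (fun x => (hT.1 x).differentiableAt.hasDerivAt.sub ((ds x).div_const D)) (fun x =>
      ((hT.1 x).deriv.differentiableAt.hasDerivAt.sub ((dds x).div_const D)).congr_deriv (by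
        have e := hsD x
        rw [hr'] at e
        have e' : D * D⁻¹ = 1 := mul_inv_cancel₀ hD.ne'
        linear_combination -D⁻¹ * e - (h x + deriv (deriv h) x) * e'))
  refine (H407.isEllipse_iff h).2 ⟨![p, q, A / D ^ 2, B / D ^ 2, C / D ^ 2], ?_, funext fun x => ?_⟩
  · show √((B / D ^ 2) ^ 2 + (C / D ^ 2) ^ 2) < A / D ^ 2
    rw [div_pow, div_pow, ← add_div, Real.sqrt_div (by positivity), Real.sqrt_sq (by positivity)]
    gcongr
  · show h x = p * Real.cos x + q * Real.sin x +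
      √(A / D ^ 2 + B / D ^ 2 * Real.cos (2 * x) + C / D ^ 2 * Real.sin (2 * x))
    have e : A / D ^ 2 + B / D ^ 2 * Real.cos (2 * x) + C / D ^ 2 * Real.sin (2 * x) =
        (s x / D) ^ 2 := by
      field_simp
      linear_combination -(hBC x).1
    rw [e, Real.sqrt_sq (div_pos (s0 x) hD).le]
    have := (hpq x).1
    simp only [one_mul] at this
    linear_combination this

end Ell

open Ell in
theorem zw : Spec_ZW := by
  refine ⟨fun H x h h0 => reg h h0, fun h ψ₀ hh => ?_, fun h H ψ₀ h1 h2 h3 => ?_,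
    fun h H ψ₀ p hT hp hinf h1 h2 => ⟨iso p, iso_ne hp, alg hT hinf ⟨h1, hT.1 _, h2⟩⟩⟩
  · obtain ⟨ρ, G, hρ, hG, hGF⟩ := cx_local hh
    refine ⟨G, hG.analyticAt (ball_mem_nhds _ hρ), ?_⟩
    filter_upwards [ball_mem_nhds ψ₀ hρ] with y hy
    exact hGF y hy
  · have hE : Ext H h ψ₀ := ⟨h2, h1, h3⟩
    exact (hE.add hE.deriv.deriv).eq.self_of_nhds

open Ell in
theorem ell_of : Spec_ELL := by
  intro h H ψ₀ hT h1 h2 hG
  have hE : Ext H h ψ₀ := ⟨h1, hT.1 _, h2⟩
  have hr : Ext (rc H) (fun y => h y + deriv (deriv h) y) ψ₀ := hE.add hE.deriv.deriv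
  have hm : Ext (lm H) _ ψ₀ := hr.deriv.div hr (hT.2.2 ψ₀).ne'
  have hO : Ok H ψ₀ := ⟨h1, by rw [hr.eq.self_of_nhds]; exact_mod_cast (hT.2.2 ψ₀).ne'⟩
  refine real_ell hT (ψ₀ := ψ₀) (c := (GG (Zc H) (Wc H) ψ₀).re / (-4)) ?_
  filter_upwards [(tend ψ₀).eventually hG, (tend ψ₀).eventually hO.ev, hr.eq, hm.eq, hm.deriv.eq]
    with ψ a1 a2 a3 a4 a5
  rw [← a1, a2.GG, a3, a4, a5]
  have key : ∀ a b c : ℝ, 1 / a ^ 2 * (1 - b / 6 + c ^ 2 / 9) ^ 3 =
      (-4 / (a : ℂ) ^ 2 * (1 - (b : ℂ) / 6 + (c : ℂ) ^ 2 / 9) ^ 3).re / (-4) := fun a b c => by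
    rw [show -4 / (a : ℂ) ^ 2 * (1 - (b : ℂ) / 6 + (c : ℂ) ^ 2 / 9) ^ 3 =
      ((-4 / a ^ 2 * (1 - b / 6 + c ^ 2 / 9) ^ 3 : ℝ) : ℂ) by push_cast; rfl, Complex.ofReal_re]
    ring
  exact key _ _ _

end Vale.Agent.P097A
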