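import Vale.Agent.P097A.Fatou

/-!
# P097A: the exponents of an integrable place
-/

noncomputable section

namespace Vale.Agent.P097A

open Filter Topology Set Complex FatouH

namespace ExpH

/-- `(exp y - 1) / y` -/
theorem exE : ∃ E F : ℂ → ℂ, AnalyticAt ℂ E 0 ∧ AnalyticAt ℂ F 0 ∧ (∀ y, exp y = 1 + y * E y) ∧
    ∀ y, E y = 1 + y / 2 + y ^ 2 / 6 + y ^ 3 * F y := by
  obtain ⟨F, h1, h2⟩ := (analyticAt_cexp (z := 0)).exists_eq_sum_add_pow_mul 4
  refine ⟨_, F, by fun_prop, h1, fun y => (h2 y).trans ?_, fun _ => rfl⟩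
  simp [Finset.sum_range_succ, iteratedDeriv_eq_iterate, iter_deriv_exp, Nat.factorial]
  ring

variable {E F : ℂ → ℂ}

theorem scE (α : ℤ) (z : ℂ → ℂ) : sc α z exp 0 = fun y => exp (α * y) * z 0 :=
  funext fun y => by rw [sc, zero_mul, exp_int_mul]

theorem der (a c b : ℂ) : deriv (fun y => exp (a * y) * c) b = a * exp (a * b) * c := by
  rw [(((hasDerivAt_id' b).const_mul a).cexp.mul_const c).deriv]
  ring

theorem dsl (h : ∀ y, exp y = 1 + y * E y) (h0 : E 0 = 1) (a c b x : ℂ) :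
    dslope (fun y => exp (a * y) * c) b x = a * E (a * (x - b)) * exp (a * b) * c := by
  by_cases k : x = b
  · simp [k, der, h0]
  · rw [dslope_of_ne _ k, slope_def_field, div_eq_iff (sub_ne_zero.2 k),
      show a * x = a * (x - b) + a * b by ring, exp_add, h (a * (x - b))]
    ring

/-- the Fatou coordinate of the model -/
theorem fat (hF : Spec_FATOU) (Ea : AnalyticAt ℂ E 0) (Fa : AnalyticAt ℂ F 0)
    (h1 : ∀ y, exp y = 1 + y * E y) (h2 : ∀ y, E y = 1 + y / 2 + y ^ 2 / 6 + y ^ 3 * F y)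
    {euc : Bool} {α β : ℤ} {g : ℕ} (g0 : 0 < g) (hG : Good euc α β) {ϑ : ℂ × ℂ → ℂ}
    (ϑa : AnalyticAt ℂ ϑ 0) (h0 : ∀ᶠ v in 𝓝 (0 : ℂ), ϑ (0, v) = 0 ∧ ϑ (v, v) = v)
    (h : ∀ᶠ p in 𝓝 (0 : ℂ × ℂ), ∀ x y, x = ϑ (p.1 + p.2, p.2) - ϑ p → y = ϑ (p.1 - p.2, p.2) - ϑ p →
      if euc then E (β * g * x) * E (β * g * y) = E (α * g * x) * E (α * g * y) else
        E (β * g * x) * E (α * g * y) + E (β * g * y) * E (α * g * x) =
          2 * (E (α * g * x) * E (α * g * y))) :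
    ∃ Φ, Fatou euc α β Φ := by
  have a0 : (α : ℂ) ≠ 0 := Int.cast_ne_zero.2 hG.a0
  have b0 : (β : ℂ) ≠ 0 := Int.cast_ne_zero.2 hG.b0
  have ab : (β : ℂ) - α ≠ 0 := sub_ne_zero.2 (Int.cast_injective.ne hG.ab.symm)
  have g1 : (g : ℂ) ≠ 0 := Nat.cast_ne_zero.2 g0.ne'
  set a : ℂ := α * g with ha
  set b : ℂ := β * g with hb
  have ba : b - a ≠ 0 := by rw [ha, hb, ← sub_mul]; exact mul_ne_zero ab g1
  have E0 : E 0 = 1 := by simp [h2]
  have cm : ∀ {f : ℂ → ℂ} (c : ℂ), AnalyticAt ℂ f 0 → AnalyticAt ℂ (fun y => f (c * y)) 0 :=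
    fun c hf => hf.comp_of_eq (analyticAt_const.mul analyticAt_id) (mul_zero c)
  have En : ∀ c : ℂ, ∀ᶠ y in 𝓝 0, E (c * y) ≠ 0 := fun c =>
    (cm c Ea).continuousAt.eventually_ne (by simp [E0])
  let N : ℂ → ℂ := fun y => (b ^ 2 - a ^ 2) / 6 + y * (b ^ 3 * F (b * y) - a ^ 3 * F (a * y))
  have Na : AnalyticAt ℂ N 0 := analyticAt_const.add (analyticAt_id.mul
    ((analyticAt_const.mul (cm b Fa)).sub (analyticAt_const.mul (cm a Fa))))
  have hN : ∀ y, E (b * y) - E (a * y) = y * ((b - a) / 2 + y * N y) := fun y => by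
    rw [h2, h2 (a * y)]
    ring
  have dE : ∀ c : ℂ, HasDerivAt (fun y => E (c * y)) (c / 2) 0 := fun c =>
    (cm c Ea).differentiableAt.hasDerivAt.congr_deriv ((d1 (c := 1)
      (g := fun y => c / 2 + c ^ 2 * y / 6 + c ^ 3 * y ^ 2 * F (c * y))
      ((analyticAt_const.add (by fun_prop)).add (AnalyticAt.mul (by fun_prop) (cm c Fa)))
      fun y => by rw [h2]; ring).trans (by simp))
  let D : ℂ → ℂ := fun y => if euc then E (b * y) + E (a * y) else E (a * y)
  have Da : AnalyticAt ℂ D 0 := by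
    cases euc
    · exact cm a Ea
    · exact (cm b Ea).add (cm a Ea)
  have D0 : D 0 ≠ 0 := by cases euc <;> simp [D, E0]
  have Dn := Da.continuousAt.eventually_ne D0
  have Ma : AnalyticAt ℂ (fun y => (b - a) / 2 + y * N y) 0 :=
    analyticAt_const.add (analyticAt_id.mul Na)
  have pa := Ma.fun_div Da D0
  have hp : ∀ y, (E (b * y) - E (a * y)) / D y = 0 + y * (((b - a) / 2 + y * N y) / D y) :=
    fun y => by rw [hN, zero_add, mul_div_assoc]
  have At : ∀ s : ℂ, Tendsto (fun p : ℂ × ℂ => ϑ (p.1 + s * p.2, p.2) - ϑ p) (𝓝 0) (𝓝 0) :=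
    fun s => sub_self (ϑ 0) ▸ (ϑa.continuousAt.tendsto.comp
      (Continuous.tendsto' (by fun_prop) _ _ (by simp))).sub ϑa.continuousAt
  obtain ⟨u, ua, u0, u1, u2, u3⟩ := hF (fun y => (E (b * y) - E (a * y)) / D y) ϑ
    (((cm b Ea).fun_sub (cm a Ea)).fun_div Da D0) (by simp)
    ((d1 pa hp).trans_ne (div_ne_zero (by simpa using ba) D0)) ((d2 pa hp).trans_ne (by
      have k1 := Ma.differentiableAt.hasDerivAt.congr_deriv (d1 Na fun _ => rfl)
      have k2 := hG.par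
      cases euc
      · refine (congrArg _ (k1.fun_div (dE a) D0).deriv).trans_ne ?_
        have k3 : 2 * b - a ≠ 0 := by
          rw [ha, hb, ← mul_assoc, ← sub_mul]
          exact mul_ne_zero (by exact_mod_cast k2) g1
        refine fun k => mul_ne_zero ba k3 ?_
        simp only [N, mul_zero, E0] at k
        linear_combination 6 * k
      · refine (congrArg _ (k1.fun_div ((dE b).fun_add (dE a)) D0).deriv).trans_ne ?_
        have k3 : a + b ≠ 0 := by
          rw [ha, hb, ← add_mul]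
          exact mul_ne_zero (by exact_mod_cast k2) g1
        refine fun k => mul_ne_zero ba k3 ?_
        simp only [N, mul_zero, E0] at k
        linear_combination 24 * k)) ϑa h0 (by
    filter_upwards [h, (At 1).eventually Dn, (At (-1)).eventually Dn] with p k1 k2 k3
    simp only [one_mul, neg_mul, ← sub_eq_add_neg] at k2 k3
    have k4 := k1 _ _ rfl rfl
    rw [div_add_div _ _ k2 k3, div_eq_zero_iff]
    left
    cases euc
    · simp only [D, Bool.false_eq_true, if_false] at k4 ⊢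
      linear_combination k4
    · simp only [D, if_true] at k4 ⊢
      linear_combination 2 * k4)
  have ut := tend ua u0
  have E1 : E (a * 0) ≠ 0 := by simp [E0]
  have ph := ((dE b).fun_div (dE a) E1).const_mul ((β : ℂ) / α)
  refine ⟨fun x => β / α * (E (b * u x) / E (a * u x)), (analyticAt_const.mul
    ((cm b Ea).fun_div (cm a Ea) E1)).comp_of_eq ua u0, by simp [u0, E0],
    (ph.comp_of_eq 0 ua.differentiableAt.hasDerivAt u0.symm).deriv.trans_ne (mul_ne_zero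
      (mul_ne_zero (div_ne_zero b0 a0) (by simpa [E0, ← sub_div] using ba)) u1), ?_, ?_⟩
  · have un : ∀ᶠ x in 𝓝[≠] 0, u x ≠ 0 := ua.eventually_eq_zero_or_eventually_ne_zero.resolve_left
      fun k => u1 (by simpa using (show u =ᶠ[𝓝 0] fun _ => 0 from k).deriv_eq)
    filter_upwards [un, nhdsWithin_le_nhds (u2.and (ut.eventually (En a)))] with x k1 ⟨k2, k3⟩
    rw [k2]
    generalize u x = y at k1 k3
    have e1 : ∀ c y : ℂ, c * y ≠ 0 → E (c * y) = (exp (c * y) - 1) / (c * y) := fun c y k => by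
      rw [h1, add_sub_cancel_left, mul_div_cancel_left₀ _ k]
    have a1 : a ≠ 0 := mul_ne_zero a0 g1
    have b1 : b ≠ 0 := mul_ne_zero b0 g1
    have A1 : exp (a * y) - 1 ≠ 0 := by
      rw [h1, add_sub_cancel_left]
      exact mul_ne_zero (mul_ne_zero a1 k1) k3
    have A2 : 1 - exp (a * y) ≠ 0 := fun k => A1 (by linear_combination -k)
    have A0 := exp_ne_zero (a * y)
    have B0 := exp_ne_zero (b * y)
    have m : (β : ℂ) / α = b / a := (mul_div_mul_right _ _ g1).symm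
    have AB : exp (b * y) ^ α = exp (a * y) ^ β := by
      rw [← exp_int_mul, ← exp_int_mul, ha, hb]
      ring_nf
    have p1 : (β : ℂ) / α * (E (b * y) / E (a * y)) = (exp (b * y) - 1) / (exp (a * y) - 1) := by
      rw [m, e1 a y (mul_ne_zero a1 k1), e1 b y (mul_ne_zero b1 k1)]
      field_simp
    have p2 : (β : ℂ) / α * (E (b * -y) / E (a * -y)) =
        (exp (b * y) - 1) / (exp (a * y) - 1) * (exp (a * y) / exp (b * y)) := by
      rw [m, e1 a (-y) (by simp [a1, k1]), e1 b (-y) (by simp [b1, k1]), mul_neg, mul_neg, exp_neg,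
        exp_neg]
      field_simp
      ring
    have p3 : 1 - (exp (b * y) - 1) / (exp (a * y) - 1) * (exp (a * y) / exp (b * y)) =
        (1 - (exp (b * y) - 1) / (exp (a * y) - 1)) * (exp (b * y))⁻¹ := by
      generalize exp (a * y) = A at A1 ⊢
      field_simp
      ring
    rw [p1, p2, kap, kap, p3, mul_zpow, mul_zpow, div_zpow (exp _), inv_zpow, zpow_sub₀ B0, AB,
      zpow_neg (exp _), zpow_neg (exp _)]
    field_simp [zpow_ne_zero]
  · have t1 : Tendsto (fun x : ℂ => x / (1 + x)) (𝓝 0) (𝓝 0) := tend (analyticAt_id.fun_div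
      (analyticAt_const.add analyticAt_id) (by simp)) (zero_div _)
    filter_upwards [nhdsWithin_le_nhds (u2.and (u3.and (((ut.comp t1).eventually (Dn.and (En a))).and
      ((tneg.comp ut).eventually (Dn.and ((En a).and (En b)))))))]
      with x ⟨k1, k2, ⟨k3, k4⟩, k5, k6, k7⟩
    simp only [Function.comp_apply] at k3 k4 k5 k6 k7
    rw [div_add_div _ _ k3 k5, div_eq_zero_iff, or_iff_left (mul_ne_zero k3 k5)] at k2
    rw [k1]
    cases euc
    · simp only [D, refl, Bool.false_eq_true, if_false] at k2 ⊢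
      generalize E (a * u (x / (1 + x))) = P, E (a * -u x) = Q, E (b * -u x) = R at k2 k4 k6 ⊢
      field_simp
      linear_combination k2
    · simp only [D, refl, if_true] at k2 ⊢
      generalize E (a * u (x / (1 + x))) = P, E (a * -u x) = Q, E (b * -u x) = R at k2 k4 k6 k7 ⊢
      field_simp
      linear_combination (1 / 2) * k2

theorem gau {L : ℂ × ℂ × ℂ × ℂ → ℂ} {H : ℂ × ℂ × ℂ → ℂ} (h : Gauged L 0 0 H) :
    AnalyticAt ℂ (fun p => H (0, p)) 0 ∧ (∀ᶠ v in 𝓝 (0 : ℂ), H (0, 0, v) = 0 ∧ H (0, v, v) = v) ∧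
      ∀ᶠ p in 𝓝 (0 : ℂ × ℂ), L (0, H (0, p.1 - p.2, p.2), H (0, p), H (0, p.1 + p.2, p.2)) = 0 :=
  have t : Tendsto (fun v : ℂ => ((0 : ℂ), v)) (𝓝 0) (𝓝 (0, 0)) :=
    (Continuous.prodMk_right 0).tendsto 0
  ⟨h.an.comp_of_eq (analyticAt_const.prod analyticAt_id) rfl,
    (t.eventually h.g0).and ((t.eventually h.g1).mono fun v hv => hv.trans (zero_add v)),
    ((Continuous.prodMk_right (0 : ℂ)).tendsto 0).eventually h.sol⟩

end ExpH

open ExpH

theorem exp_of (hA : Spec_FAM) (hF : Spec_FATOU) (hM : Spec_MER) (hG : Spec_CLG) (hE : Spec_CLE) :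
    Spec_EXP := by
  obtain ⟨E, F, Ea, Fa, h1, h2⟩ := exE
  have E0 : E 0 = 1 := by simp [h2]
  have e1 : deriv exp 0 ≠ 0 := by simp
  refine ⟨fun α β z w a0 b0 ab s za wa z0 w0 h => ?_, fun α β u v a0 b0 ab s ua va u0 v0 h => ?_⟩
  all_goals
    obtain ⟨g, α, β, g0, g1, rfl, rfl⟩ := Int.exists_gcd_one' (Int.gcd_pos_of_ne_zero_left β a0)
    have g2 : (0 : ℤ) < g := Nat.cast_pos.2 g0
    have ab' := lt_of_mul_lt_mul_right ab g2.le
    have a1 : ((α * g : ℤ) : ℂ) ≠ 0 := Int.cast_ne_zero.2 a0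
    have b1 : ((β * g : ℤ) : ℂ) ≠ 0 := Int.cast_ne_zero.2 b0
  · obtain ⟨-, H, hH⟩ := hA.1 _ _ z w exp 0 a0 b0 ab.ne za wa z0 w0 analyticAt_cexp exp_zero e1 h
    obtain ⟨k1, k2, k3⟩ := gau hH
    have s' : 0 < α + β := (mul_pos_iff_of_pos_right g2).1 (by rwa [add_mul])
    have G : Good true α β := ⟨left_ne_zero_of_mul a0, left_ne_zero_of_mul b0, ab'.ne,
      Int.isCoprime_iff_gcd_eq_one.2 g1, s'.ne'⟩
    obtain ⟨Φ, hΦ⟩ := fat hF Ea Fa h1 h2 g0 G k1 k2 (k3.mono fun p hp x y hx hy => by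
      simp only [famZ, lawZ, scE, dsl h1 E0, der, ← hx, ← hy] at hp
      refine mul_left_cancel₀ (pow_ne_zero 2 (mul_ne_zero (mul_ne_zero (mul_ne_zero a1 b1)
        (mul_ne_zero z0 w0)) (mul_ne_zero (exp_ne_zero ((α * g : ℤ) * H (0, p)))
          (exp_ne_zero ((β * g : ℤ) * H (0, p)))))) ?_
      push_cast at hp ⊢
      linear_combination hp)
    obtain ⟨φ, p1, p2⟩ := hM _ _ _ Φ G hΦ
    obtain ⟨rfl, rfl⟩ := hE α β Φ φ G ab' s' hΦ p1 p2
    omega
  · obtain ⟨-, H, hH⟩ := hA.2 _ _ u v exp 0 a0 b0 ab ua va u0 v0 analyticAt_cexp exp_zero e1 h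
    obtain ⟨k1, k2, k3⟩ := gau hH
    have G : Good false α β := ⟨left_ne_zero_of_mul a0, left_ne_zero_of_mul b0, ab'.ne,
      Int.isCoprime_iff_gcd_eq_one.2 g1, fun k => s (by linear_combination g * k)⟩
    obtain ⟨Φ, hΦ⟩ := fat hF Ea Fa h1 h2 g0 G k1 k2 (k3.mono fun p hp x y hx hy => by
      simp only [famG, lawG, scE, dsl h1 E0, der, ← hx, ← hy, zero_pow (show
        2 * (β * g - α * g).toNat ≠ 0 by omega)] at hp
      refine mul_left_cancel₀ (mul_ne_zero (pow_ne_zero 3 (mul_ne_zero (mul_ne_zero a1 u0)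
        (exp_ne_zero ((α * g : ℤ) * H (0, p))))) (mul_ne_zero (mul_ne_zero b1 v0)
          (exp_ne_zero ((β * g : ℤ) * H (0, p))))) ?_
      push_cast at hp ⊢
      linear_combination hp)
    obtain ⟨φ, p1, p2⟩ := hM _ _ _ Φ G hΦ
    rcases hG α β Φ φ G ab' hΦ p1 p2 with ⟨rfl, rfl⟩ | ⟨rfl, rfl⟩ <;> omega

end Vale.Agent.P097A
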