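import Vale.Agent.P097A.Gauge

/-!
# P097A: the rescaled families at a place (FAM)
-/

set_option linter.all false

noncomputable section

namespace Vale.Agent.P097A

open Filter Topology Set Metric

namespace Fam

open Gauge

theorem ds_comp {f B : ℂ → ℂ} {a : ℂ} (hf : DifferentiableAt ℂ f (B a))
    (hB : DifferentiableAt ℂ B a) (c b : ℂ) :
    dslope (fun y => c * f (B y)) a b = c * dslope f (B a) (B b) * dslope B a b := by
  by_cases h : b = a
  · subst h
    simp only [dslope_same]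
    exact ((hf.hasDerivAt.comp b hB.hasDerivAt).const_mul c).deriv.trans (mul_assoc _ _ _).symm
  · have k1 := sub_smul_dslope (fun y => c * f (B y)) a b
    have k2 := sub_smul_dslope f (B a) (B b)
    have k3 := sub_smul_dslope B a b
    simp only [smul_eq_mul] at k1 k2 k3
    refine mul_left_cancel₀ (sub_ne_zero.2 h) ?_
    linear_combination k1 - c * k2 - c * dslope f (B a) (B b) * k3

theorem ds_add {f g : ℂ → ℂ} {a : ℂ} (hf : DifferentiableAt ℂ f a) (hg : DifferentiableAt ℂ g a)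
    (b : ℂ) : dslope (f + g) a b = dslope f a b + dslope g a b := by
  by_cases h : b = a
  · subst h
    simp only [dslope_same]
    exact deriv_add hf hg
  · simp only [dslope_of_ne _ h, slope_def_field, Pi.add_apply]
    ring

theorem ds_sub {f g : ℂ → ℂ} {a : ℂ} (hf : DifferentiableAt ℂ f a) (hg : DifferentiableAt ℂ g a)
    (b : ℂ) : dslope (f - g) a b = dslope f a b - dslope g a b := by
  by_cases h : b = a
  · subst h
    simp only [dslope_same]
    exact deriv_sub hf hg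
  · simp only [dslope_of_ne _ h, slope_def_field, Pi.sub_apply]
    ring

theorem lawZ_comp {Z W B : ℂ → ℂ} {q : ℂ × ℂ × ℂ} (hZ : DifferentiableAt ℂ Z (B q.2.1))
    (hW : DifferentiableAt ℂ W (B q.2.1)) (hB : DifferentiableAt ℂ B q.2.1) (c d : ℂ) :
    lawZ (fun y => c * Z (B y)) (fun y => d * W (B y)) q =
      c ^ 2 * d ^ 2 * (dslope B q.2.1 q.1 * dslope B q.2.1 q.2.2 * deriv B q.2.1 ^ 2) *
        lawZ Z W (B q.1, B q.2.1, B q.2.2) := by
  simp only [lawZ, ← dslope_same, ds_comp hZ hB, ds_comp hW hB]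
  ring

theorem lawG_comp {U V B : ℂ → ℂ} {q : ℂ × ℂ × ℂ} (hU : DifferentiableAt ℂ U (B q.2.1))
    (hV : DifferentiableAt ℂ V (B q.2.1)) (hB : DifferentiableAt ℂ B q.2.1) {c d μ : ℂ}
    (h : μ * d ^ 2 = c ^ 2) :
    2 * lawG μ (fun y => c * U (B y)) (fun y => d * V (B y)) q =
      c ^ 3 * d * (dslope B q.2.1 q.1 * dslope B q.2.1 q.2.2 * deriv B q.2.1 ^ 2) *
        lawZ (U - V) (U + V) (B q.1, B q.2.1, B q.2.2) := by
  simp only [lawZ, lawG, ← dslope_same, ds_comp hU hB, ds_comp hV hB, ds_add hU hV, ds_sub hU hV]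
  generalize dslope B q.2.1 q.1 = b1, dslope B q.2.1 q.2.2 = b2, dslope B q.2.1 q.2.1 = b0,
    dslope U (B q.2.1) (B q.1) = u1, dslope U (B q.2.1) (B q.2.2) = u2,
    dslope U (B q.2.1) (B q.2.1) = u0, dslope V (B q.2.1) (B q.1) = v1,
    dslope V (B q.2.1) (B q.2.2) = v2, dslope V (B q.2.1) (B q.2.1) = v0
  linear_combination 2 * c * d * b1 * b2 * b0 ^ 2 *
    ((v1 * u2 + v2 * u1) * v0 ^ 2 - 2 * u0 * v0 * (v1 * v2)) * h

theorem ds_der {f : ℂ → ℂ} {x : ℂ} (hf : AnalyticAt ℂ f x) :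
    HasDerivAt (dslope f x) (deriv (deriv f) x / 2) x := by
  obtain ⟨p, hp⟩ := hf
  have hg : AnalyticAt ℂ (dslope f x) x := hp.has_fpower_series_dslope_fslope.analyticAt
  have e : f = fun y => f x + (y - x) * dslope f x y := funext fun y => by
    rw [← smul_eq_mul, sub_smul_dslope, add_sub_cancel]
  have e1 : deriv f =ᶠ[𝓝 x] fun y => dslope f x y + (y - x) * deriv (dslope f x) y := by
    filter_upwards [hg.eventually_analyticAt] with y hy
    have := ((((hasDerivAt_id y).sub_const x).mul hy.differentiableAt.hasDerivAt).const_add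
      (f x)).deriv
    conv_lhs => rw [e]
    simpa using this
  have k := (hg.differentiableAt.hasDerivAt.add (((hasDerivAt_id x).sub_const x).mul
    hg.deriv.differentiableAt.hasDerivAt)).congr_of_eventuallyEq e1
  refine hg.differentiableAt.hasDerivAt.congr_deriv ?_
  rw [k.deriv]
  simp

theorem ndZ {Z W : ℂ → ℂ} {x : ℂ} (hZ : AnalyticAt ℂ Z x) (hW : AnalyticAt ℂ W x) :
    HasDerivAt (fun c => lawZ Z W (x, x, c)) (deriv Z x * deriv W x *
      (deriv Z x * deriv (deriv W) x - deriv W x * deriv (deriv Z) x) / 2) x := by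
  simp only [lawZ, dslope_same]
  exact ((((ds_der hW).const_mul _).mul_const _).sub
    (((ds_der hZ).const_mul _).mul_const _)).congr_deriv (by ring)

theorem ndG {U V : ℂ → ℂ} {x : ℂ} (hU : AnalyticAt ℂ U x) (hV : AnalyticAt ℂ V x) (μ : ℂ) :
    HasDerivAt (fun c => lawG μ U V (x, x, c)) ((deriv U x ^ 2 - μ * deriv V x ^ 2) *
      (deriv U x * deriv (deriv V) x - deriv V x * deriv (deriv U) x) / 2) x := by
  simp only [lawG, dslope_same]
  exact (((((ds_der hU).const_mul _).add ((ds_der hV).mul_const _)).mul_const _).sub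
    ((((ds_der hU).const_mul _).add (((ds_der hV).const_mul _).const_mul _)).const_mul
      _)).congr_deriv (by ring)

theorem fd4 {E : ℂ × ℂ × ℂ × ℂ → ℂ} {ε x d : ℂ} (hE : AnalyticAt ℂ E (ε, x, x, x))
    (h : HasDerivAt (fun c => E (ε, x, x, c)) d x) : fderiv ℂ E (ε, x, x, x) (0, 0, 0, 1) = d :=
  (hE.differentiableAt.hasFDerivAt.comp_hasDerivAt x ((hasDerivAt_const x ε).prodMk
    ((hasDerivAt_const x x).prodMk ((hasDerivAt_const x x).prodMk (hasDerivAt_id x))))).unique h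

theorem an_sc {α : ℤ} {z b : ℂ → ℂ} {x : ℂ} (hz : AnalyticAt ℂ z 0) (hb : AnalyticAt ℂ b x)
    (b1 : b x = 1) : AnalyticAt ℂ (fun q : ℂ × ℂ => sc α z b q.1 q.2) (0, x) := by
  have h1 : AnalyticAt ℂ (fun q : ℂ × ℂ => b q.2) (0, x) := cmp hb analyticAt_snd rfl
  exact (h1.zpow (by simp [b1])).mul (cmp hz (analyticAt_fst.mul h1) (by simp))

/-- the three divided differences of a family of functions -/
theorem an_ds (hDD : Spec_DD) {F : ℂ → ℂ → ℂ} {ε x : ℂ}
    (hF : AnalyticAt ℂ (fun q : ℂ × ℂ => F q.1 q.2) (ε, x)) :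
    AnalyticAt ℂ (fun q : ℂ × ℂ × ℂ × ℂ => dslope (F q.1) q.2.2.1 q.2.1) (ε, x, x, x) ∧
    AnalyticAt ℂ (fun q : ℂ × ℂ × ℂ × ℂ => dslope (F q.1) q.2.2.1 q.2.2.2) (ε, x, x, x) ∧
    AnalyticAt ℂ (fun q : ℂ × ℂ × ℂ × ℂ => deriv (F q.1) q.2.2.1) (ε, x, x, x) := by
  have h := hDD ℂ _ ε x hF
  have p1 : AnalyticAt ℂ (fun q : ℂ × ℂ × ℂ × ℂ => q.2.1) (ε, x, x, x) :=
    analyticAt_fst.comp analyticAt_snd
  have p2 : AnalyticAt ℂ (fun q : ℂ × ℂ × ℂ × ℂ => q.2.2.1) (ε, x, x, x) :=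
    analyticAt_fst.comp (analyticAt_snd.comp analyticAt_snd)
  have p3 : AnalyticAt ℂ (fun q : ℂ × ℂ × ℂ × ℂ => q.2.2.2) (ε, x, x, x) :=
    analyticAt_snd.comp (analyticAt_snd.comp analyticAt_snd)
  have h1 := cmp h (analyticAt_fst.prod (p2.prod p1)) rfl
  have h2 := cmp h (analyticAt_fst.prod (p2.prod p3)) rfl
  have h3 := cmp h (analyticAt_fst.prod (p2.prod p2)) rfl
  simp only [dslope_same] at h3
  exact ⟨h1, h2, h3⟩

/-- the first two derivatives of the model -/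
theorem der_sc {α : ℤ} {z b : ℂ → ℂ} {x : ℂ} (hb : AnalyticAt ℂ b x) (b1 : b x = 1) :
    AnalyticAt ℂ (sc α z b 0) x ∧ deriv (sc α z b 0) x = α * deriv b x * z 0 ∧
      deriv (deriv (sc α z b 0)) x =
        α * ((α - 1) * deriv b x ^ 2 + deriv (deriv b) x) * z 0 := by
  have e : sc α z b 0 = fun y => b y ^ α * z 0 := funext fun y => by simp [sc]
  have b0 : b x ≠ 0 := by simp [b1]
  have e1 : deriv (sc α z b 0) =ᶠ[𝓝 x] fun y => α * b y ^ (α - 1) * deriv b y * z 0 := by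
    filter_upwards [hb.eventually_analyticAt, hb.continuousAt.eventually_ne b0] with y h1 h2
    rw [e]
    exact (((hasDerivAt_zpow α (b y) (.inl h2)).comp y
      h1.differentiableAt.hasDerivAt).mul_const _).deriv
  refine ⟨e ▸ (hb.zpow b0).mul analyticAt_const, by simp [e1.self_of_nhds, b1], ?_⟩
  have k := (((((hasDerivAt_zpow (α - 1) (b x) (.inl b0)).comp x
    hb.differentiableAt.hasDerivAt).const_mul (α : ℂ)).mul
    hb.deriv.differentiableAt.hasDerivAt).mul_const (z 0)).congr_of_eventuallyEq e1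
  rw [k.deriv]
  simp only [Function.comp_def, b1, one_zpow]
  push_cast
  ring

theorem sc_eq {α : ℤ} {z b : ℂ → ℂ} {ε : ℂ} (h : ε ≠ 0) :
    sc α z b ε = fun y => ε ^ (-α) * pw α z (ε * b y) := funext fun y => by
  rw [sc, pw, mul_zpow, zpow_neg, mul_assoc, inv_mul_cancel_left₀ (zpow_ne_zero _ h)]

theorem an_pw {α : ℤ} {z : ℂ → ℂ} (hz : AnalyticAt ℂ z 0) :
    ∀ᶠ τ in 𝓝[≠] (0 : ℂ), AnalyticAt ℂ (pw α z) τ := by
  filter_upwards [self_mem_nhdsWithin, mem_nhdsWithin_of_mem_nhds hz.eventually_analyticAt]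
    with τ h1 h2
  exact (analyticAt_id.zpow h1).mul h2

/-- the common part of the two cases -/
theorem core (hDD : Spec_DD) (hL : Spec_LAWF) (hA : Spec_AVG) {E : ℂ × ℂ × ℂ → ℂ}
    {E' : ℂ × ℂ × ℂ × ℂ → ℂ} {b : ℂ → ℂ} {x : ℂ} {Q : ℂ → Prop} (hb : AnalyticAt ℂ b x)
    (b1 : b x = 1) (b' : deriv b x ≠ 0) (h0 : IsLawF E' 0 x)
    (hI : ∀ᶠ τ in 𝓝[≠] (0 : ℂ), IntLaw E τ) (hQ : ∀ᶠ τ in 𝓝[≠] (0 : ℂ), Q τ)
    (hE : ∀ q : ℂ × ℂ × ℂ × ℂ, q.1 ≠ 0 → Q (q.1 * b q.2.2.1) → DifferentiableAt ℂ b q.2.2.1 →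
      E (q.1 * b q.2.1, q.1 * b q.2.2.1, q.1 * b q.2.2.2) = 0 → E' q = 0) :
    ∃ H, Gauged E' 0 x H := by
  have h1 : ∀ᶠ ε in 𝓝 (0 : ℂ), IsLawF E' ε x :=
    ((continuous_id.prodMk continuous_const).tendsto (0 : ℂ)).eventually (hL.1 E' 0 x h0).1
  have h2 := eventually_nhdsWithin_iff.1 (hI.and (eventually_eventually_nhdsWithin.2 hQ))
  obtain ⟨r, r0, hr⟩ := Metric.eventually_nhds_iff_ball.1 (h1.and h2)
  have m : ∀ ε : ℂ, ‖ε‖ ≤ r / 2 → ε ∈ ball (0 : ℂ) r := fun ε h => by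
    rw [mem_ball_zero_iff]
    linarith
  refine hA E' x (r / 2) (by positivity) (fun ε h => (hr ε (m ε h)).1) fun ε h => ?_
  have ε0 : ε ≠ 0 := fun c => by
    rw [c, norm_zero] at h
    linarith
  obtain ⟨k1, k2⟩ := (hr ε (m ε h.le)).2 ε0
  rw [nhdsWithin_eq_nhds.2 (isOpen_compl_singleton.mem_nhds ε0)] at k2
  have aB : AnalyticAt ℂ (fun q : ℂ × ℂ => q.1 * b q.2) (ε, x) :=
    analyticAt_fst.mul (cmp hb analyticAt_snd rfl)
  refine gauge hDD E E' _ ε x aB ?_ (by simpa [b1] using k1) ?_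
  · rw [← (hd2 aB.differentiableAt).deriv]
    simp only
    rw [(hb.differentiableAt.hasDerivAt.const_mul ε).deriv]
    exact mul_ne_zero ε0 b'
  · have p2 : AnalyticAt ℂ (fun q : ℂ × ℂ × ℂ × ℂ => q.2.2.1) (ε, x, x, x) :=
      analyticAt_fst.comp (analyticAt_snd.comp analyticAt_snd)
    filter_upwards [(continuous_fst.tendsto (ε, x, x, x)).eventually_ne ε0,
      (tend (analyticAt_fst.mul (cmp hb p2 rfl)) (q := ε) (by simp [b1])).eventually k2,
      (tend p2 rfl).eventually hb.eventually_analyticAt] with q c1 c2 c3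
    exact hE q c1 c2 c3.differentiableAt

end Fam

open Fam Gauge in
theorem fam (hDD : Spec_DD) (hL : Spec_LAWF) (hA : Spec_AVG) : Spec_FAM := by
  refine ⟨fun α β z w b x α0 β0 αβ hz hw z0 w0 hb b1 b' hI => ?_,
    fun α β z w b x α0 β0 αβ hz hw z0 w0 hb b1 b' hI => ?_⟩
  all_goals
    obtain ⟨a1, a2, a3⟩ := an_ds hDD (an_sc (α := α) hz hb b1)
    obtain ⟨c1, c2, c3⟩ := an_ds hDD (an_sc (α := β) hw hb b1)
    obtain ⟨z1, z2, z3⟩ := der_sc (α := α) (z := z) hb b1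
    obtain ⟨w1, w2, w3⟩ := der_sc (α := β) (z := w) hb b1
    have α1 : (α : ℂ) ≠ 0 := Int.cast_ne_zero.2 α0
    have β1 : (β : ℂ) ≠ 0 := Int.cast_ne_zero.2 β0
    have γ1 : (β : ℂ) - α ≠ 0 := sub_ne_zero.2 fun h => by
      have : β = α := Int.cast_injective h
      omega
  · have aE : AnalyticAt ℂ (famZ α β z w b) (0, x, x, x) :=
      ((c1.mul c2).mul (a3.pow 2)).sub ((a1.mul a2).mul (c3.pow 2))
    have h0 : IsLawF (famZ α β z w b) 0 x := by
      refine ⟨aE, .of_forall fun q => ?_, .of_forall fun q => ?_, ?_⟩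
      · simp only [famZ, lawZ]
        ring
      · simp only [famZ, lawZ, dslope_same]
        ring
      · rw [fd4 aE (by simp only [famZ]; exact ndZ z1 w1), z2, z3, w2, w3]
        refine fun h => (?_ : α ^ 2 * β ^ 2 * deriv b x ^ 5 * z 0 ^ 2 * w 0 ^ 2 *
          ((β : ℂ) - α) ≠ 0) (by linear_combination 2 * h)
        positivity
    refine ⟨h0, core hDD hL hA hb b1 b' h0 hI ((an_pw (α := α) hz).and (an_pw (α := β) hw))
      fun q k1 k2 k3 k4 => ?_⟩
    rw [famZ, sc_eq k1, sc_eq k1, lawZ_comp (B := fun y => q.1 * b y) k2.1.differentiableAt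
      k2.2.differentiableAt (k3.const_mul _), k4, mul_zero]
  · have p : AnalyticAt ℂ (fun q : ℂ × ℂ × ℂ × ℂ => q.1 ^ (2 * (β - α).toNat)) (0, x, x, x) :=
      analyticAt_fst.pow _
    have aE : AnalyticAt ℂ (famG α β z w b) (0, x, x, x) :=
      (((c1.mul a2).add (c2.mul a1)).mul ((a3.pow 2).add (p.mul (c3.pow 2)))).sub
        (((analyticAt_const.mul a3).mul c3).mul ((a1.mul a2).add (p.mul (c1.mul c2))))
    have h0 : IsLawF (famG α β z w b) 0 x := by
      refine ⟨aE, .of_forall fun q => ?_, .of_forall fun q => ?_, ?_⟩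
      · simp only [famG, lawG]
        ring
      · simp only [famG, lawG, dslope_same]
        ring
      · rw [fd4 aE (by simp only [famG]; exact ndG z1 w1 _), z2, z3, w2, w3,
          zero_pow (show 2 * (β - α).toNat ≠ 0 by omega)]
        refine fun h => (?_ : α ^ 3 * β * deriv b x ^ 5 * z 0 ^ 3 * w 0 *
          ((β : ℂ) - α) ≠ 0) (by linear_combination 2 * h)
        positivity
    refine ⟨h0, core hDD hL hA hb b1 b' h0 hI ((an_pw (α := α) hz).and (an_pw (α := β) hw))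
      fun q k1 k2 k3 k4 => ?_⟩
    have k5 := lawG_comp (B := fun y => q.1 * b y) (q := q.2) k2.1.differentiableAt
      k2.2.differentiableAt (k3.const_mul _) (μ := q.1 ^ (2 * (β - α).toNat))
      (c := q.1 ^ (-α)) (d := q.1 ^ (-β)) (by
        rw [← zpow_natCast, ← zpow_natCast, ← zpow_natCast, ← zpow_mul, ← zpow_mul,
          ← zpow_add₀ k1]
        congr 1
        push_cast
        omega)
    rw [k4, mul_zero] at k5
    rw [famG, sc_eq k1, sc_eq k1]
    exact (mul_eq_zero.1 k5).resolve_left two_ne_zero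

end Vale.Agent.P097A
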