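import Vale.Agent.P097A.Spec

/-!
# P097A: the Fatou coordinate of an integrable translation invariant law
-/

noncomputable section

namespace Vale.Agent.P097A

open Filter Topology Set Metric

namespace FatouH

variable {f g : ℂ → ℂ}

theorem dv (hf : AnalyticAt ℂ f 0) : ∃ g, AnalyticAt ℂ g 0 ∧ ∀ z, f z = f 0 + z * g z := by
  obtain ⟨g, h1, h2⟩ := hf.exists_eq_sum_add_pow_mul 1
  exact ⟨g, h1, fun z => by simpa using h2 z⟩

theorem ext0 (hf : AnalyticAt ℂ f 0) (hg : AnalyticAt ℂ g 0) (h : ∀ᶠ v in 𝓝[≠] 0, f v = g v) :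
    ∀ᶠ v in 𝓝 0, f v = g v :=
  (hf.continuousAt.eventuallyEq_nhds_iff_eventuallyEq_nhdsNE hg.continuousAt).1 h

theorem cst (hf : AnalyticAt ℂ f 0) (h : ∀ᶠ v in 𝓝[≠] 0, deriv f v = 0) :
    ∀ᶠ v in 𝓝 0, f v = f 0 := by
  obtain ⟨r, r0, hr⟩ := eventually_nhds_iff_ball.1
    ((ext0 hf.deriv analyticAt_const h).and hf.eventually_analyticAt)
  filter_upwards [ball_mem_nhds 0 r0] with v hv
  exact isOpen_ball.is_const_of_deriv_eq_zero (convex_ball _ _).isPreconnected
    (fun z hz => (hr z hz).2.differentiableAt.differentiableWithinAt) (fun z hz => (hr z hz).1) hv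
    (mem_ball_self r0)

theorem tend (hf : AnalyticAt ℂ f 0) (h0 : f 0 = 0) : Tendsto f (𝓝 0) (𝓝 0) := by
  simpa only [ContinuousAt, h0] using hf.continuousAt

theorem tneg : Tendsto (fun v : ℂ => -v) (𝓝 0) (𝓝 0) := continuous_neg.tendsto' _ _ neg_zero

theorem aneg (hf : AnalyticAt ℂ f 0) : AnalyticAt ℂ (fun v => f (-v)) 0 :=
  hf.comp_of_eq analyticAt_id.neg neg_zero

theorem inv (hf : AnalyticAt ℂ f 0) (h0 : f 0 = 0) (hd : deriv f 0 ≠ 0) :
    ∃ a, AnalyticAt ℂ a 0 ∧ a 0 = 0 ∧ deriv a 0 ≠ 0 ∧ (∀ᶠ y in 𝓝 0, a (f y) = y) ∧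
      ∀ᶠ x in 𝓝 0, f (a x) = x := by
  have h1 := hf.analyticAt_localInverse hd
  have h2 := hf.hasStrictDerivAt.eventually_left_inverse hd
  have h3 := hf.hasStrictDerivAt.eventually_right_inverse hd
  have h4 := (hf.hasStrictDerivAt.to_localInverse hd).hasDerivAt.deriv
  have h5 := h2.self_of_nhds
  rw [h0] at h1 h3 h4 h5
  exact ⟨_, h1, h5, h4.trans_ne (inv_ne_zero hd), h2, h3⟩

theorem d1 (hg : AnalyticAt ℂ g 0) {c : ℂ} (h : ∀ z, f z = c + z * g z) : deriv f 0 = g 0 := by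
  rw [funext h]
  simpa using (((hasDerivAt_id' (0 : ℂ)).fun_mul hg.differentiableAt.hasDerivAt).const_add c).deriv

theorem d2 (hg : AnalyticAt ℂ g 0) {c : ℂ} (h : ∀ z, f z = c + z * g z) :
    deriv (deriv f) 0 = 2 * deriv g 0 := by
  have h1 : deriv f =ᶠ[𝓝 0] fun z => g z + z * deriv g z := by
    filter_upwards [hg.eventually_analyticAt] with z hz
    rw [funext h]
    simpa using (((hasDerivAt_id' z).fun_mul hz.differentiableAt.hasDerivAt).const_add c).deriv
  rw [h1.deriv_eq, (hg.differentiableAt.hasDerivAt.fun_add ((hasDerivAt_id' (0 : ℂ)).fun_mul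
    hg.deriv.differentiableAt.hasDerivAt)).deriv]
  ring

/-- the equation of Abel -/
theorem abel {q e : ℂ → ℂ} (hq : AnalyticAt ℂ q 0) (he : AnalyticAt ℂ e 0)
    (hf : ∀ v, f v = v * q v) (q0 : q 0 = 1) (q1 : deriv q 0 = e 0) (e0 : e 0 ≠ 0)
    (ev : ∀ᶠ v in 𝓝[≠] 0, e (-v) = e v)
    (h : ∀ᶠ v in 𝓝[≠] 0, deriv f v * e v = q v ^ 2 * e (f v)) :
    ∃ X : ℂ → ℂ, AnalyticAt ℂ X 0 ∧ X 0 = 0 ∧ deriv X 0 ≠ 0 ∧ (∀ᶠ v in 𝓝 0, X (-v) = -X v) ∧
      ∀ᶠ v in 𝓝 0, X (f v) = X v / (1 + X v) := by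
  have fa : AnalyticAt ℂ f 0 := funext hf ▸ analyticAt_id.mul hq
  have f0 : f 0 = 0 := by simp [hf]
  have ft := tend fa f0
  obtain ⟨r, ra, hr⟩ := dv (he.fun_inv e0)
  have r0 : r 0 = 0 := by
    have := (ext0 (aneg ra).fun_neg ra (by
      filter_upwards [ev, self_mem_nhdsWithin] with v a1 (a2 : v ≠ 0)
      refine mul_left_cancel₀ a2 ?_
      linear_combination hr v - hr (-v) + congrArg (·⁻¹) a1)).self_of_nhds
    rw [neg_zero] at this
    linear_combination (-1 / 2) * this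
  obtain ⟨k, ka, hk⟩ := dv ra
  have k1 : ∀ z, (e z)⁻¹ = (e 0)⁻¹ + z ^ 2 * k z := fun z => by rw [hr, hk, r0]; ring
  obtain ⟨ρ, ρ0, hρ⟩ := eventually_nhds_iff_ball.1 ka.eventually_analyticAt
  obtain ⟨g, g0, hg⟩ := (DifferentiableOn.isExactOn_ball fun z hz =>
    (hρ z hz).differentiableAt.differentiableWithinAt).with_val_at 0 0
  replace hg : ∀ᶠ z in 𝓝 0, HasDerivAt g (k z) z := mem_of_superset (ball_mem_nhds 0 ρ0) hg
  have ga : AnalyticAt ℂ g 0 :=
    Complex.analyticAt_iff_eventually_differentiableAt.2 (hg.mono fun _ h => h.differentiableAt)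
  have g1 := cst (ga.fun_add (aneg ga)) (by
    filter_upwards [ev, self_mem_nhdsWithin, nhdsWithin_le_nhds hg,
      nhdsWithin_le_nhds (tneg.eventually hg)] with v a1 (a2 : v ≠ 0) a3 a4
    refine (a3.fun_add (a4.comp v (hasDerivAt_neg' v))).deriv.trans
      (mul_left_cancel₀ (pow_ne_zero 2 a2) ?_)
    linear_combination k1 (-v) - k1 v - congrArg (·⁻¹) a1)
  obtain ⟨s, sa, hs⟩ := dv hq
  have s0 : s 0 = e 0 := (d1 sa hs).symm.trans q1
  have qn := hq.continuousAt.eventually_ne (q0.trans_ne one_ne_zero)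
  have en := he.continuousAt.eventually_ne e0
  let T : ℂ → ℂ := fun z => -(e 0)⁻¹ * z⁻¹ + g z
  have hT : ∀ᶠ z in 𝓝 0, z ≠ 0 → HasDerivAt T ((e z)⁻¹ / z ^ 2) z := hg.mono fun z a1 a2 =>
    (((hasDerivAt_inv a2).const_mul _).fun_add a1).congr_deriv (by rw [k1 z]; field_simp)
  have D1 : (fun v => (e 0)⁻¹ * s v / q v + g (f v) - g v) =ᶠ[𝓝[≠] 0] fun v => T (f v) - T v := by
    filter_upwards [self_mem_nhdsWithin, nhdsWithin_le_nhds qn] with v (a1 : v ≠ 0) a2
    have := hs v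
    simp only [T, hf v]
    field_simp
    linear_combination -this - q0
  have D2 := cst ((((analyticAt_const.mul sa).fun_div hq (q0.trans_ne one_ne_zero)).fun_add
    (ga.comp_of_eq fa f0)).fun_sub ga) (D1.nhdsNE_deriv.trans (by
      filter_upwards [h, self_mem_nhdsWithin, nhdsWithin_le_nhds (qn.and (en.and (hT.and
        ((ft.eventually (en.and hT)).and fa.eventually_analyticAt))))]
        with v a1 (a2 : v ≠ 0) ⟨a3, a4, a5, ⟨a6, a7⟩, a8⟩
      refine (((a7 (hf v ▸ mul_ne_zero a2 a3)).comp v a8.differentiableAt.hasDerivAt).fun_sub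
        (a5 a2)).deriv.trans ?_
      nth_rewrite 2 [hf v]
      field_simp
      linear_combination a1))
  have Na : AnalyticAt ℂ (fun v => -(e 0)⁻¹ + v * g v) 0 :=
    analyticAt_const.add (analyticAt_id.mul ga)
  have N0 : -(e 0)⁻¹ + 0 * g 0 ≠ 0 := by simpa using e0
  have Nn := Na.continuousAt.eventually_ne N0
  have Xa := analyticAt_id.mul (Na.fun_inv N0)
  refine ⟨fun v => v * (-(e 0)⁻¹ + v * g v)⁻¹, Xa, zero_mul _, (d1 (Na.fun_inv N0) fun z =>
    (zero_add _).symm).trans_ne (inv_ne_zero N0), g1.mono fun v hv => ?_, ?_⟩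
  · simp [show g (-v) = -g v by simpa [g0, add_eq_zero_iff_eq_neg'] using hv]
  · filter_upwards [D2, eventually_nhdsWithin_iff.1 D1, Nn, ft.eventually Nn, qn,
      (analyticAt_const.add Xa).continuousAt.eventually_ne
        (show (1 : ℂ) + 0 * _ ≠ 0 by simp)] with v a1 a2 a3 a4 a5 a6
    by_cases a7 : v = 0
    · simp [a7, f0]
    have a8 : T (f v) - T v = 1 := (a2 a7).symm.trans (a1.trans (by simp [f0, s0, q0, e0]))
    have a9 : f v ≠ 0 := hf v ▸ mul_ne_zero a7 a5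
    replace a6 : 1 + v * (-(e 0)⁻¹ + v * g v)⁻¹ ≠ 0 := a6
    simp only [T] at a8
    rw [eq_div_iff a6]
    generalize (e 0)⁻¹ = c at *
    field_simp at a8 ⊢
    linear_combination -a8

end FatouH

open FatouH

theorem fatou (hD : Spec_DD) (hL : Spec_LINES) : Spec_FATOU := by
  intro G ϑ Ga G0 G1 G2 ϑa h0 h
  let A : ℂ × ℂ → ℂ := fun p => ϑ (p.1 + p.2, p.2) - ϑ p
  have cmp : ∀ {E : Type} [NormedAddCommGroup E] [NormedSpace ℂ E] {F : ℂ × ℂ → ℂ} {a b : E → ℂ},
      AnalyticAt ℂ F 0 → AnalyticAt ℂ a 0 → AnalyticAt ℂ b 0 → a 0 = 0 → b 0 = 0 →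
      AnalyticAt ℂ (fun p => F (a p, b p)) 0 := fun hF ha hb a0 b0 =>
    hF.comp_of_eq (ha.prod hb) (Prod.ext a0 b0)
  have td : ∀ {E : Type} [NormedAddCommGroup E] {a b : E → ℂ}, ContinuousAt a 0 →
      ContinuousAt b 0 → a 0 = 0 → b 0 = 0 → Tendsto (fun p => (a p, b p)) (𝓝 0) (𝓝 0) :=
    fun ha hb a0 b0 => (show (_, _) = (0 : ℂ × ℂ) from Prod.ext a0 b0) ▸ ha.prodMk hb
  have Aa : AnalyticAt ℂ A 0 :=
    (cmp ϑa (analyticAt_fst.add analyticAt_snd) analyticAt_snd (add_zero _) rfl).sub ϑa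
  let B : ℂ × ℂ → ℂ := fun p => dslope (fun y => A (p.1, y)) 0 p.2
  have Ba : AnalyticAt ℂ B 0 := (hD ℂ A 0 0 Aa).comp_of_eq
    (f := fun p : ℂ × ℂ => (p.1, 0, p.2)) (analyticAt_fst.prod (analyticAt_const.prod analyticAt_snd))
    rfl
  have AB : ∀ p, A p = p.2 * B p := fun p => by
    simpa [A] using (sub_smul_dslope (fun y => A (p.1, y)) 0 p.2).symm
  have A0 : ∀ᶠ v in 𝓝 0, A (0, v) = v := h0.mono fun v hv => by simp [A, hv.1, hv.2]
  have B0 : ∀ᶠ v in 𝓝 0, B (0, v) = 1 := ext0 (cmp Ba analyticAt_const analyticAt_id rfl rfl)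
    analyticAt_const (by
      filter_upwards [self_mem_nhdsWithin, nhdsWithin_le_nhds A0] with v (a1 : v ≠ 0) a2
      exact mul_left_cancel₀ a1 ((AB (0, v)).symm.trans (a2.trans (mul_one v).symm)))
  let f : ℂ → ℂ := fun v => A (v, v)
  let q : ℂ → ℂ := fun v => B (v, v)
  have fq : ∀ v, f v = v * q v := fun v => AB (v, v)
  have fa : AnalyticAt ℂ f 0 := cmp Aa analyticAt_id analyticAt_id rfl rfl
  have qa : AnalyticAt ℂ q 0 := cmp Ba analyticAt_id analyticAt_id rfl rfl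
  have f0 : f 0 = 0 := (fq 0).trans (zero_mul _)
  have ft := tend fa f0
  have At : Tendsto A (𝓝 0) (𝓝 0) := (show A 0 = 0 from f0) ▸ Aa.continuousAt
  have st : Tendsto (fun p : ℂ × ℂ => (p.1 + p.2, p.2)) (𝓝 0) (𝓝 0) :=
    td (by fun_prop) (by fun_prop) (add_zero _) rfl
  have l1 : ∀ᶠ p in 𝓝 (0 : ℂ × ℂ), G (A (p.1 + p.2, p.2)) + G (-A p) = 0 :=
    (st.eventually h).mono fun p hp => by simpa [A] using hp
  have l2 : ∀ᶠ v in 𝓝 0, G (f v) + G (-v) = 0 := by
    filter_upwards [(td continuousAt_const continuousAt_id rfl rfl).eventually l1, A0] with v a1 a2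
    simpa [a2] using a1
  obtain ⟨a, -, -, -, a1, -⟩ := inv Ga G0 G1
  have R1 : ∀ᶠ p in 𝓝 (0 : ℂ × ℂ), A (p.1 + p.2, p.2) = f (A p) := by
    filter_upwards [l1, At.eventually l2, (At.comp st).eventually a1, (ft.comp At).eventually a1]
      with p b1 b2 b3 b4
    exact b3.symm.trans ((congrArg a (add_right_cancel (b1.trans b2.symm))).trans b4)
  have f1 : ∀ᶠ y in 𝓝 0, f (-f y) = -y := by
    filter_upwards [l2, (tneg.comp ft).eventually l2, (ft.comp (tneg.comp ft)).eventually a1,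
      tneg.eventually a1] with y b1 b2 b3 b4
    simp only [Function.comp_apply, neg_neg] at b2 b3
    exact b3.symm.trans ((congrArg a (by linear_combination b2 - b1)).trans b4)
  have ln : ∀ n : ℕ, Tendsto (fun v : ℂ => ((n : ℂ) * v, v)) (𝓝 0) (𝓝 0) := fun n =>
    td (by fun_prop) continuousAt_id (mul_zero _) rfl
  have R2 := hL (fun p => f (A p) - A (p.1 * q p.2, f p.2)) 0 ((fa.comp_of_eq Aa f0).sub
    (cmp Aa (analyticAt_fst.mul (qa.comp_of_eq analyticAt_snd rfl))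
      (fa.comp_of_eq analyticAt_snd rfl) (zero_mul _) f0)) fun n hn => by
    clear hn
    simp only [mul_assoc, ← fq, sub_eq_zero]
    induction n with
    | zero => filter_upwards [A0, ft.eventually A0] with v b1 b2 using by simp [b1, b2]
    | succ n ih =>
      filter_upwards [ih, (ln n).eventually R1, ((ln n).comp ft).eventually R1] with v b1 b2 b3
      simp only [Function.comp_apply] at b3
      rw [Nat.cast_succ, add_one_mul, add_one_mul, b2, b3, b1]
  have R3 := hL (fun p => A (p.1, -p.2) + A p) 0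
    ((cmp Aa analyticAt_fst analyticAt_snd.neg rfl neg_zero).add Aa) fun n hn => by
    clear hn
    induction n with
    | zero => filter_upwards [A0, tneg.eventually A0] with v b1 b2 using by simp [b1, b2]
    | succ n ih =>
      have t1 : Tendsto (fun v : ℂ => (((n + 1 : ℕ) : ℂ) * v, -v)) (𝓝 0) (𝓝 0) :=
        td (by fun_prop) (by fun_prop) (mul_zero _) neg_zero
      filter_upwards [ih, (ln n).eventually R1, t1.eventually R1, (At.comp t1).eventually f1]
        with v b1 b2 b3 b4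
      simp only [Function.comp_apply, Nat.cast_succ, add_one_mul, add_neg_cancel_right] at *
      rw [b2, eq_neg_of_add_eq_zero_right b1, b3, b4, add_neg_cancel]
  let e : ℂ → ℂ := fun v => fderiv ℂ B (0, v) (1, 0)
  have ea : AnalyticAt ℂ e 0 := ((ContinuousLinearMap.apply ℂ ℂ ((1 : ℂ), (0 : ℂ))).analyticAt _).comp
    (Ba.fderiv.comp_of_eq (analyticAt_const.prod analyticAt_id) rfl)
  have he : ∀ᶠ v in 𝓝 0, ∀ s, HasDerivAt (fun η => B (η * s, v)) (s * e v) 0 := by
    filter_upwards [(td continuousAt_const continuousAt_id rfl rfl).eventually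
      Ba.eventually_analyticAt] with v b1 s
    refine (b1.differentiableAt.hasFDerivAt.comp_hasDerivAt_of_eq 0
      (((hasDerivAt_id' (0 : ℂ)).mul_const s).prodMk (hasDerivAt_const 0 v)) (by simp)).congr_deriv ?_
    rw [← smul_eq_mul s, ← map_smul]
    simp
  have he' := he.mono fun v hv => by simpa only [mul_one, one_mul] using hv 1
  have sw : Tendsto (Prod.swap : ℂ × ℂ → ℂ × ℂ) (𝓝 (0, 0)) (𝓝 0) := continuous_swap.tendsto' _ _ rfl
  have q1 : deriv q 0 = e 0 := by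
    have b1 := Ba.differentiableAt.hasFDerivAt
    have b2 := (b1.comp_hasDerivAt_of_eq 0 ((hasDerivAt_const (0 : ℂ) 0).prodMk
      (hasDerivAt_id' (0 : ℂ))) rfl).unique ((hasDerivAt_const 0 1).congr_of_eventuallyEq B0)
    refine (b1.comp_hasDerivAt_of_eq 0 ((hasDerivAt_id' (0 : ℂ)).prodMk (hasDerivAt_id' (0 : ℂ)))
      rfl).deriv.trans ?_
    rw [show ((1 : ℂ), (1 : ℂ)) = (1, 0) + (0, 1) by simp, map_add, b2, add_zero]
    rfl
  have q0 : q 0 = 1 := B0.self_of_nhds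
  obtain ⟨p, pa, hp⟩ := dv Ga
  have e0 : e 0 ≠ 0 := fun k => G2 (by
    have b1 := ext0 (qa.fun_mul (pa.comp_of_eq fa f0)) (aneg pa) (by
      filter_upwards [self_mem_nhdsWithin, nhdsWithin_le_nhds l2] with v (b1 : v ≠ 0) b2
      rw [hp, hp (-v), G0] at b2
      refine mul_left_cancel₀ b1 ?_
      rw [← mul_assoc, ← fq, Function.comp_apply]
      linear_combination b2)
    have b2 := (qa.differentiableAt.hasDerivAt.fun_mul (pa.differentiableAt.hasDerivAt.comp_of_eq 0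
      fa.differentiableAt.hasDerivAt f0.symm)).unique ((pa.differentiableAt.hasDerivAt.comp_of_eq 0
        (hasDerivAt_neg' 0) neg_zero.symm).congr_of_eventuallyEq b1)
    rw [q1, k, q0, d1 qa fun z => (fq z).trans (zero_add _).symm, q0] at b2
    rw [d2 pa hp]
    linear_combination b2)
  obtain ⟨X, Xa, X0, X1, X2, X3⟩ := abel qa ea fq q0 q1 e0 (by
    filter_upwards [self_mem_nhdsWithin, nhdsWithin_le_nhds ((sw.eventually R3).curry_nhds.and
      (he'.and (tneg.eventually he')))] with v (b1 : v ≠ 0) ⟨b2, b3, b4⟩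
    have := ((b4.const_mul (-v)).fun_add (b3.const_mul v)).unique
      ((hasDerivAt_const 0 0).congr_of_eventuallyEq (b2.mono fun η k => by simpa [AB] using k))
    exact mul_left_cancel₀ b1 (by linear_combination -this)) (by
    filter_upwards [self_mem_nhdsWithin, nhdsWithin_le_nhds ((sw.eventually R2).curry_nhds.and
      (he'.and ((ft.eventually he).and (B0.and fa.eventually_analyticAt))))]
      with v (b1 : v ≠ 0) ⟨b2, b3, b4, b5, b6⟩
    have := (b6.differentiableAt.hasDerivAt.comp_of_eq 0 (b3.const_mul v) (by simp [b5])).unique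
      (((b4 (q v)).const_mul (f v)).congr_of_eventuallyEq (b2.mono fun η k => by
        simpa [AB, sub_eq_zero] using k))
    exact mul_left_cancel₀ b1 (by linear_combination this + q v * e (f v) * fq v))
  obtain ⟨b, ba, b0, b1, b2, b3⟩ := inv Xa X0 X1
  have bt := tend ba b0
  refine ⟨b, ba, b0, b1, ?_, ?_⟩
  · filter_upwards [b3, bt.eventually X2, (tneg.comp bt).eventually b2] with x c1 c2 c3
    rwa [Function.comp_apply, c2, c1] at c3
  · filter_upwards [b3, bt.eventually X3, (ft.comp bt).eventually b2, bt.eventually l2]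
      with x c1 c2 c3 c4
    rw [Function.comp_apply, c2, c1] at c3
    rw [c3, c4]

end Vale.Agent.P097A
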