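import Vale.Agent.P097A.Spec

/-!
# P097A: bounds for `GG` at the places which are not excluded (GB)
-/

set_option linter.all false

noncomputable section

namespace Vale.Agent.P097A

open Filter Topology Set Metric

namespace GB

/-- `f = τ ^ n (c + d τ + ...)` -/
def Od (n : ℤ) (c d : ℂ) (f : ℂ → ℂ) : Prop :=
  ∃ g : ℂ → ℂ, AnalyticAt ℂ g 0 ∧ g 0 = c ∧ deriv g 0 = d ∧
    f =ᶠ[𝓝[≠] 0] fun τ => τ ^ n * g τ

variable {n m : ℤ} {c d c' d' : ℂ} {f h : ℂ → ℂ}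

theorem Od.cg (h1 : Od n c d f) (e0 : n = m) (e1 : c = c') (e2 : d = d') : Od m c' d' f :=
  e0 ▸ e1 ▸ e2 ▸ h1

theorem Od.ev (h1 : Od n c d f) (e : h =ᶠ[𝓝[≠] 0] f) : Od n c d h :=
  let ⟨g, a, b, c, k⟩ := h1
  ⟨g, a, b, c, e.trans k⟩

theorem od_pw {z : ℂ → ℂ} (hz : AnalyticAt ℂ z 0) (n : ℤ) : Od n (z 0) (deriv z 0) (pw n z) :=
  ⟨z, hz, rfl, rfl, .rfl⟩

theorem od_const (c : ℂ) : Od 0 c 0 fun _ => c :=
  ⟨fun _ => c, analyticAt_const, rfl, deriv_const _ _, .of_forall fun τ => by simp⟩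

theorem Od.mul (h1 : Od n c d f) (h2 : Od m c' d' h) :
    Od (n + m) (c * c') (d * c' + c * d') fun τ => f τ * h τ := by
  obtain ⟨g, a, rfl, rfl, k⟩ := h1
  obtain ⟨g', a', rfl, rfl, k'⟩ := h2
  refine ⟨fun τ => g τ * g' τ, a.mul a', rfl,
    (a.differentiableAt.hasDerivAt.mul a'.differentiableAt.hasDerivAt).deriv, ?_⟩
  filter_upwards [k, k', self_mem_nhdsWithin] with τ e e' τ0
  rw [e, e', zpow_add₀ τ0]
  ring

theorem Od.div (h1 : Od n c d f) (h2 : Od m c' d' h) (h0 : c' ≠ 0) :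
    Od (n - m) (c / c') ((d * c' - c * d') / c' ^ 2) fun τ => f τ / h τ := by
  obtain ⟨g, a, rfl, rfl, k⟩ := h1
  obtain ⟨g', a', rfl, rfl, k'⟩ := h2
  refine ⟨fun τ => g τ / g' τ, a.div a' h0, rfl,
    (a.differentiableAt.hasDerivAt.div a'.differentiableAt.hasDerivAt h0).deriv, ?_⟩
  filter_upwards [k, k', self_mem_nhdsWithin] with τ e e' τ0
  rw [e, e', zpow_sub₀ τ0, mul_div_mul_comm]

theorem Od.sub (h1 : Od n c d f) (h2 : Od n c' d' h) :
    Od n (c - c') (d - d') fun τ => f τ - h τ := by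
  obtain ⟨g, a, rfl, rfl, k⟩ := h1
  obtain ⟨g', a', rfl, rfl, k'⟩ := h2
  refine ⟨fun τ => g τ - g' τ, a.sub a', rfl,
    (a.differentiableAt.hasDerivAt.sub a'.differentiableAt.hasDerivAt).deriv, ?_⟩
  filter_upwards [k, k'] with τ e e'
  rw [e, e', mul_sub]

theorem Od.add (h1 : Od n c d f) (h2 : Od n c' d' h) :
    Od n (c + c') (d + d') fun τ => f τ + h τ := by
  obtain ⟨g, a, rfl, rfl, k⟩ := h1
  obtain ⟨g', a', rfl, rfl, k'⟩ := h2
  refine ⟨fun τ => g τ + g' τ, a.add a', rfl,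
    (a.differentiableAt.hasDerivAt.add a'.differentiableAt.hasDerivAt).deriv, ?_⟩
  filter_upwards [k, k'] with τ e e'
  rw [e, e', mul_add]

theorem Od.sq (h1 : Od n c d f) : Od (2 * n) (c ^ 2) (2 * c * d) fun τ => f τ ^ 2 :=
  ((h1.mul h1).cg (by ring) (by ring) (by ring)).ev (.of_forall fun τ => pow_two _)

theorem Od.cube (h1 : Od n c d f) : Od (3 * n) (c ^ 3) (3 * c ^ 2 * d) fun τ => f τ ^ 3 :=
  ((h1.sq.mul h1).cg (by ring) (by ring) (by ring)).ev (.of_forall fun τ => pow_succ _ 2)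

theorem Od.der (h1 : Od n c d f) : Od (n - 1) (n * c) ((n + 1) * d) (deriv f) := by
  obtain ⟨g, a, rfl, rfl, k⟩ := h1
  refine ⟨fun τ => n * g τ + τ * deriv g τ, (analyticAt_const.mul a).add
    (analyticAt_id.mul a.deriv), by simp, ?_, k.nhdsNE_deriv.trans ?_⟩
  · refine ((a.differentiableAt.hasDerivAt.const_mul (n : ℂ)).add ((hasDerivAt_id (0 : ℂ)).mul
      a.deriv.differentiableAt.hasDerivAt)).deriv.trans ?_
    simp only [id]
    ring
  · filter_upwards [self_mem_nhdsWithin, mem_nhdsWithin_of_mem_nhds a.eventually_analyticAt]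
      with τ τ0 e
    refine ((hasDerivAt_zpow n τ (.inl τ0)).mul e.differentiableAt.hasDerivAt).deriv.trans ?_
    rw [show τ ^ n = τ ^ (n - 1) * τ by rw [zpow_sub_one₀ τ0, inv_mul_cancel_right₀ τ0]]
    ring

theorem Od.up (h1 : Od n 0 d f) : ∃ e, Od (n + 1) d e f := by
  obtain ⟨g, ⟨p, a⟩, g0, rfl, k⟩ := h1
  refine ⟨_, dslope g 0, a.has_fpower_series_dslope_fslope.analyticAt, dslope_same _ _, rfl,
    k.trans ?_⟩
  filter_upwards [self_mem_nhdsWithin] with τ τ0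
  have := sub_smul_dslope g 0 τ
  rw [g0, sub_zero, sub_zero, smul_eq_mul] at this
  rw [zpow_add_one₀ τ0, mul_assoc, this]

theorem Od.up2 (h1 : Od n 0 0 f) : ∃ c e, Od (n + 2) c e f := by
  obtain ⟨e, h2⟩ := h1.up
  obtain ⟨e', h3⟩ := h2.up
  exact ⟨_, _, h3.cg (by ring) rfl rfl⟩

theorem Od.down (h1 : Od n c d f) : Od (n - 1) 0 c f := by
  obtain ⟨g, a, rfl, rfl, k⟩ := h1
  refine ⟨fun τ => τ * g τ, analyticAt_id.mul a, zero_mul _, ?_, k.trans ?_⟩
  · exact ((hasDerivAt_id (0 : ℂ)).mul a.differentiableAt.hasDerivAt).deriv.trans (by simp)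
  · filter_upwards [self_mem_nhdsWithin] with τ τ0
    rw [zpow_sub_one₀ τ0, mul_assoc, inv_mul_cancel_left₀ τ0]

theorem Od.low (h1 : Od n c d f) (hm : m < n) : ∃ e, Od m 0 e f ∧ (m + 1 < n → e = 0) := by
  obtain ⟨k, rfl⟩ : ∃ k : ℕ, n = m + 1 + k := ⟨(n - m - 1).toNat, by omega⟩
  clear hm
  induction k generalizing c d with
  | zero => exact ⟨c, h1.down.cg (by simp) rfl rfl, fun h => by simp at h⟩
  | succ k ih =>
    obtain ⟨e, h2, h3⟩ := ih (h1.down.cg (by push_cast; ring) rfl rfl)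
    cases k with
    | zero => exact ⟨0, h1.down.down.cg (by push_cast; ring) rfl rfl, fun _ => rfl⟩
    | succ k => exact ⟨e, h2, fun _ => h3 (by omega)⟩

theorem Od.bdd (h1 : Od n c d f) (hn : 0 ≤ n) : Bdd0 f := by
  obtain ⟨g, a, -, -, k⟩ := h1
  lift n to ℕ using hn
  have : ContinuousAt (fun τ : ℂ => ‖τ ^ n * g τ‖) 0 :=
    ((continuousAt_id.pow n).mul a.continuousAt).norm
  refine ⟨‖(0 : ℂ) ^ n * g 0‖ + 1, ?_⟩
  filter_upwards [k, mem_nhdsWithin_of_mem_nhds (this.eventually_lt_const (lt_add_one _))]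
    with τ e e'
  rw [e, zpow_natCast]
  exact e'.le

variable {Z W : ℂ → ℂ} {p q : ℤ} {o o' k k' : ℂ}

theorem od_ell (ho : Od p o o' (om Z W)) (hk : Od q k k' (KK Z W)) (o0 : o ≠ 0) (k0 : k ≠ 0) :
    ∃ l', Od (-1 - p) (q / (3 * o)) l' (ell Z W) ∧ (o' = 0 → k' = 0 → l' = 0) :=
  ⟨_, (hk.der.div (((od_const 3).mul hk).mul ho) (by simp [o0, k0])).cg (by ring)
    (by field_simp) rfl, fun h1 h2 => by simp [h1, h2]⟩

/-- `om` is of order `-1` -/
theorem gg_e (ho : Od (-1) o o' (om Z W)) (hk : Od q k k' (KK Z W)) (o0 : o ≠ 0) (k0 : k ≠ 0)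
    (h : 0 ≤ q ∨ (q = -3 ∧ o = -1)) : Bdd0 (GG Z W) := by
  obtain ⟨l', hl, -⟩ := od_ell ho hk o0 k0
  have h1 := ((od_const 1).sub ((hl.der.div ho o0).cg (by ring) rfl rfl)).sub
    (hl.sq.cg (by ring) rfl rfl)
  rcases h with h | ⟨rfl, rfl⟩
  · exact (hk.mul h1.cube).bdd (by omega)
  · obtain ⟨e, h2⟩ := (h1.cg rfl (by norm_num) rfl).up
    exact (hk.mul h2.cube).bdd (by omega)

/-- `om` is of order `p ≥ 0` -/
theorem gg_g (ho : Od p o o' (om Z W)) (hk : Od q k k' (KK Z W)) (o0 : o ≠ 0) (k0 : k ≠ 0)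
    (hp : 0 ≤ p) (h : 6 + 6 * p ≤ q ∨ (p = 0 ∧ q = 0) ∨ (p = 1 ∧ q = 6 ∧ o' = 0 ∧ k' = 0)) :
    Bdd0 (GG Z W) := by
  obtain ⟨l', hl, hl'⟩ := od_ell ho hk o0 k0
  obtain ⟨e, h0, he⟩ := (od_const 1).low (m := -2 - 2 * p) (by omega)
  have h1 := (h0.sub ((hl.der.div ho o0).cg (by ring) rfl rfl)).sub (hl.sq.cg (by ring) rfl rfl)
  rcases h with h | ⟨rfl, rfl⟩ | ⟨rfl, rfl, rfl, rfl⟩
  · exact (hk.mul h1.cube).bdd (by omega)
  · obtain ⟨e, h2⟩ := (hl.cg rfl (by simp) rfl).up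
    obtain ⟨e', h3⟩ := (h2.der.cg rfl (by simp) rfl).up
    exact (hk.mul (((od_const 1).sub ((h3.div ho o0).cg (by ring) rfl rfl)).sub
      (h2.sq.cg (by ring) rfl rfl)).cube).bdd (by omega)
  · obtain ⟨c, e', h2⟩ := (h1.cg rfl (by field_simp; push_cast; ring)
      (by simp [he (by omega), hl' rfl rfl])).up2
    exact (hk.mul h2.cube).bdd (by omega)

end GB

open GB in
theorem gb : Spec_GB := by
  refine ⟨fun α β z w α0 β0 αβ hz hw z0 w0 h => ?_, fun α β u v α0 β0 αβ hz hw z0 w0 h => ?_⟩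
  all_goals
    have α1 : (α : ℂ) ≠ 0 := Int.cast_ne_zero.2 α0
    have β1 : (β : ℂ) ≠ 0 := Int.cast_ne_zero.2 β0
    have γ1 : (α : ℂ) - β ≠ 0 := sub_ne_zero.2 fun h => by
      have : α = β := Int.cast_injective h
      omega
    have a1 := (od_pw hz α).der
    have b1 := (od_pw hw β).der
  · have ho : Od (-1) (α - β) _ (om (pw α z) (pw β w)) :=
      (((a1.der.div a1 (by positivity)).cg (by ring) rfl rfl).sub
        ((b1.der.div b1 (by positivity)).cg (by ring) rfl rfl)).cg rfl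
        (by field_simp; push_cast; ring) rfl
    have hk : Od _ _ _ (KK (pw α z) (pw β w)) := ho.sq.div (a1.mul b1) (by positivity)
    refine gg_e ho hk γ1 (by positivity) (h.imp (by omega) ?_)
    rintro ⟨rfl, rfl⟩
    norm_num
  · have an : ∀ᶠ τ in 𝓝[≠] (0 : ℂ), AnalyticAt ℂ (pw α u) τ ∧ AnalyticAt ℂ (pw β v) τ := by
      filter_upwards [self_mem_nhdsWithin, mem_nhdsWithin_of_mem_nhds hz.eventually_analyticAt,
        mem_nhdsWithin_of_mem_nhds hw.eventually_analyticAt] with τ h1 h2 h3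
      exact ⟨(analyticAt_id.zpow h1).mul h2, (analyticAt_id.zpow h1).mul h3⟩
    have e1 : deriv (pw α u - pw β v) =ᶠ[𝓝[≠] 0] fun τ => deriv (pw α u) τ - deriv (pw β v) τ :=
      an.mono fun τ h => deriv_sub h.1.differentiableAt h.2.differentiableAt
    have e2 : deriv (pw α u + pw β v) =ᶠ[𝓝[≠] 0] fun τ => deriv (pw α u) τ + deriv (pw β v) τ :=
      an.mono fun τ h => deriv_add h.1.differentiableAt h.2.differentiableAt
    obtain ⟨e, b2, he⟩ := b1.low (m := α - 1) (by omega)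
    have z1 := (a1.sub b2).ev e1
    have w1 := (a1.add b2).ev e2
    have zw := z1.mul w1
    have n1 : (α * u 0 - 0) * (α * u 0 + 0) ≠ 0 := by
      rw [sub_zero, add_zero]
      positivity
    have nz : ∀ᶠ τ in 𝓝[≠] (0 : ℂ), deriv (pw α u - pw β v) τ * deriv (pw α u + pw β v) τ ≠ 0 := by
      obtain ⟨g, g1, g2, -, g3⟩ := zw
      filter_upwards [g3, self_mem_nhdsWithin,
        mem_nhdsWithin_of_mem_nhds (g1.continuousAt.eventually_ne (g2 ▸ n1))] with τ k1 k2 k3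
      rw [k1]
      exact mul_ne_zero (zpow_ne_zero _ k2) k3
    have ho : Od (β - α - 1) (2 * β * v 0 * (α - β) / (α * u 0)) _
        (om (pw α u - pw β v) (pw α u + pw β v)) :=
      ((((od_const 2).mul ((a1.der.mul b1).sub ((b1.der.mul a1).cg (by ring) rfl rfl))).div zw
        n1).cg (by ring) (by field_simp; push_cast; ring) rfl).ev (by
        filter_upwards [e1, e2, e1.nhdsNE_deriv, e2.nhdsNE_deriv, an, nz] with τ k1 k2 k3 k4 k5 k6
        have k7 := left_ne_zero_of_mul k6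
        have k8 := right_ne_zero_of_mul k6
        rw [om, k3, k4, deriv_fun_sub k5.1.deriv.differentiableAt k5.2.deriv.differentiableAt,
          deriv_fun_add k5.1.deriv.differentiableAt k5.2.deriv.differentiableAt,
          div_sub_div _ _ k7 k8, k1, k2]
        ring)
    have hk : Od _ _ _ (KK (pw α u - pw β v) (pw α u + pw β v)) := ho.sq.div zw n1
    have o0 : 2 * β * v 0 * (α - β) / (α * u 0) ≠ 0 := by simp [α1, β1, γ1, z0, w0]
    refine gg_g ho hk o0 (div_ne_zero (pow_ne_zero _ o0) n1) (by omega)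
      (h.imp (by omega) (Or.imp (by omega) ?_))
    rintro ⟨rfl, rfl, hv⟩
    obtain rfl : v = fun _ => 1 := funext hv
    simp [he (by omega)]

end Vale.Agent.P097A
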