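import Vale.Agent.P097A.Law

/-!
# P097A: basic properties of `GG` (step GG) and the normal form of a place (step NF)
-/

set_option linter.all false

noncomputable section

namespace Vale.Agent.P097A

open Filter Topology Set Metric

namespace GFun

theorem an_om {Z W : ℂ → ℂ} {x : ℂ} (h : Reg Z W x) : AnalyticAt ℂ (om Z W) x :=
  (h.anZ.deriv.deriv.div h.anZ.deriv h.dZ).sub (h.anW.deriv.deriv.div h.anW.deriv h.dW)

theorem om_ne {Z W : ℂ → ℂ} {x : ℂ} (h : Reg Z W x) : om Z W x ≠ 0 := by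
  intro e
  apply h.curv
  have h1 := h.dZ
  have h2 := h.dW
  simp only [om] at e
  field_simp at e
  linear_combination -e

theorem an_KK {Z W : ℂ → ℂ} {x : ℂ} (h : Reg Z W x) : AnalyticAt ℂ (KK Z W) x :=
  ((an_om h).pow 2).div (h.anZ.deriv.mul h.anW.deriv) (mul_ne_zero h.dZ h.dW)

theorem KK_ne {Z W : ℂ → ℂ} {x : ℂ} (h : Reg Z W x) : KK Z W x ≠ 0 :=
  div_ne_zero (pow_ne_zero 2 (om_ne h)) (mul_ne_zero h.dZ h.dW)

theorem an_ell {Z W : ℂ → ℂ} {x : ℂ} (h : Reg Z W x) : AnalyticAt ℂ (ell Z W) x :=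
  (an_KK h).deriv.div ((analyticAt_const.mul (an_KK h)).mul (an_om h))
    (mul_ne_zero (mul_ne_zero three_ne_zero (KK_ne h)) (om_ne h))

theorem an_GG {Z W : ℂ → ℂ} {x : ℂ} (h : Reg Z W x) : AnalyticAt ℂ (GG Z W) x :=
  (an_KK h).mul (((analyticAt_const.sub ((an_ell h).deriv.div (an_om h) (om_ne h))).sub
    ((an_ell h).pow 2)).pow 3)

theorem om_congr {Z W Z' W' : ℂ → ℂ} {x : ℂ} (hZ : Z =ᶠ[𝓝 x] Z') (hW : W =ᶠ[𝓝 x] W') :
    om Z W =ᶠ[𝓝 x] om Z' W' := by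
  filter_upwards [hZ.deriv, hW.deriv, hZ.deriv.deriv, hW.deriv.deriv] with y a b c d
  simp only [om, a, b, c, d]

theorem KK_congr {Z W Z' W' : ℂ → ℂ} {x : ℂ} (hZ : Z =ᶠ[𝓝 x] Z') (hW : W =ᶠ[𝓝 x] W') :
    KK Z W =ᶠ[𝓝 x] KK Z' W' := by
  filter_upwards [hZ.deriv, hW.deriv, om_congr hZ hW] with y a b c
  simp only [KK, a, b, c]

theorem ell_congr {Z W Z' W' : ℂ → ℂ} {x : ℂ} (hZ : Z =ᶠ[𝓝 x] Z') (hW : W =ᶠ[𝓝 x] W') :
    ell Z W =ᶠ[𝓝 x] ell Z' W' := by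
  filter_upwards [(KK_congr hZ hW).deriv, KK_congr hZ hW, om_congr hZ hW] with y a b c
  simp only [ell, a, b, c]

theorem GG_congr {Z W Z' W' : ℂ → ℂ} {x : ℂ} (hZ : Z =ᶠ[𝓝 x] Z') (hW : W =ᶠ[𝓝 x] W') :
    GG Z W =ᶠ[𝓝 x] GG Z' W' := by
  filter_upwards [(ell_congr hZ hW).deriv, ell_congr hZ hW, KK_congr hZ hW, om_congr hZ hW]
    with y a b c d
  simp only [GG, a, b, c, d]

theorem om_aff (Z W : ℂ → ℂ) {a c : ℂ} (b d : ℂ) (ha : a ≠ 0) (hc : c ≠ 0) :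
    om (fun τ => a * Z τ + b) (fun τ => c * W τ + d) = om Z W := by
  funext τ
  simp only [om]
  rw [Law.deriv2_aff, Law.deriv2_aff, Law.deriv_aff, Law.deriv_aff]
  simp only [mul_div_mul_left _ _ ha, mul_div_mul_left _ _ hc]

theorem KK_aff (Z W : ℂ → ℂ) {a c : ℂ} (b d : ℂ) (ha : a ≠ 0) (hc : c ≠ 0) :
    KK (fun τ => a * Z τ + b) (fun τ => c * W τ + d) = fun τ => (a * c)⁻¹ * KK Z W τ := by
  funext τ
  simp only [KK]
  rw [om_aff Z W b d ha hc, Law.deriv_aff, Law.deriv_aff]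
  simp only [div_eq_mul_inv, mul_inv]
  ring

theorem ell_aff (Z W : ℂ → ℂ) {a c : ℂ} (b d : ℂ) (ha : a ≠ 0) (hc : c ≠ 0) :
    ell (fun τ => a * Z τ + b) (fun τ => c * W τ + d) = ell Z W := by
  funext τ
  simp only [ell]
  rw [om_aff Z W b d ha hc, KK_aff Z W b d ha hc, deriv_const_mul_field]
  have h : (a * c)⁻¹ ≠ 0 := inv_ne_zero (mul_ne_zero ha hc)
  rw [show 3 * ((a * c)⁻¹ * KK Z W τ) * om Z W τ = (a * c)⁻¹ * (3 * KK Z W τ * om Z W τ) by ring,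
    mul_div_mul_left _ _ h]

theorem GG_aff (Z W : ℂ → ℂ) {a c : ℂ} (b d x : ℂ) (ha : a ≠ 0) (hc : c ≠ 0) :
    GG (fun τ => a * Z τ + b) (fun τ => c * W τ + d) x = (a * c)⁻¹ * GG Z W x := by
  simp only [GG]
  rw [om_aff Z W b d ha hc, KK_aff Z W b d ha hc, ell_aff Z W b d ha hc]
  ring

theorem om_swap (Z W : ℂ → ℂ) : om W Z = fun τ => -om Z W τ := by
  funext τ; simp only [om]; ring

theorem KK_swap (Z W : ℂ → ℂ) : KK W Z = KK Z W := by
  funext τ; simp only [KK]; rw [om_swap Z W]; ring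

theorem ell_swap (Z W : ℂ → ℂ) : ell W Z = fun τ => -ell Z W τ := by
  funext τ; simp only [ell]; rw [om_swap Z W, KK_swap Z W]; ring

theorem GG_swap (Z W : ℂ → ℂ) (x : ℂ) : GG W Z x = GG Z W x := by
  simp only [GG]
  rw [om_swap Z W, KK_swap Z W, ell_swap Z W, deriv.fun_neg]
  ring

theorem ev_reg {Z W B : ℂ → ℂ} {x : ℂ} (hB : AnalyticAt ℂ B x) (hB' : deriv B x ≠ 0)
    (h : Reg Z W (B x)) : ∀ᶠ y in 𝓝 x, AnalyticAt ℂ B y ∧ deriv B y ≠ 0 ∧ Reg Z W (B y) :=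
  hB.eventually_analyticAt.and ((hB.deriv.continuousAt.eventually_ne hB').and
    (hB.continuousAt.eventually (Law.reg_eventually h)))

theorem om_comp {Z W B : ℂ → ℂ} {x : ℂ} (hB : AnalyticAt ℂ B x) (hB' : deriv B x ≠ 0)
    (h : Reg Z W (B x)) : om (Z ∘ B) (W ∘ B) x = deriv B x * om Z W (B x) := by
  simp only [om]
  rw [Law.deriv2_comp hB h.anZ, Law.deriv2_comp hB h.anW,
    deriv_comp x h.anZ.differentiableAt hB.differentiableAt,
    deriv_comp x h.anW.differentiableAt hB.differentiableAt]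
  have h1 := h.dZ
  have h2 := h.dW
  field_simp
  ring

theorem KK_comp {Z W B : ℂ → ℂ} {x : ℂ} (hB : AnalyticAt ℂ B x) (hB' : deriv B x ≠ 0)
    (h : Reg Z W (B x)) : KK (Z ∘ B) (W ∘ B) x = KK Z W (B x) := by
  simp only [KK]
  rw [om_comp hB hB' h, deriv_comp x h.anZ.differentiableAt hB.differentiableAt,
    deriv_comp x h.anW.differentiableAt hB.differentiableAt]
  have h1 := h.dZ
  have h2 := h.dW
  field_simp

theorem ell_comp {Z W B : ℂ → ℂ} {x : ℂ} (hB : AnalyticAt ℂ B x) (hB' : deriv B x ≠ 0)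
    (h : Reg Z W (B x)) : ell (Z ∘ B) (W ∘ B) x = ell Z W (B x) := by
  have e : KK (Z ∘ B) (W ∘ B) =ᶠ[𝓝 x] KK Z W ∘ B := by
    filter_upwards [ev_reg hB hB' h] with y hy
    exact KK_comp hy.1 hy.2.1 hy.2.2
  simp only [ell]
  rw [e.deriv_eq, deriv_comp x (an_KK h).differentiableAt hB.differentiableAt,
    KK_comp hB hB' h, om_comp hB hB' h]
  have h1 := KK_ne h
  have h2 := om_ne h
  field_simp

theorem GG_comp {Z W B : ℂ → ℂ} {x : ℂ} (hB : AnalyticAt ℂ B x) (hB' : deriv B x ≠ 0)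
    (h : Reg Z W (B x)) : GG (Z ∘ B) (W ∘ B) x = GG Z W (B x) := by
  have e : ell (Z ∘ B) (W ∘ B) =ᶠ[𝓝 x] ell Z W ∘ B := by
    filter_upwards [ev_reg hB hB' h] with y hy
    exact ell_comp hy.1 hy.2.1 hy.2.2
  simp only [GG]
  rw [e.deriv_eq, deriv_comp x (an_ell h).differentiableAt hB.differentiableAt,
    KK_comp hB hB' h, om_comp hB hB' h, ell_comp hB hB' h, mul_comm (deriv B x),
    mul_div_mul_right _ _ hB']

/-! ## normal forms -/

theorem evp {p : ℂ → Prop} (h : ∀ᶠ τ in 𝓝[≠] (0 : ℂ), p τ) :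
    ∀ᶠ τ in 𝓝[≠] (0 : ℂ), ∀ᶠ y in 𝓝 τ, p y := by
  filter_upwards [eventually_eventually_nhdsWithin.mpr h, self_mem_nhdsWithin] with τ h1 h2
  rwa [nhdsWithin_eq_nhds.mpr (isOpen_compl_singleton.mem_nhds h2)] at h1

/-- normal form of a non-constant function `τ ^ γ r τ` -/
theorem normal (γ : ℤ) (r : ℂ → ℂ) (hr : AnalyticAt ℂ r 0)
    (hne : ∀ e : ℂ, ¬ ∀ᶠ τ in 𝓝[≠] (0 : ℂ), pw γ r τ = e) :
    ∃ (β : ℤ) (v : ℂ → ℂ) (e : ℂ), β ≠ 0 ∧ γ ≤ β ∧ AnalyticAt ℂ v 0 ∧ v 0 ≠ 0 ∧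
      ∀ᶠ τ in 𝓝[≠] (0 : ℂ), pw β v τ = pw γ r τ + e := by
  have h1 : ¬ ∀ᶠ τ in 𝓝 (0 : ℂ), r τ = 0 := by
    intro h
    apply hne 0
    filter_upwards [nhdsWithin_le_nhds h] with τ hτ
    simp only [pw]
    rw [show r τ = 0 from hτ, mul_zero]
  obtain ⟨k, r₁, han, h0, hev⟩ := hr.exists_eventuallyEq_pow_smul_nonzero_iff.mpr h1
  have key : ∀ᶠ τ in 𝓝[≠] (0 : ℂ), pw (γ + k) r₁ τ = pw γ r τ := by
    filter_upwards [nhdsWithin_le_nhds hev, self_mem_nhdsWithin] with τ hτ hτ0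
    have hτ' : r τ = (τ - 0) ^ k • r₁ τ := hτ
    simp only [pw]
    rw [hτ', zpow_add₀ hτ0, zpow_natCast, sub_zero, smul_eq_mul, mul_assoc]
  by_cases hk : γ + k = 0
  · have han2 : AnalyticAt ℂ (fun τ => r₁ τ - r₁ 0) 0 := han.sub analyticAt_const
    have h2 : ¬ ∀ᶠ τ in 𝓝 (0 : ℂ), r₁ τ - r₁ 0 = 0 := by
      intro h
      apply hne (r₁ 0)
      filter_upwards [nhdsWithin_le_nhds h, key] with τ hτ h3
      rw [← h3, hk]
      simp only [pw, zpow_zero, one_mul]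
      exact sub_eq_zero.mp hτ
    obtain ⟨m, r₂, han', h0', hev'⟩ := han2.exists_eventuallyEq_pow_smul_nonzero_iff.mpr h2
    have hm : m ≠ 0 := by
      rintro rfl
      have := hev'.self_of_nhds
      simp at this
      exact h0' this.symm
    refine ⟨m, r₂, -r₁ 0, by exact_mod_cast hm, by omega, han', h0', ?_⟩
    filter_upwards [nhdsWithin_le_nhds hev', key] with τ hτ h3
    have hτ' : r₁ τ - r₁ 0 = (τ - 0) ^ m • r₂ τ := hτ
    rw [← h3, hk]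
    simp only [pw, zpow_zero, one_mul, zpow_natCast]
    rw [sub_zero, smul_eq_mul] at hτ'
    rw [← hτ']; ring
  · refine ⟨γ + k, r₁, 0, hk, by omega, han, h0, ?_⟩
    filter_upwards [key] with τ hτ
    rw [hτ, add_zero]

theorem normal_mer (f : ℂ → ℂ) (hf : MeromorphicAt f 0)
    (hd : ∀ᶠ τ in 𝓝[≠] (0 : ℂ), deriv f τ ≠ 0) :
    ∃ (β : ℤ) (v : ℂ → ℂ) (e : ℂ), β ≠ 0 ∧ AnalyticAt ℂ v 0 ∧ v 0 ≠ 0 ∧
      ∀ᶠ τ in 𝓝[≠] (0 : ℂ), pw β v τ = f τ + e := by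
  obtain ⟨γ, r, hr, hev⟩ := MeromorphicAt.iff_eventuallyEq_zpow_smul_analyticAt.mp hf
  have hev' : ∀ᶠ τ in 𝓝[≠] (0 : ℂ), pw γ r τ = f τ := by
    filter_upwards [hev] with τ hτ
    rw [hτ, sub_zero, smul_eq_mul, pw]
  obtain ⟨β, v, e, h1, -, h3, h4, h5⟩ := normal γ r hr (by
    intro e he
    have h6 : ∀ᶠ τ in 𝓝[≠] (0 : ℂ), f τ = e := by
      filter_upwards [he, hev'] with τ a b
      rw [← b, a]
    obtain ⟨τ, h7, h8⟩ := ((evp h6).and hd).exists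
    apply h8
    have h9 : f =ᶠ[𝓝 τ] fun _ => e := h7
    rw [h9.deriv_eq, deriv_const])
  refine ⟨β, v, e, h1, h3, h4, ?_⟩
  filter_upwards [h5, hev'] with τ a b
  rw [a, b]

end GFun

theorem gg : Spec_GG :=
  ⟨fun _ _ _ h => GFun.an_GG h, fun _ _ _ _ _ hZ hW => GFun.GG_congr hZ hW,
    fun Z W x _ b _ d ha hc _ => GFun.GG_aff Z W b d x ha hc,
    fun Z W x _ => GFun.GG_swap Z W x,
    fun _ _ _ _ hB hB' h => GFun.GG_comp hB hB' h⟩

theorem nf : Spec_NF := by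
  intro Z W hZ hW hreg
  obtain ⟨α, z, b, hα, hz, hz0, ez⟩ := GFun.normal_mer Z hZ (hreg.mono fun _ h => h.dZ)
  obtain ⟨β, w, d, hβ, hw, hw0, ew⟩ := GFun.normal_mer W hW (hreg.mono fun _ h => h.dW)
  by_cases hab : α = β
  · subst hab
    right
    set c : ℂ := z 0 / w 0 with hc
    have hc0 : c ≠ 0 := div_ne_zero hz0 hw0
    have hcw : c * w 0 = z 0 := by rw [hc]; field_simp
    set r : ℂ → ℂ := fun τ => (c * w τ - z τ) / 2 with hr
    have hran : AnalyticAt ℂ r 0 :=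
      ((analyticAt_const.mul hw).sub hz).div analyticAt_const two_ne_zero
    have hr0 : r 0 = 0 := by simp only [hr, hcw, sub_self, zero_div]
    have e1 : ∀ᶠ τ in 𝓝[≠] (0 : ℂ), pw (α + 1) (dslope r 0) τ = pw α r τ := by
      filter_upwards [self_mem_nhdsWithin] with τ hτ
      have := sub_smul_dslope r 0 τ
      rw [hr0, sub_zero, sub_zero, smul_eq_mul] at this
      simp only [pw]
      rw [zpow_add₀ hτ, zpow_one, mul_assoc, this]
    have e2 : ∀ᶠ τ in 𝓝[≠] (0 : ℂ), pw α r τ = (c * (W τ + d) - (Z τ + b)) / 2 := by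
      filter_upwards [ez, ew] with τ h1 h2
      rw [← h1, ← h2]
      simp only [pw, hr]; ring
    obtain ⟨β, v, e, h1, h2, h3, h4, h5⟩ := GFun.normal (α + 1) (dslope r 0) (Law.an_dslope hran) (by
      intro e he
      have h6 : ∀ᶠ τ in 𝓝[≠] (0 : ℂ), Z τ = c * W τ + (c * d - b - 2 * e) := by
        filter_upwards [he, e1, e2] with τ a1 a2 a3
        rw [a2, a3] at a1
        linear_combination (-2) * a1
      obtain ⟨τ, h7, h8⟩ := ((GFun.evp h6).and hreg).exists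
      have h9 : Z =ᶠ[𝓝 τ] fun y => c * W y + (c * d - b - 2 * e) := h7
      apply h8.curv
      rw [h9.deriv.deriv_eq, h9.deriv_eq, Law.deriv2_aff, Law.deriv_aff]
      ring)
    refine ⟨α, β, fun τ => (z τ + c * w τ) / 2, v, b - e, c, c * d + e, hα, h1, by omega,
      (hz.add (analyticAt_const.mul hw)).div analyticAt_const two_ne_zero, h3, ?_, h4, hc0, ?_⟩
    · simp only [hcw]
      rw [show (z 0 + z 0) / 2 = z 0 by ring]
      exact hz0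
    · filter_upwards [h5, e1, e2, ez, ew] with τ a1 a2 a3 a4 a5
      rw [a1, a2, a3]
      have a6 : pw α (fun τ => (z τ + c * w τ) / 2) τ = (Z τ + b + c * (W τ + d)) / 2 := by
        rw [← a4, ← a5]; simp only [pw]; ring
      rw [a6]
      constructor <;> ring
  · left
    exact ⟨α, β, z, w, b, d, hα, hβ, hab, hz, hw, hz0, hw0, ez.and ew⟩

end Vale.Agent.P097A
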