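import Vale.Agent.P097A.Spec

/-!
# P097A: gauge fixing (GAUGE)
-/

set_option linter.all false

noncomputable section

namespace Vale.Agent.P097A

open Filter Topology Set Metric

namespace Gauge

theorem hd2 {F : ℂ × ℂ → ℂ} {a b : ℂ} (hF : DifferentiableAt ℂ F (a, b)) :
    HasDerivAt (fun y => F (a, y)) (fderiv ℂ F (a, b) (0, 1)) b :=
  hF.hasFDerivAt.comp_hasDerivAt b ((hasDerivAt_const b a).prodMk (hasDerivAt_id b))

theorem hd1 {F : ℂ × ℂ → ℂ} {a b : ℂ} (hF : DifferentiableAt ℂ F (a, b)) :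
    HasDerivAt (fun y => F (y, b)) (fderiv ℂ F (a, b) (1, 0)) a :=
  hF.hasFDerivAt.comp_hasDerivAt a ((hasDerivAt_id a).prodMk (hasDerivAt_const a b))

/-- inversion in the second variable -/
theorem inv2 {F : ℂ × ℂ → ℂ} {a b : ℂ} (hF : AnalyticAt ℂ F (a, b))
    (h : deriv (fun y => F (a, y)) b ≠ 0) :
    ∃ C : ℂ × ℂ → ℂ, AnalyticAt ℂ C (a, F (a, b)) ∧ C (a, F (a, b)) = b ∧
      (∀ᶠ q in 𝓝 (a, F (a, b)), F (q.1, C q) = q.2) ∧ ∀ᶠ q in 𝓝 (a, b), C (q.1, F q) = q.2 := by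
  rw [(hd2 hF.differentiableAt).deriv] at h
  let L : ℂ × ℂ →L[ℂ] ℂ × ℂ := (ContinuousLinearMap.fst ℂ ℂ ℂ).prod (fderiv ℂ F (a, b))
  have hk : LinearMap.ker (L : ℂ × ℂ →ₗ[ℂ] ℂ × ℂ) = ⊥ := by
    rw [LinearMap.ker_eq_bot']
    rintro ⟨u, v⟩ huv
    have h1 : u = 0 := congrArg Prod.fst huv
    have h2 : fderiv ℂ F (a, b) (u, v) = 0 := congrArg Prod.snd huv
    subst h1
    rw [show ((0 : ℂ), v) = v • ((0 : ℂ), (1 : ℂ)) by simp, map_smul, smul_eq_mul] at h2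
    simp [(mul_eq_zero.1 h2).resolve_right h]
  let i := ContinuousLinearEquiv.ofBijective L hk (LinearMap.ker_eq_bot_iff_range_eq_top.1 hk)
  have hG : AnalyticAt ℂ (fun q : ℂ × ℂ => (q.1, F q)) (a, b) := analyticAt_fst.prod hF
  have hd : HasFDerivAt (fun q : ℂ × ℂ => (q.1, F q)) (i : ℂ × ℂ →L[ℂ] ℂ × ℂ) (a, b) :=
    hasFDerivAt_fst.prodMk hF.differentiableAt.hasFDerivAt
  have hc : ContDiffAt ℂ ⊤ (fun q : ℂ × ℂ => (q.1, F q)) (a, b) := hG.contDiffAt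
  have hs := hc.hasStrictFDerivAt' hd (by simp)
  refine ⟨fun q => (hc.localInverse hd (by simp) q).2,
    analyticAt_snd.comp (hc.to_localInverse hd (by simp)).analyticAt,
    congrArg Prod.snd (hc.localInverse_apply_image hd (by simp)), ?_, ?_⟩
  · filter_upwards [hs.eventually_right_inverse] with q hq
    have h1 := congrArg Prod.fst hq
    have h2 := congrArg Prod.snd hq
    simp only at h1 h2
    rw [← h2]
    exact congrArg F (Prod.ext h1.symm rfl)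
  · filter_upwards [hs.eventually_left_inverse] with q hq
    exact congrArg Prod.snd hq

theorem tend {P Q : Type} [NormedAddCommGroup P] [NormedSpace ℂ P] [NormedAddCommGroup Q]
    [NormedSpace ℂ Q] {f : P → Q} {p : P} {q : Q} (h : AnalyticAt ℂ f p) (e : f p = q) :
    Tendsto f (𝓝 p) (𝓝 q) := e ▸ h.continuousAt.tendsto

theorem cmp {P Q R : Type} [NormedAddCommGroup P] [NormedSpace ℂ P] [NormedAddCommGroup Q]
    [NormedSpace ℂ Q] [NormedAddCommGroup R] [NormedSpace ℂ R] {g : Q → R} {f : P → Q} {p : P}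
    {q : Q} (hg : AnalyticAt ℂ g q) (h : AnalyticAt ℂ f p) (e : f p = q) :
    AnalyticAt ℂ (fun x => g (f x)) p := AnalyticAt.comp (e ▸ hg) h

end Gauge

open Gauge in
theorem gauge (hDD : Spec_DD) : Spec_GAUGE := by
  rintro E E' B ε x hB hB' ⟨Θ, aΘ, Θ0, dΘ, sΘ⟩ hE
  rw [← (hd2 hB.differentiableAt).deriv] at hB'
  obtain ⟨C, aC, C0, C1, C2⟩ := inv2 hB hB'
  -- the inverse of `Θ` in its first variable
  have aT : AnalyticAt ℂ (fun q : ℂ × ℂ => Θ (q.2, q.1)) (0, 0) :=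
    cmp aΘ (analyticAt_snd.prod analyticAt_fst) rfl
  have dT := hd1 (a := 0) (b := 0) aΘ.differentiableAt
  obtain ⟨Y₀, aY₀, Y0, Y1, -⟩ := inv2 aT (by rw [dT.deriv]; exact dΘ)
  have T0 : Θ (0, 0) = B (ε, x) := Θ0
  simp only [T0] at aY₀ Y0 Y1
  have m1 : AnalyticAt ℂ (fun q : ℂ × ℂ => (q.2, B (q.1, x))) (ε, 0) :=
    analyticAt_snd.prod (cmp hB (analyticAt_fst.prod analyticAt_const) rfl)
  obtain ⟨Y, hY⟩ : ∃ Y : ℂ × ℂ → ℂ, Y = fun q => Y₀ (q.2, B (q.1, x)) := ⟨_, rfl⟩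
  have aY : AnalyticAt ℂ Y (ε, 0) := hY ▸ cmp aY₀ m1 rfl
  have vY : Y (ε, 0) = 0 := by rw [hY]; exact Y0
  have eY : ∀ᶠ q in 𝓝 (ε, (0 : ℂ)), Θ (Y q, q.2) = B (q.1, x) := by
    rw [hY]
    exact (tend m1 rfl).eventually Y1
  -- `Θ` in the coordinate `B⁻¹`
  obtain ⟨T, hT⟩ : ∃ T : (ℂ × ℂ) × ℂ → ℂ, T = fun q => C (q.1.1, Θ (q.2, q.1.2)) := ⟨_, rfl⟩
  have m2 : AnalyticAt ℂ (fun q : (ℂ × ℂ) × ℂ => (q.1.1, Θ (q.2, q.1.2))) ((ε, 0), 0) :=
    (analyticAt_fst.comp analyticAt_fst).prod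
      (cmp aΘ (analyticAt_snd.prod (analyticAt_snd.comp analyticAt_fst)) rfl)
  have aT' : AnalyticAt ℂ T ((ε, 0), 0) := hT ▸ cmp aC m2 (by simp [T0])
  have vT : T ((ε, 0), 0) = x := by rw [hT]; simp only [T0]; exact C0
  have eT : ∀ᶠ q in 𝓝 ((ε, (0 : ℂ)), (0 : ℂ)), B (q.1.1, T q) = Θ (q.2, q.1.2) := by
    rw [hT]
    exact (tend m2 (by simp [T0])).eventually C1
  have eX : ∀ᶠ q in 𝓝 (ε, (0 : ℂ)), T (q, Y q) = x := by
    have m3 : AnalyticAt ℂ (fun q : ℂ × ℂ => (q.1, x)) (ε, 0) :=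
      analyticAt_fst.prod analyticAt_const
    filter_upwards [eY, (tend m3 rfl).eventually C2] with q h1 h2
    rw [hT]
    simp only [h1]
    exact h2
  -- the divided difference
  obtain ⟨D, hD⟩ : ∃ D : ℂ × ℂ → ℂ, D = fun q => dslope (fun y => T (q, y)) (Y q) (Y q + q.2) :=
    ⟨_, rfl⟩
  have aD : AnalyticAt ℂ D (ε, 0) := by
    have m : AnalyticAt ℂ (fun q : ℂ × ℂ => (q, Y q, Y q + q.2)) (ε, 0) :=
      analyticAt_id.prod (aY.prod (aY.add analyticAt_snd))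
    have := cmp (hDD (ℂ × ℂ) T (ε, 0) 0 aT') m (by simp [vY])
    rw [hD]
    exact this
  have D0 : D (ε, 0) ≠ 0 := by
    rw [hD]
    simp only [vY, add_zero, dslope_same]
    intro h0
    have m4 : AnalyticAt ℂ (fun y : ℂ => ((ε, (0 : ℂ)), y)) 0 := analyticAt_const.prod analyticAt_id
    have k1 : HasDerivAt (fun y => T ((ε, 0), y)) 0 0 :=
      (cmp aT' m4 rfl).differentiableAt.hasDerivAt.congr_deriv h0
    have k2 : HasDerivAt (fun y => B (ε, y)) (fderiv ℂ B (ε, x) (0, 1)) (T ((ε, 0), 0)) := by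
      rw [vT]
      exact hd2 hB.differentiableAt
    have k3 := (k2.comp (h₂ := fun y => B (ε, y)) 0 k1).congr_of_eventuallyEq
      (f₁ := fun y => Θ (y, 0)) (((tend m4 rfl).eventually eT).mono fun y hy => hy.symm)
    exact dΘ ((dT.unique k3).trans (mul_zero _))
  have aS : AnalyticAt ℂ (fun q : ℂ × ℂ => q.2 * D q) (ε, 0) := analyticAt_snd.mul aD
  obtain ⟨W, aW, W0, W1, -⟩ := inv2 aS (by
    have m5 : AnalyticAt ℂ (fun y : ℂ => (ε, y)) 0 := analyticAt_const.prod analyticAt_id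
    have k := (hasDerivAt_id (0 : ℂ)).mul (cmp aD m5 rfl).differentiableAt.hasDerivAt
    have k' : deriv (fun y => y * D (ε, y)) 0 = _ := k.deriv
    simpa [k'] using D0)
  simp only [zero_mul] at aW W0 W1
  have m6 : AnalyticAt ℂ (fun q : ℂ × ℂ => (q.1, W q)) (ε, 0) := analyticAt_fst.prod aW
  have v6 : (ε, W (ε, 0)) = (ε, 0) := by rw [W0]
  have eD := (tend m6 v6).eventually (aD.continuousAt.eventually_ne D0)
  have m7 : AnalyticAt ℂ (fun q : ℂ × ℂ × ℂ => (q.1, q.2.2)) (ε, 0, 0) :=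
    analyticAt_fst.prod (analyticAt_snd.comp analyticAt_snd)
  have m8 : AnalyticAt ℂ (fun q : ℂ × ℂ × ℂ => (q.1, W (q.1, q.2.2))) (ε, 0, 0) := cmp m6 m7 rfl
  obtain ⟨A, hA⟩ : ∃ A : ℂ × ℂ × ℂ → (ℂ × ℂ) × ℂ, A = fun q => ((q.1, W (q.1, q.2.2)),
      Y (q.1, W (q.1, q.2.2)) + q.2.1 * (D (q.1, W (q.1, q.2.2)))⁻¹) := ⟨_, rfl⟩
  have aA : AnalyticAt ℂ A (ε, 0, 0) := hA ▸ m8.prod ((cmp aY m8 v6).add
    ((analyticAt_fst.comp analyticAt_snd).mul ((cmp aD m8 v6).inv (by simpa [W0] using D0))))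
  have vA : A (ε, 0, 0) = ((ε, 0), 0) := by simp [hA, W0, vY]
  have aH : AnalyticAt ℂ (fun q => T (A q)) (ε, 0, 0) := cmp aT' aA vA
  have vH : T (A (ε, 0, 0)) = x := by rw [vA, vT]
  have eW : ∀ᶠ q in 𝓝 (ε, (0 : ℂ)), q.2 * (D (q.1, W q))⁻¹ = W q := by
    filter_upwards [W1, eD] with q h1 h2
    rw [← h1, mul_inv_cancel_right₀ h2]
  refine ⟨fun q => T (A q), aH, ?_, ?_, ?_⟩
  · filter_upwards [(tend m6 v6).eventually eX] with q h1
    simpa [hA] using h1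
  · filter_upwards [(tend m6 v6).eventually eX, eW, W1] with q h1 h2 h3
    have k := sub_smul_dslope (fun y => T ((q.1, W q), y)) (Y (q.1, W q)) (Y (q.1, W q) + W q)
    simp only [hA, Prod.mk.eta, h2]
    rw [h1, add_sub_cancel_left, smul_eq_mul] at k
    rw [← h3, hD]
    linear_combination -k
  · have mm : AnalyticAt ℂ (fun q : ℂ × ℂ × ℂ => (q.1, q.2.1 - q.2.2, q.2.2)) (ε, 0, 0) :=
      analyticAt_fst.prod (((analyticAt_fst.comp analyticAt_snd).sub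
        (analyticAt_snd.comp analyticAt_snd)).prod (analyticAt_snd.comp analyticAt_snd))
    have mp : AnalyticAt ℂ (fun q : ℂ × ℂ × ℂ => (q.1, q.2.1 + q.2.2, q.2.2)) (ε, 0, 0) :=
      analyticAt_fst.prod (((analyticAt_fst.comp analyticAt_snd).add
        (analyticAt_snd.comp analyticAt_snd)).prod (analyticAt_snd.comp analyticAt_snd))
    have tm := tend mm (q := (ε, 0, 0)) (by simp)
    have tp := tend mp (q := (ε, 0, 0)) (by simp)
    have e1 := (tend aA vA).eventually eT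
    have t1 := tend aH vH
    have t2 : Tendsto (fun q => ((A q).2, (A q).1.2)) (𝓝 (ε, 0, 0)) (𝓝 (0 : ℂ × ℂ)) :=
      tend ((analyticAt_snd.comp aA).prod (analyticAt_snd.comp (analyticAt_fst.comp aA)))
        (by simp [vA])
    filter_upwards [(continuous_fst.tendsto (ε, (0 : ℂ), (0 : ℂ))).prodMk_nhds
      ((t1.comp tm).prodMk_nhds (t1.prodMk_nhds (t1.comp tp))) |>.eventually hE, e1,
      tm.eventually e1, tp.eventually e1, t2.eventually sΘ, (tend m7 rfl).eventually eW]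
      with q h1 h2 h3 h4 h5 h6
    refine h1 ?_
    simp only [hA] at h2 h3 h4 h5
    simp only [Function.comp_def, hA, h2, h3, h4]
    rwa [sub_mul, add_mul, h6, ← add_sub_assoc, ← add_assoc]

end Vale.Agent.P097A
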