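import Vale.Agent.P097A.Spec

/-!
# P097A: the maximum principle on the algebraic curve
-/

noncomputable section

namespace Vale.Agent.P097A

open Filter Topology Set Metric Function MvPolynomial

theorem pb : Spec_PB := fun z r => by
  have h : ball z r \ {z} = (fun w => z + Complex.exp w) '' {w | Real.exp w.re < r} := by
    ext y
    refine ⟨fun ⟨h1, h2⟩ => ⟨Complex.log (y - z), ?_, ?_⟩, ?_⟩
    · rwa [mem_ofPred, ← Complex.norm_exp, Complex.exp_log (sub_ne_zero.2 h2), ← dist_eq_norm]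
    · simp [Complex.exp_log (sub_ne_zero.2 h2)]
    · rintro ⟨w, hw, rfl⟩
      exact ⟨by simpa [Complex.norm_exp] using hw, by simp⟩
  rw [h]
  refine IsPreconnected.image (Convex.isPreconnected ?_) _ (by fun_prop)
  simpa using ((convexOn_exp.convex_lt r).is_linear_preimage Complex.reLm.isLinear :)

namespace GlobH

theorem mm {g : ℂ → ℂ} {x : ℂ} (hg : AnalyticAt ℂ g x) (h : ¬ ∀ᶠ y in 𝓝 x, g y = g x) :
    ∃ᶠ y in 𝓝[≠] x, ‖g x‖ < ‖g y‖ := fun k =>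
  h (Complex.eventually_eq_of_isLocalMax_norm (hg.eventually_analyticAt.mono fun _ a =>
    a.differentiableAt) ((eventually_nhdsWithin_iff.1 k).mono fun y a => by
      by_cases e : y = x
      · exact (congrArg _ e).le
      · exact not_lt.1 (a e)))

/-- the maximum principle at a removable singularity -/
theorem mm0 {f : ℂ → ℂ} (hb : Bdd0 f)
    (h : ∀ᶠ τ in 𝓝[≠] 0, AnalyticAt ℂ f τ ∧ ¬ ∀ᶠ y in 𝓝 τ, f y = f τ) :
    ∃ᶠ σ in 𝓝[≠] 0, ∀ᶠ τ in 𝓝[≠] 0, ‖f τ‖ ≤ ‖f σ‖ := by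
  obtain ⟨C, hC⟩ := hb
  have h1 := Complex.tendsto_limUnder_of_differentiable_on_punctured_nhds_of_bounded_under
    (h.mono fun _ a => a.1.differentiableAt) ⟨C + ‖f 0‖, eventually_map.2 (hC.mono fun τ a =>
      (norm_sub_le _ _).trans (add_le_add_left a _))⟩
  set c := limUnder (𝓝[≠] 0) f
  have h2 : ∀ᶠ τ in 𝓝[≠] 0, update f 0 c τ = f τ :=
    eventually_nhdsWithin_of_forall fun τ a => update_of_ne a _ _
  have h3 := eventually_nhdsNE_eventually_nhds_iff.2 h2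
  have h4 : AnalyticAt ℂ (update f 0 c) 0 :=
    Complex.analyticAt_of_differentiable_on_punctured_nhds_of_continuousAt
      ((h.and h3).mono fun τ a => a.1.1.differentiableAt.congr_of_eventuallyEq a.2)
      (continuousAt_update_same.2 h1)
  refine ((mm h4 fun k => ?_).and_eventually h2).mono fun σ a => ?_
  · obtain ⟨τ, a1, a2, a3⟩ := (h.and (h3.and (nhdsWithin_le_nhds k.eventually_nhds))).exists
    refine a1.2 ((a2.and a3).mono fun y b => ?_)
    rw [← b.1, b.2, ← a3.self_of_nhds, a2.self_of_nhds]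
  · rw [update_self, a.2] at a
    exact (h1.norm.eventually_lt_const a.1).mono fun _ => le_of_lt

theorem mer {n : ℕ} (p : MvPolynomial (Fin n) ℂ) {B : Fin n → ℂ → ℂ} {x : ℂ}
    (h : ∀ i, MeromorphicAt (B i) x) : MeromorphicAt (fun s => eval (fun i => B i s) p) x := by
  induction p using MvPolynomial.induction_on with
  | C a => simp
  | add p q hp hq => simpa using hp.fun_add hq
  | mul_X p i hp => simpa using hp.fun_mul (h i)

theorem root {e : ℕ} (he : 0 < e) {p : ℂ → Prop} (h : ∀ᶠ τ in 𝓝[≠] 0, p τ) :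
    ∀ᶠ s in 𝓝[≠] 0, ∃ τ, p τ ∧ τ ^ e = s := by
  obtain ⟨r, r0, hr⟩ := eventually_nhds_iff_ball.1 (eventually_nhdsWithin_iff.1 h)
  filter_upwards [self_mem_nhdsWithin, nhdsWithin_le_nhds (ball_mem_nhds 0 (pow_pos r0 e))]
    with s a1 a2
  obtain ⟨τ, rfl⟩ := IsAlgClosed.exists_pow_nat_eq s he
  refine ⟨τ, hr τ ?_ fun k => a1 (by simp [show τ = 0 from k, he.ne']), rfl⟩
  rw [mem_ball_zero_iff] at a2 ⊢
  exact lt_of_pow_lt_pow_left₀ e r0.le (norm_pow τ e ▸ a2)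

/-- a good point of a branch of the curve -/
structure Gd (P : MvPolynomial (Fin 2) ℂ) (Z W : ℂ → ℂ) (x : ℂ) : Prop where
  reg : Reg Z W x
  int : IntAt Z W x
  alg : ∀ᶠ τ in 𝓝 x, eval ![Z τ, W τ] P = 0
  nc : ¬ ∀ᶠ τ in 𝓝 x, GG Z W τ = GG Z W x

variable {P : MvPolynomial (Fin 2) ℂ} {Z W : ℂ → ℂ} {x : ℂ}

theorem Gd.spread (hP : Spec_PROP) (hL : Spec_LAW) (hG : Spec_GG) (h : Gd P Z W x) {D : Set ℂ}
    (ho : IsOpen D) (hc : IsPreconnected D) (hx : x ∈ D)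
    (hD : ∀ y ∈ D, Reg Z W y ∧ eval ![Z y, W y] P = 0) : ∀ y ∈ D, Gd P Z W y := fun y hy =>
  ⟨(hD y hy).1, hP _ D ho hc (fun z hz => (hL.1 Z W z (hD z hz).1).1) x hx h.int y hy,
    mem_of_superset (ho.mem_nhds hy) fun z hz => (hD z hz).2, fun k => h.nc (by
      have := AnalyticOnNhd.eqOn_of_preconnected_of_eventuallyEq
        (fun z hz => hG.1 Z W z (hD z hz).1) analyticOnNhd_const hc hy k
      filter_upwards [ho.mem_nhds hx] with z hz using (this hz).trans (this hx).symm)⟩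

theorem Gd.near (hP : Spec_PROP) (hL : Spec_LAW) (hG : Spec_GG) (h : Gd P Z W x) :
    ∀ᶠ y in 𝓝 x, Gd P Z W y := by
  obtain ⟨r, r0, hr⟩ := eventually_nhds_iff_ball.1 ((hL.1 Z W x h.reg).2.and h.alg)
  exact mem_of_superset (ball_mem_nhds x r0)
    (h.spread hP hL hG isOpen_ball (convex_ball _ _).isPreconnected (mem_ball_self r0) hr)

/-- change of the parameter -/
theorem Gd.par (hL : Spec_LAW) (hG : Spec_GG) (h : Gd P Z W x) {β : ℂ → ℂ} {τ : ℂ}
    (ha : AnalyticAt ℂ β τ) (hd : deriv β τ ≠ 0) (e : β τ = W x) : ∃ F, (∀ᶠ s in 𝓝 τ,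
      eval ![F s, β s] P = 0) ∧ AnalyticAt ℂ F τ ∧ ∀ F', F =ᶠ[𝓝 τ] F' →
        Gd P F' β τ ∧ GG F' β τ = GG Z W x := by
  have hW := h.reg.anW.hasStrictDerivAt
  set a := hW.localInverse _ _ _ h.reg.dW
  have a1 : AnalyticAt ℂ (a ∘ β) τ :=
    (h.reg.anW.analyticAt_localInverse h.reg.dW).comp_of_eq ha e
  have a2 : (a ∘ β) τ = x := (congrArg a e).trans (hW.eventually_left_inverse h.reg.dW).self_of_nhds
  have a3 : W ∘ (a ∘ β) =ᶠ[𝓝 τ] β :=
    ha.continuousAt.eventually (p := fun y => W (a y) = y)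
      (e ▸ hW.eventually_right_inverse h.reg.dW)
  have a4 : deriv (a ∘ β) τ ≠ 0 := ((hW.to_localInverse h.reg.dW).hasDerivAt.comp_of_eq τ
    ha.differentiableAt.hasDerivAt e.symm).deriv.trans_ne (mul_ne_zero (inv_ne_zero h.reg.dW) hd)
  generalize a ∘ β = C at a1 a2 a3 a4
  subst a2
  have a5 := hL.2.2.2.2 Z W C τ a1 a4 h.reg.anZ h.reg.anW
  have a6 : ∀ᶠ s in 𝓝 τ, eval ![(Z ∘ C) s, β s] P = 0 :=
    (a3.and (a1.continuousAt.eventually h.alg)).mono fun s k => k.1 ▸ k.2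
  refine ⟨Z ∘ C, a6, h.reg.anZ.comp a1, fun F k => ?_⟩
  have a7 := hL.2.1 _ _ _ _ τ k a3
  have a8 : ∀ᶠ s in 𝓝 τ, GG F β s = GG Z W (C s) := by
    filter_upwards [hG.2.1 _ _ _ _ τ k a3, a1.eventually_analyticAt,
      a1.deriv.continuousAt.eventually_ne a4, a1.continuousAt.eventually (hL.1 _ _ _ h.reg).2]
      with s b1 b2 b3 b4 using b1.symm.trans (hG.2.2.2.2 Z W C s b2 b3 b4)
  refine ⟨⟨a7.1 (a5.1.1 h.reg), a7.2 (a5.2.1 h.int), (a6.and k).mono fun s b => b.2 ▸ b.1,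
    fun b => h.nc ?_⟩, a8.self_of_nhds⟩
  rw [← a1.hasStrictDerivAt.map_nhds_eq a4, eventually_map]
  exact (a8.and b).mono fun s c => c.1.symm.trans (c.2.trans a8.self_of_nhds)

/-- the values -/
abbrev Vl (P : MvPolynomial (Fin 2) ℂ) : Type := {s // ∃ Z W x, Gd P Z W x ∧ s = ‖GG Z W x‖}

/-- the values over `K` are bounded by a value -/
def Q (P : MvPolynomial (Fin 2) ℂ) (K : Set ℂ) : Prop :=
  ∀ᶠ s : Vl P in atTop, ∀ Z W x, Gd P Z W x → W x ∈ K → ‖GG Z W x‖ ≤ s.1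

theorem loc (hU : Spec_PUP) (hP : Spec_PROP) (hL : Spec_LAW) (hG : Spec_GG) (hA : Spec_PLACE)
    (P0 : P ≠ 0) {B A : ℂ → ℂ} {l : Filter ℂ} (Bm : MeromorphicAt B 0)
    (Bd : ∀ s, s ≠ 0 → AnalyticAt ℂ B s ∧ deriv B s ≠ 0) (hl : Tendsto A l (𝓝[≠] 0))
    (BA : ∀ z, B (A z) = z) : ∃ K ∈ l, Q P K := by
  set R := finSuccEquiv ℂ 1 P
  have R1 : ∀ y w : ℂ, eval ![y, w] P =
      ∑ i ∈ Finset.range (R.natDegree + 1), eval (fun _ => w) (R.coeff i) * y ^ i := fun y w => by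
    rw [show ![y, w] = Fin.cons y fun _ => w from funext (Fin.forall_fin_two.2 ⟨rfl, rfl⟩),
      eval_eq_eval_mv_eval', Polynomial.eval_map, Polynomial.eval₂_eq_sum_range]
  have R2 : ∀ᶠ s in 𝓝[≠] 0, eval (fun _ => B s) (R.coeff R.natDegree) ≠ 0 := by
    refine (mer _ fun _ => Bm).eventually_eq_zero_or_eventually_ne_zero.resolve_left fun k => ?_
    obtain ⟨s, s1, s2⟩ := ((eventually_nhdsNE_eventually_nhds_iff.2 k).and self_mem_nhdsWithin).exists
    have s3 := AnalyticOnNhd.eq_of_eventuallyEq (𝕜 := ℂ) (g := fun _ => 0)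
      (f := fun w : ℂ => eval (fun _ => w) (R.coeff R.natDegree))
      (fun w _ => AnalyticAt.aeval_mvPolynomial (fun _ => analyticAt_id) _) analyticOnNhd_const
      (z₀ := B s) ((Bd s s2).1.hasStrictDerivAt.map_nhds_eq (Bd s s2).2 ▸ eventually_map.2 s1)
    refine Polynomial.leadingCoeff_ne_zero.2 ((map_ne_zero_iff _ (finSuccEquiv ℂ 1).injective).2 P0)
      (MvPolynomial.funext fun w => ?_)
    rw [show w = fun _ => w 0 from funext fun i => congrArg w (Subsingleton.elim _ _), map_zero]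
    exact congrFun s3 (w 0)
  obtain ⟨e, F, e0, Fm, hF⟩ := hU R.natDegree (fun i s => eval (fun _ => B s) (R.coeff i))
    (fun i => mer _ fun _ => Bm) R2
  simp only [← R1] at hF
  have pt : Tendsto (fun τ : ℂ => τ ^ e) (𝓝[≠] 0) (𝓝[≠] 0) := tendsto_nhdsWithin_iff.2
    ⟨tendsto_nhdsWithin_of_tendsto_nhds ((continuous_pow e).tendsto' _ _ (zero_pow e0.ne')),
      eventually_nhdsWithin_of_forall fun τ a => pow_ne_zero e a⟩
  let β : ℂ → ℂ := B ∘ fun τ => τ ^ e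
  have βm : MeromorphicAt β 0 :=
    MeromorphicAt.comp_analyticAt (by simpa [e0.ne'] using Bm) (analyticAt_id.pow e)
  have βd : ∀ τ, τ ≠ 0 → AnalyticAt ℂ β τ ∧ deriv β τ ≠ 0 := fun τ a =>
    have k := Bd _ (pow_ne_zero e a)
    ⟨k.1.comp (f := fun τ => τ ^ e) (analyticAt_id.pow e), (k.1.differentiableAt.hasDerivAt.comp τ
      (hasDerivAt_pow e τ)).deriv.trans_ne (mul_ne_zero k.2
        (mul_ne_zero (Nat.cast_ne_zero.2 e0.ne') (pow_ne_zero _ a)))⟩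
  have h1 : ∀ i, ∃ N ∈ 𝓝[≠] (0 : ℂ), ∀ᶠ s : Vl P in atTop, ∀ τ ∈ N, Gd P (F i) β τ →
      ‖GG (F i) β τ‖ ≤ s.1 := fun i => by
    by_cases k : ∃ᶠ τ in 𝓝[≠] 0, Gd P (F i) β τ
    swap
    · exact ⟨_, not_frequently.1 k, .of_forall fun _ _ a b => absurd b a⟩
    have k1 := (Fm i).deriv.eventually_eq_zero_or_eventually_ne_zero.resolve_left fun a =>
      (k.and_eventually a).exists.elim fun τ b => b.1.reg.dZ b.2
    have k2 := (((Fm i).deriv.fun_mul βm.deriv.deriv).fun_sub (βm.deriv.fun_mul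
      (Fm i).deriv.deriv)).eventually_eq_zero_or_eventually_ne_zero.resolve_left fun a =>
        (k.and_eventually a).exists.elim fun τ b => b.1.reg.curv (sub_eq_zero.1 b.2)
    have k3 : ∀ᶠ τ in 𝓝[≠] 0, Reg (F i) β τ ∧ eval ![F i τ, β τ] P = 0 := by
      filter_upwards [k1, k2, (Fm i).eventually_analyticAt, hF, self_mem_nhdsWithin]
        with τ a1 a2 a3 a4 a5
      exact ⟨⟨a3, (βd τ a5).1, a1, (βd τ a5).2, sub_ne_zero.1 a2⟩, (a4 _).trans
        (mul_eq_zero_of_right _ (Finset.prod_eq_zero (Finset.mem_univ i) (sub_self _)))⟩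
    obtain ⟨r, r0, hr⟩ := eventually_nhds_iff_ball.1 (eventually_nhdsWithin_iff.1 k3)
    have k4 := sdiff_mem_nhdsWithin_compl (ball_mem_nhds (0 : ℂ) r0) {0}
    obtain ⟨τ, t1, t2⟩ := (k.and_eventually k4).exists
    have k5 : ∀ᶠ τ in 𝓝[≠] 0, Gd P (F i) β τ := mem_of_superset k4 (t1.spread hP hL hG
      (isOpen_ball.sdiff isClosed_singleton) (pb 0 r) t2 fun y hy => hr y hy.1 hy.2)
    obtain ⟨σ, s1, s2⟩ := ((mm0 (hA _ _ (Fm i) βm (k5.mono fun _ a => ⟨a.reg, a.int⟩))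
      (k5.mono fun _ a => ⟨hG.1 _ _ _ a.reg, a.nc⟩)).and_eventually k5).exists
    exact ⟨_, s1, (eventually_ge_atTop (⟨_, _, _, σ, s2, rfl⟩ : Vl P)).mono fun s a τ b _ =>
      le_trans b a⟩
  choose N h1 h2 using h1
  refine ⟨_, hl.eventually (root e0 ((eventually_all.2 h1).and
    ((eventually_nhdsNE_eventually_nhds_iff.2 (hF.and (pt.eventually R2))).and
      ((eventually_all.2 fun i => (Fm i).eventually_analyticAt).and self_mem_nhdsWithin)))),
    (eventually_all.2 h2).mono fun s hs Z W x g ⟨τ, ⟨t1, t2, t3, t4⟩, t5⟩ => ?_⟩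
  obtain ⟨F', f1, f2, f3⟩ := g.par hL hG (βd τ t4).1 (βd τ t4).2 ((congrArg B t5).trans (BA _))
  obtain ⟨i, hi⟩ : ∃ i, ∃ᶠ s in 𝓝[≠] τ, F' s = F i s := by
    by_contra! c
    obtain ⟨s, s1, s2, s3⟩ := ((eventually_all.2 c).and (nhdsWithin_le_nhds (f1.and t2))).exists
    exact mul_ne_zero s3.2 (Finset.prod_ne_zero_iff.2 fun i _ => sub_ne_zero.2 (s1 i))
      ((s3.1 _).symm.trans s2)
  obtain ⟨g1, g2⟩ := f3 _ ((f2.frequently_eq_iff_eventually_eq (t3 i)).1 hi)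
  exact g2 ▸ hs i τ (t1 i) g1

end GlobH

open GlobH

theorem glob (hU : Spec_PUP) (hP : Spec_PROP) (hL : Spec_LAW) (hG : Spec_GG) (hA : Spec_PLACE) :
    Spec_GLOB := by
  intro P Z W x P0 h1 h2 h3
  by_contra h4
  have : Nonempty (Vl P) := ⟨⟨_, Z, W, x, ⟨h1, h2, h3, h4⟩, rfl⟩⟩
  have up : ∀ {Z W x}, Gd P Z W x → ∃ᶠ y in 𝓝[≠] x, ‖GG Z W x‖ < ‖GG Z W y‖ ∧ Gd P Z W y :=
    fun g => (mm (hG.1 _ _ _ g.reg) g.nc).and_eventually (nhdsWithin_le_nhds (g.near hP hL hG))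
  have un : ∀ ⦃s t⦄, Q P s → Q P t → Q P (s ∪ t) := fun s t a b =>
    (a.and b).mono fun _ c Z W x g k => k.elim (c.1 Z W x g) (c.2 Z W x g)
  obtain ⟨K, k1, k2⟩ := loc hU hP hL hG hA P0 (MeromorphicAt.id 0).inv
    (fun s a => ⟨analyticAt_id.inv a, (hasDerivAt_inv a).deriv.trans_ne
      (neg_ne_zero.2 (inv_ne_zero (pow_ne_zero 2 a)))⟩) tendsto_inv₀_cobounded' inv_inv
  have k3 : Q P (closure Kᶜ) := by
    refine (Bornology.isBounded_compl_iff.2 k1).isCompact_closure.induction_on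
      (.of_forall fun _ _ _ _ _ k => k.elim)
      (fun s t a b => b.mono fun _ c Z W x g k => c Z W x g (a k)) un fun z _ => ?_
    obtain ⟨T, t1, t2⟩ := loc hU hP hL hG hA P0 (B := fun s => s + z) (A := fun s => s - z)
      (l := 𝓝[≠] z) (by fun_prop) (fun s _ => ⟨by fun_prop, by simp⟩)
      (by simpa using ((hasDerivAt_id z).sub_const z).tendsto_nhdsNE one_ne_zero)
      fun s => sub_add_cancel s z
    refine ⟨insert z T, mem_nhdsWithin_of_mem_nhds (insert_mem_nhds_iff.2 t1),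
      t2.mono fun s c Z W x g k => k.elim (fun e => ?_) (c Z W x g)⟩
    obtain ⟨y, ⟨y1, y2⟩, y3⟩ := ((up g).and_eventually
      ((g.reg.anW.differentiableAt.hasDerivAt.tendsto_nhdsNE g.reg.dW).eventually (e ▸ t1))).exists
    exact y1.le.trans (c Z W y y2 y3)
  obtain ⟨⟨_, Z, W, x, g, rfl⟩, c⟩ := (un k2 k3).exists
  obtain ⟨y, y1, y2⟩ := (up g).exists
  exact y1.not_ge (c Z W y y2 ((em _).imp id fun k => subset_closure k))

end Vale.Agent.P097A
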