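import Vale.Agent.P097A.Spec
import Vale.Agent.P097.H407.Hol

/-!
# P097A: divided differences, the step map, uniqueness
-/

noncomputable section

namespace Vale.Agent.P097A

open Filter Topology Set Metric

attribute [local fun_prop] analyticAt_fst analyticAt_snd

theorem dd : Spec_DD := by
  intro P _ _ _ F p x hF
  obtain ⟨r, r0, hr⟩ := Metric.eventually_nhds_iff_ball.1 hF.eventually_analyticAt
  rw [← ball_prod_same] at hr
  have dF : DifferentiableOn ℂ F (ball p r ×ˢ ball x r) := fun z hz =>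
    (hr z hz).differentiableAt.differentiableWithinAt
  have hU : IsOpen (ball p r ×ˢ ball x (r / 4) ×ˢ ball x (r / 4)) :=
    isOpen_ball.prod (isOpen_ball.prod isOpen_ball)
  have hs : ball x (r / 4) ⊆ ball x r := ball_subset_ball (by linarith)
  have hm : (p, x, x) ∈ ball p r ×ˢ ball x (r / 4) ×ˢ ball x (r / 4) :=
    ⟨mem_ball_self r0, mem_ball_self (by positivity), mem_ball_self (by positivity)⟩
  have ne : ∀ t ∈ ball x r \ closedBall x (r / 4), ∀ a ∈ ball x (r / 4), t - a ≠ 0 :=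
    fun t ht a ha k => ht.2 (sub_eq_zero.1 k ▸ ball_subset_closedBall ha)
  have sp : sphere x (r / 2) ⊆ ball x r \ closedBall x (r / 4) := fun t ht => by
    rw [mem_sphere] at ht
    exact ⟨by rw [mem_ball]; linarith, by rw [mem_closedBall]; linarith⟩
  have h1 := Vale.Agent.P097.Hol.differentiableOn_circleIntegral
    (G := fun z : (P × ℂ × ℂ) × ℂ =>
      (z.2 - z.1.2.2)⁻¹ • ((z.2 - z.1.2.1)⁻¹ • (F (z.1.1, z.2) - F (z.1.1, z.1.2.1))))
    (c := x) (R := r / 2) (by positivity) hU (isOpen_ball.sdiff isClosed_closedBall) sp (by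
      refine DifferentiableOn.smul (DifferentiableOn.inv (by fun_prop) fun z hz =>
        ne _ hz.2 _ hz.1.2.2) (DifferentiableOn.smul (DifferentiableOn.inv (by fun_prop)
          fun z hz => ne _ hz.2 _ hz.1.2.1) (DifferentiableOn.sub ?_ ?_))
      · exact dF.comp (f := fun z : (P × ℂ × ℂ) × ℂ => (z.1.1, z.2)) (by fun_prop)
          fun z hz => ⟨hz.1.1, hz.2.1⟩
      · exact dF.comp (f := fun z : (P × ℂ × ℂ) × ℂ => (z.1.1, z.1.2.1)) (by fun_prop)
          fun z hz => ⟨hz.1.1, hs hz.1.2.1⟩)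
  refine (Vale.Agent.P097.Hol.analyticAt_of_differentiableOn hU
    (h1.const_smul (2 * Real.pi * Complex.I : ℂ)⁻¹) hm).congr ?_
  filter_upwards [hU.mem_nhds hm] with q hq
  have d1 : DifferentiableOn ℂ (fun y => F (q.1, y)) (ball x r) :=
    dF.comp (f := fun y => (q.1, y)) (by fun_prop) fun y hy => ⟨hq.1, hy⟩
  have d2 := ((Complex.differentiableOn_dslope (isOpen_ball.mem_nhds (hs hq.2.1))).2 d1).mono
    (closedBall_subset_ball (show r / 2 < r by linarith))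
  have e := d2.circleIntegral_sub_inv_smul (ball_subset_ball (by linarith) hq.2.2)
  rw [circleIntegral.integral_congr (by positivity) (g := fun t =>
    (t - q.2.2)⁻¹ • ((t - q.2.1)⁻¹ • (F (q.1, t) - F (q.1, q.2.1)))) fun t ht => by
      simp only [dslope_of_ne _ (sub_ne_zero.1 (ne t (sp ht) _ hq.2.1)), slope_def_module]] at e
  simp only [Pi.smul_apply]
  rw [e, inv_smul_smul₀ Complex.two_pi_I_ne_zero]

namespace Step

/-- the analytic implicit function theorem -/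
theorem imp {P : Type} [NormedAddCommGroup P] [NormedSpace ℂ P] [CompleteSpace P] {f : P × ℂ → ℂ}
    {p : P} {x : ℂ} (hf : AnalyticAt ℂ f (p, x)) (h : fderiv ℂ f (p, x) (0, 1) ≠ 0) :
    ∃ ψ : P → ℂ, AnalyticAt ℂ ψ p ∧ ψ p = x ∧
      ∀ᶠ v in 𝓝 (p, x), f v = f (p, x) ↔ ψ v.1 = v.2 := by
  have c : ContDiffAt ℂ ⊤ f (p, x) := hf.contDiffAt
  have i : (fderiv ℂ f (p, x) ∘L .inr ℂ P ℂ).IsInvertible :=
    ⟨ContinuousLinearEquiv.unitsEquivAut ℂ (Units.mk0 _ h), by ext; simp⟩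
  exact ⟨c.implicitFunction (by simp) i, 
    (c.contDiffAt_implicitFunction (by simp) i).analyticAt, c.implicitFunction_apply_self (by simp) i,
    c.eventually_apply_eq_iff_implicitFunction (by simp) i⟩

theorem der {E : ℂ × ℂ × ℂ × ℂ → ℂ} {e b : ℂ} (h : IsLawF E e b) {j : ℂ → ℂ}
    (hj : DifferentiableAt ℂ j b) (j0 : j b = b) (k : ∀ᶠ a in 𝓝 b, E (e, a, b, j a) = 0) :
    deriv j b = -1 := by
  have d := h.an.differentiableAt.hasFDerivAt
  have l : ∀ {u v : ℂ → ℂ} {u' v' : ℂ}, HasDerivAt u u' b → HasDerivAt v v' b → u b = b → v b = b →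
      HasDerivAt (fun a => E (e, u a, b, v a)) (fderiv ℂ E (e, b, b, b) (0, u', 0, v')) b :=
    fun {u v _ _} hu hv u0 v0 => HasFDerivAt.comp_hasDerivAt b (l := E)
      (f := fun a => (e, u a, b, v a)) (by rwa [u0, v0]) ((hasDerivAt_const b e).prodMk
        (hu.prodMk ((hasDerivAt_const b b).prodMk hv)))
  have k1 := (l (hasDerivAt_id b) hj.hasDerivAt rfl j0).unique
    ((hasDerivAt_const b (0 : ℂ)).congr_of_eventuallyEq k)
  have t : Tendsto (fun a : ℂ => (e, a, b, b)) (𝓝 b) (𝓝 (e, b, b, b)) :=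
    Continuous.tendsto' (by fun_prop) _ _ rfl
  have k2 := (l (hasDerivAt_id b) (hasDerivAt_const b b) rfl rfl).unique
    ((l (hasDerivAt_const b b) (hasDerivAt_id b) rfl rfl).congr_of_eventuallyEq
      ((t.eventually h.symm).mono fun a ha => ha.symm))
  rw [show ((0 : ℂ), (1 : ℂ), (0 : ℂ), deriv j b) = (0, 1, 0, 0) + deriv j b • (0, 0, 0, 1) by simp,
    map_add, map_smul, k2, smul_eq_mul, ← one_add_mul] at k1
  exact eq_neg_of_add_eq_zero_right ((mul_eq_zero.1 k1).resolve_right h.nd)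

end Step

open Step

theorem lawf : Spec_LAWF := by
  refine ⟨fun E ε x h => ⟨?_, ?_, ?_, ?_, ?_⟩, fun E ε x h => ⟨?_, ?_, ?_, ?_⟩⟩
  · have t : Tendsto (fun q : ℂ × ℂ => (q.1, q.2, q.2, q.2)) (𝓝 (ε, x)) (𝓝 (ε, x, x, x)) :=
      Continuous.tendsto' (by fun_prop) _ _ rfl
    have c : ContinuousAt (fun q => fderiv ℂ E q (0, 0, 0, 1)) (ε, x, x, x) :=
      h.an.fderiv.continuousAt.clm_apply continuousAt_const
    filter_upwards [t.eventually h.an.eventually_analyticAt,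
      t.eventually h.symm.eventually_nhds, h.diag.eventually_nhds,
      t.eventually (c.eventually_ne h.nd)] with q k1 k2 k3 k4 using ⟨k1, k2, k3, k4⟩
  · exact h.an.comp (f := fun y => (ε, y)) (by fun_prop)
  · exact (Continuous.tendsto' (f := fun y : ℂ × ℂ × ℂ => (ε, y)) (by fun_prop) _ _ rfl).eventually
      h.symm
  · exact (Continuous.tendsto' (f := fun y : ℂ => (ε, y)) (by fun_prop) _ _ rfl).eventually h.diag
  · have : HasFDerivAt (fun y => E (ε, y)) _ _ :=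
      h.an.differentiableAt.hasFDerivAt.comp (x, x, x) (hasFDerivAt_prodMk_right ε _)
    simpa [this.fderiv] using h.nd
  · exact h.an.comp (f := fun q : ℂ × ℂ × ℂ × ℂ => q.2) (by fun_prop)
  · exact (continuous_snd.tendsto (ε, x, x, x)).eventually h.symm
  · exact (continuous_snd.tendsto (ε, x)).eventually h.diag
  · have : HasFDerivAt (fun q : ℂ × ℂ × ℂ × ℂ => E q.2) _ _ := HasFDerivAt.comp (f := Prod.snd)
      (ε, x, x, x) h.an.differentiableAt.hasFDerivAt hasFDerivAt_snd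
    simpa [this.fderiv] using h.nd

theorem step : Spec_STEP := by
  intro E ε x h
  have a1 : AnalyticAt ℂ (fun v : (ℂ × ℂ × ℂ) × ℂ => E (v.1.1, v.1.2.1, v.1.2.2, v.2))
      ((ε, x, x), x) := h.an.comp_of_eq (by fun_prop) rfl
  obtain ⟨J, J1, J2, J3⟩ := imp a1 (by
      have l : HasDerivAt (fun c : ℂ => (((ε, x, x), c) : (ℂ × ℂ × ℂ) × ℂ)) (0, 1) x :=
        (hasDerivAt_const x _).prodMk (hasDerivAt_id x)
      have m : HasDerivAt (fun c : ℂ => (ε, x, x, c)) (0, 0, 0, 1) x := (hasDerivAt_const x _).prodMk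
        ((hasDerivAt_const x _).prodMk ((hasDerivAt_const x _).prodMk (hasDerivAt_id x)))
      have k : HasDerivAt (fun c => E (ε, x, x, c)) _ x :=
        h.an.differentiableAt.hasFDerivAt.comp_hasDerivAt x m
      exact (a1.differentiableAt.hasFDerivAt.comp_hasDerivAt x l).unique k ▸ h.nd)
  have J4 : ∀ᶠ q in 𝓝 (ε, x, x, x), E q = 0 ↔ q.2.2.2 = J (q.1, q.2.1, q.2.2.1) := by
    filter_upwards [(Continuous.tendsto' (f := fun q : ℂ × ℂ × ℂ × ℂ =>
      ((q.1, q.2.1, q.2.2.1), q.2.2.2)) (by fun_prop) _ _ rfl).eventually J3] with q hq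
    rw [h.diag.self_of_nhds] at hq
    exact hq.trans eq_comm
  refine ⟨J, J1, J2, J4, ?_⟩
  have J5 : ∀ᶠ q in 𝓝 (ε, x, x), E (q.1, q.2.1, q.2.2, J q) = 0 := by
    have t : Tendsto (fun q : ℂ × ℂ × ℂ => (q.1, q.2.1, q.2.2, J q)) (𝓝 (ε, x, x))
        (𝓝 (ε, x, x, x)) := by
      have := J1.continuousAt
      exact ContinuousAt.tendsto (f := fun q : ℂ × ℂ × ℂ => (q.1, q.2.1, q.2.2, J q))
        (by fun_prop) |>.trans (by rw [J2])
    exact (t.eventually J4).mono fun q hq => hq.2 rfl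
  have D : AnalyticAt ℂ (fun q : ℂ × ℂ × ℂ => dslope (fun a => J (q.1, a, q.2.1)) q.2.1 q.2.2)
      (ε, x, x) := (dd (ℂ × ℂ) (fun v => J (v.1.1, v.2, v.1.2)) (ε, x) x
        (J1.comp (f := fun v : (ℂ × ℂ) × ℂ => (v.1.1, v.2, v.1.2)) (by fun_prop))).comp
      (f := fun q : ℂ × ℂ × ℂ => ((q.1, q.2.1), q.2.1, q.2.2)) (x := (ε, x, x)) (by fun_prop)
  obtain ⟨K, t, ht, hK⟩ := (D.contDiffAt (n := 1)).exists_lipschitzOnWith
  have t1 : Tendsto (fun q : ℂ × ℂ × ℂ => (q.1, q.2.2, q.2.2)) (𝓝 (ε, x, x)) (𝓝 (ε, x, x)) :=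
    Continuous.tendsto' (by fun_prop) _ _ rfl
  have t2 : Tendsto (fun q : ℂ × ℂ × ℂ => (q.1, q.2.2, q.2.1)) (𝓝 (ε, x, x)) (𝓝 (ε, x, x)) :=
    Continuous.tendsto' (by fun_prop) _ _ rfl
  have t3 : Tendsto (fun q : ℂ × ℂ × ℂ => (q.1, q.2.2)) (𝓝 (ε, x, x)) (𝓝 (ε, x)) :=
    Continuous.tendsto' (by fun_prop) _ _ rfl
  have t4 : Tendsto (fun q : ℂ × ℂ × ℂ => (q.1, q.2.2, q.2.2, q.2.2)) (𝓝 (ε, x, x))
      (𝓝 (ε, x, x, x)) := Continuous.tendsto' (by fun_prop) _ _ rfl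
  refine ⟨K, ?_⟩
  filter_upwards [t1.eventually ht, t2.eventually ht, t3.eventually (lawf.1 E ε x h).1,
    t1.eventually J1.eventually_analyticAt, t1.eventually J5.eventually_nhds, t4.eventually J4]
    with ⟨e, a, b⟩ k1 k2 k3 k4 k5 k6
  have j0 : J (e, b, b) = b := (k6.1 k3.diag.self_of_nhds).symm
  have j1 : deriv (fun a => J (e, a, b)) b = -1 := der k3 (k4.comp (f := fun a => (e, a, b))
    (by fun_prop)).differentiableAt j0 ((Continuous.tendsto' (f := fun a : ℂ => (e, a, b))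
      (by fun_prop) _ _ rfl).eventually k5)
  have j2 := hK.dist_le_mul _ k2 _ k1
  have j3 := sub_smul_dslope (fun a => J (e, a, b)) b a
  simp only [dslope_same, j1, dist_eq_norm, j0, smul_eq_mul] at j2 j3 ⊢
  rw [show J (e, a, b) - (2 * b - a) = (a - b) * (dslope (fun a => J (e, a, b)) b a - -1) by
    linear_combination -j3, norm_mul, norm_sub_rev b a, sq, mul_left_comm]
  exact mul_le_mul_of_nonneg_left (j2.trans_eq (by simp)) (norm_nonneg _)

theorem uniq (hL : Spec_LINES) : Spec_UNIQ := by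
  intro E x Θ₁ Θ₂ hE a1 a2 x1 x2 s1 s2 h
  obtain ⟨J, -, -, hJ, -⟩ := step _ 0 x (lawf.2 E 0 x hE)
  have key : ∀ {Θ : ℂ × ℂ → ℂ}, AnalyticAt ℂ Θ 0 → Θ 0 = x → Solves E Θ → ∀ n : ℂ,
      ∀ᶠ v in 𝓝 (0 : ℂ), Θ ((n + 1 + 1) * v, v) = J (0, Θ (n * v, v), Θ ((n + 1) * v, v)) :=
    fun {Θ} a x0 s n => by
      have t : ∀ m : ℂ, Tendsto (fun v : ℂ => (m * v, v)) (𝓝 0) (𝓝 0) := fun m =>
        Continuous.tendsto' (by fun_prop) _ _ (by simp)
      have u : ∀ m : ℂ, Tendsto (fun v : ℂ => Θ (m * v, v)) (𝓝 0) (𝓝 x) := fun m =>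
        x0 ▸ a.continuousAt.tendsto.comp (t m)
      filter_upwards [(t (n + 1)).eventually s, (tendsto_const_nhds.prodMk_nhds ((u n).prodMk_nhds
        ((u (n + 1)).prodMk_nhds (u (n + 1 + 1))))).eventually hJ] with v k1 k2
      rw [show (n + 1) * v - v = n * v by ring, show (n + 1) * v + v = (n + 1 + 1) * v by ring] at k1
      exact k2.1 k1
  have ind : ∀ n : ℕ, ∀ᶠ v in 𝓝 (0 : ℂ), Θ₁ (n * v, v) = Θ₂ (n * v, v) ∧
      Θ₁ ((n + 1) * v, v) = Θ₂ ((n + 1) * v, v) := fun n => by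
    induction n with
    | zero => simpa using h
    | succ n ih =>
      filter_upwards [ih, key a1 x1 s1 n, key a2 x2 s2 n] with v k1 k2 k3
      push_cast
      exact ⟨k1.2, by rw [k2, k3, k1.1, k1.2]⟩
  exact (hL (fun p => Θ₁ p - Θ₂ p) 0 (a1.sub a2) fun n _ =>
    (ind n).mono fun v hv => sub_eq_zero.2 hv.1).mono fun p hp => sub_eq_zero.1 hp

end Vale.Agent.P097A
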