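import Vale.Agent.P097A.Bern
import Vale.Agent.P097A.Step

/-!
# P097A: linearisation of the difference between the parameters `ε` and `ζ ε` (step LIN)
-/

set_option linter.all false

noncomputable section

namespace Vale.Agent.P097A

open Filter Topology Set Metric Asymptotics

namespace Lin

theorem lim {V : Type} [NormedAddCommGroup V] [NormedSpace ℂ V] {E : V → ℂ} {E' : V →L[ℂ] ℂ}
    {v₀ : V} {a b d : ℂ → V} {g : ℂ → ℂ} {j : ℕ} (hE : HasStrictFDerivAt E E' v₀)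
    (ha : Tendsto a (𝓝 0) (𝓝 v₀)) (hb : Tendsto b (𝓝 0) (𝓝 v₀)) (hd : ContinuousAt d 0)
    (hg : ContinuousAt g 0) (h1 : ∀ᶠ e in 𝓝 (0 : ℂ), a e - b e = e ^ j • d e)
    (h2 : ∀ᶠ e in 𝓝 (0 : ℂ), E (a e) - E (b e) = -(e ^ j * g e)) : E' (d 0) + g 0 = 0 := by
  have o1 : (fun e => E (a e) - E (b e) - E' (a e - b e)) =o[𝓝 0] fun e => a e - b e :=
    hE.isLittleO.comp_tendsto (ha.prodMk_nhds hb)
  have o2 : (fun e => a e - b e) =O[𝓝 0] fun e : ℂ => e ^ j := by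
    have o3 : d =O[𝓝 0] fun _ => (1 : ℝ) := hd.tendsto.isBigO_one ℝ
    have o4 : (fun e : ℂ => e ^ j • d e) =O[𝓝 0] fun e : ℂ => e ^ j := by
      have := (isBigO_refl (fun e : ℂ => e ^ j) (𝓝 0)).norm_right.smul o3
      refine IsBigO.of_norm_right ?_
      simpa using this
    exact o4.congr' (EventuallyEq.symm h1) EventuallyEq.rfl
  have o5 := (o1.trans_isBigO o2).tendsto_div_nhds_zero
  have o6 : Tendsto (fun e => -(E' (d e) + g e)) (𝓝[≠] 0) (𝓝 0) := by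
    refine (o5.mono_left nhdsWithin_le_nhds).congr' ?_
    filter_upwards [nhdsWithin_le_nhds h1, nhdsWithin_le_nhds h2, self_mem_nhdsWithin]
      with e k1 k2 k3
    have k1' : a e - b e = e ^ j • d e := k1
    have k2' : E (a e) - E (b e) = -(e ^ j * g e) := k2
    have k4 : e ^ j ≠ 0 := pow_ne_zero _ k3
    rw [k1', k2', map_smul, smul_eq_mul]
    field_simp
    ring
  have o7 : Tendsto (fun e => -(E' (d e) + g e)) (𝓝[≠] 0) (𝓝 (-(E' (d 0) + g 0))) :=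
    (((E'.continuous.continuousAt.comp hd).add hg).neg.tendsto).mono_left nhdsWithin_le_nhds
  have := tendsto_nhds_unique o7 o6
  exact neg_eq_zero.mp this

theorem cancel {f : ℂ → ℂ} {j : ℕ} (hf : ContinuousAt f 0)
    (h : ∀ᶠ e in 𝓝 (0 : ℂ), e ^ j * f e = 0) : f 0 = 0 := by
  have h1 : Tendsto f (𝓝[≠] 0) (𝓝 0) := by
    refine tendsto_const_nhds.congr' ?_
    filter_upwards [nhdsWithin_le_nhds h, self_mem_nhdsWithin] with e k1 k2
    have k1' : e ^ j * f e = 0 := k1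
    exact ((mul_eq_zero.mp k1').resolve_left (pow_ne_zero _ k2)).symm
  exact tendsto_nhds_unique (hf.tendsto.mono_left nhdsWithin_le_nhds) h1

/-- division by the parameter -/
theorem divide {D : ℂ × ℂ × ℂ → ℂ} (hD : AnalyticAt ℂ D 0)
    (h0 : ∀ᶠ p in 𝓝 (0 : ℂ × ℂ), D (0, p) = 0) :
    ∃ D' : ℂ × ℂ × ℂ → ℂ, AnalyticAt ℂ D' 0 ∧ ∀ᶠ q in 𝓝 (0 : ℂ × ℂ × ℂ), D q = q.1 * D' q := by
  have h1 : AnalyticAt ℂ (fun r : (ℂ × ℂ) × ℂ => D (r.2, r.1)) (0, 0) :=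
    AnalyticAt.comp_of_eq (g := D) (f := fun r : (ℂ × ℂ) × ℂ => (r.2, r.1)) hD
      (analyticAt_snd.prod analyticAt_fst) rfl
  have h2 : AnalyticAt ℂ (fun q : (ℂ × ℂ) × ℂ × ℂ => dslope (fun y => D (y, q.1)) q.2.1 q.2.2)
      (0, 0, 0) := dd (ℂ × ℂ) (fun r : (ℂ × ℂ) × ℂ => D (r.2, r.1)) 0 0 h1
  have h3 : AnalyticAt ℂ (fun q : ℂ × ℂ × ℂ => ((q.2, 0, q.1) : (ℂ × ℂ) × ℂ × ℂ)) 0 :=
    analyticAt_snd.prod (analyticAt_const.prod analyticAt_fst)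
  refine ⟨fun q => dslope (fun y => D (y, q.2)) 0 q.1, ?_, ?_⟩
  · exact AnalyticAt.comp_of_eq
      (g := fun q : (ℂ × ℂ) × ℂ × ℂ => dslope (fun y => D (y, q.1)) q.2.1 q.2.2)
      (f := fun q : ℂ × ℂ × ℂ => ((q.2, 0, q.1) : (ℂ × ℂ) × ℂ × ℂ)) h2 h3 rfl
  · have h4 : Tendsto (fun q : ℂ × ℂ × ℂ => q.2) (𝓝 0) (𝓝 0) := continuous_snd.tendsto' 0 0 rfl
    filter_upwards [h4.eventually h0] with q hq
    have := sub_smul_dslope (fun y => D (y, q.2)) 0 q.1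
    rw [sub_zero, smul_eq_mul, hq, sub_zero] at this
    exact this.symm

/-- the three points of an orbit -/
def tri (D : ℂ × ℂ × ℂ → ℂ) (q : ℂ × ℂ × ℂ) : ℂ × ℂ × ℂ :=
  (D (q.1, q.2.1 - q.2.2, q.2.2), D q, D (q.1, q.2.1 + q.2.2, q.2.2))

theorem cm : Continuous (fun q : ℂ × ℂ × ℂ => ((q.1, q.2.1 - q.2.2, q.2.2) : ℂ × ℂ × ℂ)) := by
  fun_prop

theorem cp : Continuous (fun q : ℂ × ℂ × ℂ => ((q.1, q.2.1 + q.2.2, q.2.2) : ℂ × ℂ × ℂ)) := by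
  fun_prop

theorem tm : Tendsto (fun q : ℂ × ℂ × ℂ => ((q.1, q.2.1 - q.2.2, q.2.2) : ℂ × ℂ × ℂ)) (𝓝 0)
    (𝓝 0) := cm.tendsto' 0 0 (by simp)

theorem tp : Tendsto (fun q : ℂ × ℂ × ℂ => ((q.1, q.2.1 + q.2.2, q.2.2) : ℂ × ℂ × ℂ)) (𝓝 0)
    (𝓝 0) := cp.tendsto' 0 0 (by simp)

theorem tri_cont {D : ℂ × ℂ × ℂ → ℂ} (hD : AnalyticAt ℂ D 0) :
    ∀ᶠ q in 𝓝 (0 : ℂ × ℂ × ℂ), ContinuousAt (tri D) q := by
  have h := hD.eventually_analyticAt
  filter_upwards [h, tm.eventually h, tp.eventually h] with q a b c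
  exact (ContinuousAt.comp (f := fun q : ℂ × ℂ × ℂ => ((q.1, q.2.1 - q.2.2, q.2.2) : ℂ × ℂ × ℂ))
      b.continuousAt cm.continuousAt).prodMk (a.continuousAt.prodMk
    (ContinuousAt.comp (f := fun q : ℂ × ℂ × ℂ => ((q.1, q.2.1 + q.2.2, q.2.2) : ℂ × ℂ × ℂ))
      c.continuousAt cp.continuousAt))

theorem sl (p : ℂ × ℂ) : Tendsto (fun e : ℂ => ((e, p) : ℂ × ℂ × ℂ)) (𝓝 0) (𝓝 (0, p)) :=
  (Continuous.prodMk continuous_id continuous_const).tendsto' 0 _ rfl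

theorem s0 : Tendsto (fun p : ℂ × ℂ => ((0, p) : ℂ × ℂ × ℂ)) (𝓝 0) (𝓝 0) :=
  (Continuous.prodMk continuous_const continuous_id).tendsto' 0 _ rfl

/-- the limit equation -/
theorem limit_eq {E Et : ℂ × ℂ × ℂ × ℂ → ℂ} {x ζ : ℂ} {k j : ℕ} {H D : ℂ × ℂ × ℂ → ℂ}
    (hjk : j ≤ k) (hE : AnalyticAt ℂ E (0, x, x, x)) (hH : Gauged E 0 x H)
    (hEt : AnalyticAt ℂ Et (0, x, x, x))
    (hq : ∀ᶠ q in 𝓝 ((0 : ℂ), x, x, x), E (ζ * q.1, q.2) - E q = q.1 ^ k * Et q)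
    (hD : AnalyticAt ℂ D 0)
    (hd : ∀ᶠ q in 𝓝 (0 : ℂ × ℂ × ℂ), H (ζ * q.1, q.2) - H q = q.1 ^ j * D q) :
    ∀ᶠ p in 𝓝 (0 : ℂ × ℂ), fderiv ℂ E (0, tri H (0, p)) (0, tri D (0, p)) +
      (0 : ℂ) ^ (k - j) * Et (0, tri H (0, p)) = 0 := by
  have hHan : AnalyticAt ℂ H 0 := hH.an
  have hx : H 0 = x := hH.g0.self_of_nhds
  have cz : Continuous (fun q : ℂ × ℂ × ℂ => ((ζ * q.1, q.2) : ℂ × ℂ × ℂ)) := by fun_prop
  have tz : Tendsto (fun q : ℂ × ℂ × ℂ => ((ζ * q.1, q.2) : ℂ × ℂ × ℂ)) (𝓝 0) (𝓝 0) :=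
    cz.tendsto' 0 0 (by simp)
  have t0 : tri H 0 = (x, x, x) := by
    simp only [tri, Prod.fst_zero, Prod.snd_zero, sub_zero, add_zero]
    rw [← hx]; rfl
  have tT : Tendsto (tri H) (𝓝 0) (𝓝 (x, x, x)) := t0 ▸ (tri_cont hHan).self_of_nhds.tendsto
  have tA : Tendsto (fun q : ℂ × ℂ × ℂ => (q.1, tri H (ζ * q.1, q.2))) (𝓝 0) (𝓝 (0, x, x, x)) :=
    (continuous_fst.tendsto' 0 0 rfl).prodMk_nhds (tT.comp tz)
  have tB : Tendsto (fun q : ℂ × ℂ × ℂ => (q.1, tri H q)) (𝓝 0) (𝓝 (0, x, x, x)) :=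
    (continuous_fst.tendsto' 0 0 rfl).prodMk_nhds tT
  have hsol : ∀ᶠ q in 𝓝 (0 : ℂ × ℂ × ℂ), E (q.1, tri H q) = 0 := hH.sol
  have e1 : ∀ᶠ q in 𝓝 (0 : ℂ × ℂ × ℂ), (q.1, tri H (ζ * q.1, q.2)) - (q.1, tri H q) =
      q.1 ^ j • (((0 : ℂ), tri D q) : ℂ × ℂ × ℂ × ℂ) := by
    filter_upwards [hd, tm.eventually hd, tp.eventually hd] with q a b c
    simp only [tri, Prod.mk_sub_mk, Prod.smul_mk, smul_eq_mul, sub_self, mul_zero] at a b c ⊢
    rw [a, b, c]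
  have e2 : ∀ᶠ q in 𝓝 (0 : ℂ × ℂ × ℂ), E (q.1, tri H (ζ * q.1, q.2)) - E (q.1, tri H q) =
      -(q.1 ^ j * (q.1 ^ (k - j) * Et (q.1, tri H (ζ * q.1, q.2)))) := by
    filter_upwards [hsol, tz.eventually hsol, tA.eventually hq] with q a b c
    have b' : E (ζ * q.1, tri H (ζ * q.1, q.2)) = 0 := b
    have c' : E (ζ * q.1, tri H (ζ * q.1, q.2)) - E (q.1, tri H (ζ * q.1, q.2)) =
      q.1 ^ k * Et (q.1, tri H (ζ * q.1, q.2)) := c
    rw [b'] at c'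
    rw [a, ← mul_assoc, ← pow_add, Nat.add_sub_cancel' hjk]
    linear_combination -c'
  filter_upwards [s0.eventually e1.eventually_nhds, s0.eventually e2.eventually_nhds,
    s0.eventually (tri_cont hHan), s0.eventually (tri_cont hD),
    s0.eventually (tB.eventually hE.eventually_analyticAt),
    s0.eventually (tB.eventually hEt.eventually_analyticAt)] with p a1 a2 a3 a4 a5 a6
  have zz : Tendsto (fun e : ℂ => ((ζ * e, p) : ℂ × ℂ × ℂ)) (𝓝 0) (𝓝 (0, p)) :=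
    (Continuous.prodMk (continuous_const.mul continuous_id) continuous_const).tendsto' 0 _
      (by simp)
  have ta : Tendsto (fun e : ℂ => ((e, tri H (ζ * e, p)) : ℂ × ℂ × ℂ × ℂ)) (𝓝 0)
      (𝓝 (0, tri H (0, p))) := tendsto_id.prodMk_nhds (a3.tendsto.comp zz)
  have tb : Tendsto (fun e : ℂ => ((e, tri H (e, p)) : ℂ × ℂ × ℂ × ℂ)) (𝓝 0)
      (𝓝 (0, tri H (0, p))) := tendsto_id.prodMk_nhds (a3.tendsto.comp (sl p))
  have td : ContinuousAt (fun e : ℂ => (((0 : ℂ), tri D (e, p)) : ℂ × ℂ × ℂ × ℂ)) 0 :=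
    tendsto_const_nhds.prodMk_nhds (a4.tendsto.comp (sl p))
  have tg : ContinuousAt (fun e : ℂ => e ^ (k - j) * Et (e, tri H (ζ * e, p))) 0 := by
    have : Tendsto (fun e : ℂ => Et (e, tri H (ζ * e, p))) (𝓝 0) (𝓝 (Et (0, tri H (0, p)))) :=
      a6.continuousAt.tendsto.comp ta
    have h2 := ((continuous_pow (k - j)).tendsto (0 : ℂ)).mul this
    simpa [ContinuousAt] using h2
  have := lim (j := j) a5.hasStrictFDerivAt ta tb td tg ((sl p).eventually a1)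
    ((sl p).eventually a2)
  simpa using this

/-- the homogeneous equation with zero initial values has only the zero solution -/
theorem homog {E : ℂ × ℂ × ℂ × ℂ → ℂ} {x : ℂ} {H D : ℂ × ℂ × ℂ → ℂ} (hE : IsLawF E 0 x)
    (hH : Gauged E 0 x H) (hD : AnalyticAt ℂ D 0)
    (h0 : ∀ᶠ v in 𝓝 (0 : ℂ), D (0, 0, v) = 0) (h1 : ∀ᶠ v in 𝓝 (0 : ℂ), D (0, v, v) = 0)
    (h : ∀ᶠ p in 𝓝 (0 : ℂ × ℂ), fderiv ℂ E (0, tri H (0, p)) (0, tri D (0, p)) = 0) :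
    ∀ᶠ p in 𝓝 (0 : ℂ × ℂ), D (0, p) = 0 := by
  have hHan : AnalyticAt ℂ H 0 := hH.an
  have hx : H 0 = x := hH.g0.self_of_nhds
  have t0 : tri H 0 = (x, x, x) := by
    simp only [tri, Prod.fst_zero, Prod.snd_zero, sub_zero, add_zero]
    rw [← hx]; rfl
  have tT : Tendsto (tri H) (𝓝 0) (𝓝 (x, x, x)) := t0 ▸ (tri_cont hHan).self_of_nhds.tendsto
  have tB : Tendsto (fun p : ℂ × ℂ => (((0 : ℂ), tri H (0, p)) : ℂ × ℂ × ℂ × ℂ)) (𝓝 0)
      (𝓝 (0, x, x, x)) := tendsto_const_nhds.prodMk_nhds (tT.comp s0)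
  have hc : ContinuousAt (fun y => fderiv ℂ E y (0, 0, 0, 1)) (0, x, x, x) :=
    hE.an.fderiv.continuousAt.clm_apply continuousAt_const
  have hne := tB.eventually (hc.eventually_ne hE.nd)
  have key : ∀ n : ℕ, ∀ᶠ v in 𝓝 (0 : ℂ), D (0, (n : ℂ) * v, v) = 0 ∧
      D (0, ((n + 1 : ℕ) : ℂ) * v, v) = 0 := by
    intro n
    induction n with
    | zero =>
      filter_upwards [h0, h1] with v a b
      simpa using ⟨a, b⟩
    | succ n ih =>
      have tl : Tendsto (fun v : ℂ => ((((n + 1 : ℕ) : ℂ) * v, v) : ℂ × ℂ)) (𝓝 0) (𝓝 0) :=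
        (Continuous.prodMk (continuous_const.mul continuous_id) continuous_id).tendsto' 0 _
          (by simp)
      filter_upwards [ih, tl.eventually h, tl.eventually hne] with v a b c
      refine ⟨a.2, ?_⟩
      have e1 : ((n + 1 : ℕ) : ℂ) * v - v = (n : ℂ) * v := by push_cast; ring
      have e2 : ((n + 1 : ℕ) : ℂ) * v + v = ((n + 1 + 1 : ℕ) : ℂ) * v := by push_cast; ring
      have e3 : (((0 : ℂ), tri D (0, ((n + 1 : ℕ) : ℂ) * v, v)) : ℂ × ℂ × ℂ × ℂ) =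
          D (0, ((n + 1 + 1 : ℕ) : ℂ) * v, v) • (((0 : ℂ), (0 : ℂ), (0 : ℂ), (1 : ℂ))) := by
        simp only [tri, e1, e2, a.1, a.2, Prod.smul_mk, smul_eq_mul, mul_zero, mul_one]
      rw [e3, map_smul, smul_eq_mul] at b
      exact (mul_eq_zero.mp b).resolve_right c
  have han : AnalyticAt ℂ (fun p : ℂ × ℂ => D (0, p)) 0 :=
    AnalyticAt.comp_of_eq (g := D) (f := fun p : ℂ × ℂ => (((0 : ℂ), p) : ℂ × ℂ × ℂ)) hD
      (analyticAt_const.prod analyticAt_id) rfl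
  exact lines (fun p => D (0, p)) 0 han fun n _ => (key n).mono fun v hv => hv.1

end Lin

theorem lin : Spec_LIN := by
  intro E Et x ζ k H hk hE hH hEt hq
  have hHan : AnalyticAt ℂ H 0 := hH.an
  have main : ∀ j, j ≤ k → ∃ D : ℂ × ℂ × ℂ → ℂ, AnalyticAt ℂ D 0 ∧
      ∀ᶠ q in 𝓝 (0 : ℂ × ℂ × ℂ), H (ζ * q.1, q.2) - H q = q.1 ^ j * D q := by
    intro j
    induction j with
    | zero =>
      intro _
      refine ⟨fun q => H (ζ * q.1, q.2) - H q, ?_, Eventually.of_forall fun q => by simp⟩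
      refine AnalyticAt.sub ?_ hHan
      exact AnalyticAt.comp_of_eq (g := H)
        (f := fun q : ℂ × ℂ × ℂ => ((ζ * q.1, q.2) : ℂ × ℂ × ℂ)) hHan
        ((analyticAt_const.mul analyticAt_fst).prod analyticAt_snd) (by simp)
    | succ j ih =>
      intro hj
      obtain ⟨D, hD, hd⟩ := ih (by omega)
      have hlim := Lin.limit_eq (by omega : j ≤ k) hE.an hH hEt hq hD hd
      have hlim' : ∀ᶠ p in 𝓝 (0 : ℂ × ℂ),
          fderiv ℂ E (0, Lin.tri H (0, p)) (0, Lin.tri D (0, p)) = 0 := by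
        filter_upwards [hlim] with p hp
        rwa [zero_pow (by omega), zero_mul, add_zero] at hp
      have gauge : ∀ (l : ℂ → ℂ) (y : ℂ → ℂ), Continuous l → l 0 = 0 →
          (∀ᶠ q in 𝓝 ((0 : ℂ), (0 : ℂ)), H (q.1, l q.2, q.2) = y q.2) →
          ∀ᶠ v in 𝓝 (0 : ℂ), D (0, l v, v) = 0 := by
        intro l y hl hl0 hg
        have c1 : Continuous (fun q : ℂ × ℂ => ((q.1, l q.2, q.2) : ℂ × ℂ × ℂ)) := by fun_prop
        have t1 : Tendsto (fun q : ℂ × ℂ => ((q.1, l q.2, q.2) : ℂ × ℂ × ℂ)) (𝓝 (0, 0)) (𝓝 0) :=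
          c1.tendsto' _ _ (by simp [hl0])
        have c2 : Continuous (fun q : ℂ × ℂ => ((ζ * q.1, q.2) : ℂ × ℂ)) := by fun_prop
        have t2 : Tendsto (fun q : ℂ × ℂ => ((ζ * q.1, q.2) : ℂ × ℂ)) (𝓝 (0, 0)) (𝓝 (0, 0)) :=
          c2.tendsto' _ _ (by simp)
        have e1 : ∀ᶠ q in 𝓝 ((0 : ℂ), (0 : ℂ)), q.1 ^ j * D (q.1, l q.2, q.2) = 0 := by
          filter_upwards [hg, t2.eventually hg, t1.eventually hd] with q a b c
          have b' : H (ζ * q.1, l q.2, q.2) = y q.2 := b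
          have c' : H (ζ * q.1, l q.2, q.2) - H (q.1, l q.2, q.2) =
            q.1 ^ j * D (q.1, l q.2, q.2) := c
          rw [← c', a, b', sub_self]
        have t3 : Tendsto (fun v : ℂ => (((0 : ℂ), v) : ℂ × ℂ)) (𝓝 0) (𝓝 (0, 0)) :=
          (Continuous.prodMk continuous_const continuous_id).tendsto' 0 _ rfl
        filter_upwards [t3.eventually e1.eventually_nhds,
          t3.eventually (t1.eventually hD.eventually_analyticAt)] with v a b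
        have t4 : Tendsto (fun e : ℂ => ((e, v) : ℂ × ℂ)) (𝓝 0) (𝓝 (0, v)) :=
          (Continuous.prodMk continuous_id continuous_const).tendsto' 0 _ rfl
        exact Lin.cancel (f := fun e => D (e, l v, v)) (j := j)
          (b.continuousAt.tendsto.comp (Lin.sl (l v, v))) (t4.eventually a)
      have h0 := gauge (fun _ => 0) (fun _ => x) continuous_const rfl hH.g0
      have h1 := gauge id (fun v => x + v) continuous_id rfl hH.g1
      obtain ⟨D', hD', hd'⟩ := Lin.divide hD (Lin.homog hE hH hD h0 h1 hlim')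
      refine ⟨D', hD', ?_⟩
      filter_upwards [hd, hd'] with q a b
      rw [a, b]; ring
  obtain ⟨D, hD, hd⟩ := main k le_rfl
  refine ⟨fun p => D (0, p), AnalyticAt.comp_of_eq (g := D)
    (f := fun p : ℂ × ℂ => (((0 : ℂ), p) : ℂ × ℂ × ℂ)) hD
      (analyticAt_const.prod analyticAt_id) rfl, ?_⟩
  filter_upwards [Lin.limit_eq le_rfl hE.an hH hEt hq hD hd] with p hp
  rw [Nat.sub_self, pow_zero, one_mul] at hp
  exact hp

end Vale.Agent.P097A
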