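import Vale.Agent.P097A.Loc3

/-!
# P097A, LOC, part 4: the Euclidean case and the conclusion
-/

set_option linter.all false

noncomputable section

namespace Vale.Agent.P097A

namespace Loc

variable {K : Type} [Field K] [Algebra ℂ K] {Γ : Type} [LinearOrderedCommGroupWithZero Γ]
  {D : ValData K Γ} {α β : ℤ}

namespace Euc

/-- the reflected slope -/
def rf (α β : ℤ) (x : K) : K := io K (mm α β) ^ 2 / x

theorem mK (G : Good true α β) : io K (mm α β) ≠ 0 := io_ne_zero (mm_ne G).1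

theorem rf_inj (G : Good true α β) {x y : K} (hx : NC x) (hy : NC y) (h : x ≠ y) :
    rf α β x ≠ rf α β y := fun h' => by
  have := mK (K := K) G
  have := hx.ne0
  have := hy.ne0
  unfold rf at h'
  field_simp at h'
  exact h h'.symm

theorem nc_rf (G : Good true α β) {x : K} (h : NC x) : NC (rf α β x) := fun c hc => by
  have h0 := h.ne0
  have h1 := mK (K := K) G
  have hc0 : io K c ≠ 0 := by
    rw [← hc]; exact div_ne_zero (pow_ne_zero _ h1) h0
  refine h (mm α β ^ 2 / c) ?_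
  unfold rf at hc
  simp only [map_div₀, map_pow]
  field_simp at hc ⊢
  linear_combination -hc

theorem g_rf (x : K) : D.g (rf α β x) = rf α β (D.g x) := by
  rw [rf, rf, map_div₀, map_pow, AlgEquiv.commutes]

theorem lim_rf {x : K} {c : ℂ} (h : Lim D x c) (hc : c ≠ 0) :
    Lim D (rf α β x) (mm α β ^ 2 / c) := ((Lim.const (mm α β)).pow 2).div h hc

theorem lim_rf_m (G : Good true α β) {x : K} (h : Lim D x (mm α β)) :
    Lim D (rf α β x) (mm α β) := by
  have := (mm_ne G).1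
  exact (lim_rf h this).congr rfl (by field_simp)

theorem zero_rf {x : K} (h : 1 < D.v x) : Lim D (rf α β x) 0 :=
  (((Lim.const (mm α β)).pow 2).mul (lim_inv_of_big h)).congr (by rw [rf, div_eq_mul_inv]) (by simp)

theorem big_rf (G : Good true α β) {x : K} (hx : NC x) (h : Lim D x 0) : 1 < D.v (rf α β x) := by
  have m0 := (mm_ne G).1
  refine big_of_lim_inv (nc_rf G hx).ne0 ((h.div ((Lim.const (mm α β)).pow 2)
    (pow_ne_zero _ m0)).congr ?_ (by simp))
  rw [rf, inv_div]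

theorem neg (G : Good true α β) : mm α β + 1 ≠ 0 := by
  have ha : (α : ℂ) ≠ 0 := by exact_mod_cast G.a0
  have hp : ((α + β : ℤ) : ℂ) ≠ 0 := by exact_mod_cast (by simpa using G.par)
  intro h
  apply hp
  rw [mm] at h
  field_simp at h
  push_cast
  linear_combination h

theorem bb_ne (G : Good true α β) : bb α β + 2 / mm α β ≠ -bb α β := by
  obtain ⟨m0, m1⟩ := mm_ne G
  have m2 := neg G
  have m1' := sub_ne_zero.2 m1.symm
  intro h
  apply m2
  rw [bb] at h
  field_simp at h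
  linear_combination h

theorem fold_rf (G : Good true α β) {x y : K} (hx : NC x) (hy : NC y) (lx : Lim D x (mm α β))
    (ly : Lim D y (mm α β)) (p : PM D α β (rf α β x) (rf α β y)) :
    Lim D ((y - io K (mm α β)) / (x - io K (mm α β))) (-1) ∧
    Lim D (((x - io K (mm α β)) + (y - io K (mm α β))) / (x - io K (mm α β)) ^ 2)
      (bb α β + 2 / mm α β) := by
  have h0 := hx.sub_ne (mm α β)
  have m0 := (mm_ne G).1
  have mk := mK (K := K) G
  have x0 := hx.ne0
  have y0 := hy.ne0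
  have e : ∀ x : K, x ≠ 0 → rf α β x - io K (mm α β) = -(io K (mm α β) / x) * (x - io K (mm α β)) :=
    fun x hx => by unfold rf; field_simp; ring
  obtain ⟨-, -, p1, p2⟩ := p
  rw [e x x0, e y y0] at p1 p2
  have r : Lim D ((y - io K (mm α β)) / (x - io K (mm α β))) (-1) :=
    (p1.mul (ly.div lx m0)).congr (by field_simp) (by field_simp)
  refine ⟨r, ((p2.neg.mul (ly.div lx m0)).sub (((Lim.const 2).mul r).div (Lim.const _) m0)).congr
    ?_ (by field_simp; ring)⟩
  simp only [map_ofNat]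
  generalize io K (mm α β) = m at *
  field_simp
  ring

theorem fin_M (G : Good true α β) {x : K} (hx : NC x) (p : PM D α β x (D.g x)) :
    Fin1 D (kap α β (rf α β x)) 1 := by
  have h0 := hx.sub_ne (mm α β)
  have m0 := (mm_ne G).1
  have mk := mK (K := K) G
  have x0 := hx.ne0
  have y0 := (hx.g (D := D)).ne0
  refine fin1_fold G (lim_rf_m G p.1) (nc_rf G hx) ?_
  rw [g_rf]
  have e : ∀ x : K, x ≠ 0 → rf α β x - io K (mm α β) = -(io K (mm α β) / x) * (x - io K (mm α β)) :=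
    fun x hx => by unfold rf; field_simp; ring
  rw [e _ x0, e _ y0]
  exact (p.2.2.1.mul (p.1.div p.2.1 m0)).congr (by field_simp) (by field_simp)

theorem sq_ne (G : Good true α β) :
    mm α β ^ 2 / 1 ≠ 0 ∧ mm α β ^ 2 / 1 ≠ 1 ∧ mm α β ^ 2 / 1 ≠ mm α β := by
  obtain ⟨m0, m1⟩ := mm_ne G
  have m2 := neg G
  have m1' := sub_ne_zero.2 m1
  rw [div_one]
  refine ⟨pow_ne_zero _ m0, fun h => mul_ne_zero m1' m2 (by linear_combination h),
    fun h => mul_ne_zero m0 m1' (by linear_combination h)⟩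

theorem fin_1 (G : Good true α β) {x : K} (hx : NC x) (p : P1 D α β x (D.g x)) :
    ∃ ζ : ℂ, ζ ≠ 1 ∧ Fin1 D (kap α β (rf α β x)) ζ := by
  obtain ⟨p1, p2, ζ, -, a, -, p3⟩ := p
  obtain ⟨s0, s1, s2⟩ := sq_ne G
  have mk := mK (K := K) G
  have x0 := hx.ne0
  have y0 := (hx.g (D := D)).ne0
  have h0 := hx.sub_ne 1
  refine ⟨ζ, a, fin1_reg G.a0 s0 s1 s2 (lim_rf p1 one_ne_zero) (nc_rf G hx) ?_⟩
  rw [g_rf]
  have e : ∀ x : K, x ≠ 0 → rf α β x - io K (mm α β ^ 2 / 1) =
      -(io K (mm α β) ^ 2 / x) * (x - io K 1) :=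
    fun x hx => by simp only [rf, div_one, map_pow, map_one]; field_simp; ring
  rw [e _ x0, e _ y0]
  exact (p3.mul (p1.div p2 one_ne_zero)).congr (by field_simp) (by field_simp)

theorem ratio_rf (G : Good true α β) {x y : K} {ζ : ℂ} (hx : NC x) (hy : NC y) (hζ : ζ ≠ 0)
    (h : Lim D (y / x) ζ) : Lim D (rf α β y / rf α β x) ζ⁻¹ := by
  have mk := mK (K := K) G
  have x0 := hx.ne0
  have y0 := hy.ne0
  exact (h.inv hζ).congr (by unfold rf; field_simp) rfl

theorem B (G : Good true α β) (x : K) (h1 : D.g (kap α β x) = kap α β x)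
    (h2 : D.g (kap α β (rf α β x)) = kap α β (rf α β x)) : D.g x = x := by
  by_contra hm
  have hx := NC.of_moved hm
  have hy := hx.g (D := D)
  rw [g_kap] at h1
  rw [g_kap, g_rf] at h2
  have n1 := nc_rf G hx
  have n2 := nc_rf G hy
  have ne := rf_inj G hx hy (Ne.symm hm)
  rcases pair G hx hy (Ne.symm hm) (same_g x) h1.symm with p | p | p | p
  · have q := pair_m G n1 n2 ne (lim_rf_m G p.1) (lim_rf_m G p.2.1) h2.symm
    exact bb_ne G ((fold_rf G hx hy p.1 p.2.1 q).2.unique p.2.2.2)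
  · obtain ⟨-, -, ξ, -, -, b3, b4, -⟩ :=
      pair_big G n1 n2 ne (big_rf G hx p.1) (big_rf G hy p.2.1) h2.symm
    obtain ⟨-, -, ζ, a1, a2, a3, a4, -⟩ := p
    obtain rfl := (ratio_rf G hx hy a1 a4).unique b4
    rw [inv_zpow, inv_eq_one] at b3
    exact a2 (eq_one_of_cop a1 b3 a3 G.cop)
  · obtain ⟨s0, s1, s2⟩ := sq_ne G
    exact no_pair G n1 n2 ne (lim_rf p.1 one_ne_zero) (lim_rf p.2.1 one_ne_zero) h2.symm s0 s1 s2
  · obtain ⟨-, -, ξ, -, -, b3, b4, -⟩ :=
      pair_zero G n1 n2 ne (zero_rf p.1) (zero_rf p.2.1) h2.symm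
    obtain ⟨-, -, ζ, a1, a2, a3, a4, -⟩ := p
    obtain rfl := (ratio_rf G hx hy a1 a4).unique b4
    rw [inv_zpow, inv_eq_one] at b3
    exact a2 (eq_one_of_cop a1 a3 b3 G.cop)

/-- centres `0` and infinity -/
theorem cross (G : Good true α β) {x y : K} (hx : NC x) (hy : NC y)
    (hk : kap α β (rf α β x) = kap α β (rf α β y)) (p : P0 D α β x (D.g x))
    (q : PI D α β y (D.g y)) : False := by
  obtain ⟨p1, p2, ζ, a1, a2, a3, a4, -⟩ := p
  obtain ⟨q1, q2, ξ, b1, b2, b3, b4, -⟩ := q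
  have c1 := mult_big (α := α) (β := β) (big_rf G hx p1) (inv_ne_zero a1)
    (ratio_rf G hx hx.g a1 a4)
  have c2 := mult_zero (α := α) (β := β) (zero_rf q1) (zero_rf q2) (inv_ne_zero b1)
    (ratio_rf G hy hy.g b1 b4)
  rw [← g_rf, ← g_kap, hk] at c1
  rw [← g_rf, ← g_kap] at c2
  have c3 := c1.unique c2
  rw [inv_zpow', inv_zpow', neg_neg, neg_neg] at c3
  have c4 : ζ ^ α = 1 := by
    refine eq_one_of_cop (zpow_ne_zero _ a1) ?_ ?_ G.cop
    · rw [c3, ← zpow_mul, mul_comm, zpow_mul, b3, one_zpow]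
    · rw [← zpow_mul, mul_comm, zpow_mul, a3, one_zpow]
  exact a2 (eq_one_of_cop a1 c4 a3 G.cop)

theorem S (G : Good true α β) (x y : K) (hne : x ≠ y)
    (hk : kap α β (rf α β x) = kap α β (rf α β y)) (h1 : D.g (kap α β x) = kap α β x)
    (h2 : D.g (kap α β y) = kap α β y) : D.g (kap α β (rf α β x)) = kap α β (rf α β x) := by
  by_contra hm
  have mx : D.g x ≠ x := fun h => hm (by rw [g_kap, g_rf, h])
  have my : D.g y ≠ y := fun h => hm (by rw [hk, g_kap, g_rf, h])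
  have hx := NC.of_moved mx
  have hy := NC.of_moved my
  rw [g_kap] at h1 h2
  have n1 := nc_rf G hx
  have n2 := nc_rf G hy
  have ne := rf_inj G hx hy hne
  obtain ⟨m0, m1⟩ := mm_ne G
  have m2 := neg G
  have mk := mK (K := K) G
  have x0 := hx.ne0
  have y0 := hy.ne0
  have px := pair G hx hx.g (Ne.symm mx) (same_g x) h1.symm
  have py := pair G hy hy.g (Ne.symm my) (same_g y) h2.symm
  have f0 : ∀ {x : K}, NC x → P0 D α β x (D.g x) → D.v (kap α β (rf α β x)) ≠ 1 := fun hx p =>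
    v_kap_big G.a0 (big_rf G hx p.1)
  have fI : ∀ {x : K}, PI D α β x (D.g x) → D.v (kap α β (rf α β x)) ≠ 1 := fun p =>
    v_kap_zero G.b0 (zero_rf p.1)
  rcases px with p | p | p | p <;> rcases py with q | q | q | q
  · have r := fold_rf G hx hy p.1 q.1 (pair_m G n1 n2 ne (lim_rf_m G p.1) (lim_rf_m G q.1) hk)
    have e : ∀ x : K, D.g (x - io K (mm α β)) = D.g x - io K (mm α β) := fun x => by
      rw [map_sub, AlgEquiv.commutes]
    exact bb_ne G (fold_comm (D := D) (hx.sub_ne (mm α β)) (by rw [e]; exact p.2.2.2)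
      (by rw [e]; exact q.2.2.2) r.2 r.1 (by rw [e]; exact p.2.2.1))
  · exact f0 hy q (hk ▸ (fin_M G hx p).v)
  · obtain ⟨ζ, a, b⟩ := fin_1 G hy q
    exact a ((hk ▸ b).unique (fin_M G hx p))
  · exact fI q (hk ▸ (fin_M G hx p).v)
  · exact f0 hx p (hk ▸ (fin_M G hy q).v)
  · obtain ⟨-, -, ω, w0, w1, -, w2, w3⟩ :=
      pair_big G n1 n2 ne (big_rf G hx p.1) (big_rf G hy q.1) hk
    obtain ⟨-, -, ζ, a0, a1, -, p3, p4⟩ := p
    obtain ⟨-, -, ζ', -, -, -, q3, q4⟩ := q
    have w4 : Lim D (y / x) ω⁻¹ := (w2.inv w0).congr (by unfold rf; field_simp) rfl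
    obtain rfl := (mult_transfer x0 (inv_ne_zero w0) w4 p3).unique q3
    have w5 : Lim D (y⁻¹ - io K ω * x⁻¹)
        ((1 - mm α β) / mm α β ^ 2 - ω * ((1 - mm α β) / mm α β ^ 2)) :=
      (w3.div ((Lim.const (mm α β)).pow 2) (pow_ne_zero _ m0)).congr
        (by unfold rf; field_simp) (by ring)
    rw [← map_inv₀] at p4 q4
    have := rot_comm p4 q4 w5 (fun h => a1 (inv_eq_one.1 h)) w1
    field_simp at this
    exact mul_ne_zero (sub_ne_zero.2 m1) m2 (by linear_combination this)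
  · obtain ⟨ζ, -, b⟩ := fin_1 G hy q
    exact f0 hx p (hk ▸ b.v)
  · exact cross G hx hy hk p q
  · obtain ⟨ζ, a, b⟩ := fin_1 G hx p
    exact a (b.unique (hk ▸ fin_M G hy q))
  · obtain ⟨ζ, -, b⟩ := fin_1 G hx p
    exact f0 hy q (hk ▸ b.v)
  · obtain ⟨s0, s1, s2⟩ := sq_ne G
    exact no_pair G n1 n2 ne (lim_rf p.1 one_ne_zero) (lim_rf q.1 one_ne_zero) hk s0 s1 s2
  · obtain ⟨ζ, -, b⟩ := fin_1 G hx p
    exact fI q (hk ▸ b.v)
  · exact fI p (hk ▸ (fin_M G hy q).v)
  · exact cross G hy hx hk.symm q p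
  · obtain ⟨ζ, -, b⟩ := fin_1 G hy q
    exact fI p (hk ▸ b.v)
  · obtain ⟨-, -, ω, w0, w1, -, w2, w3⟩ := pair_zero G n1 n2 ne (zero_rf p.1) (zero_rf q.1) hk
    obtain ⟨p1, -, ξ, -, x1, -, p3, p4⟩ := p
    obtain ⟨-, -, ξ', -, -, -, q3, q4⟩ := q
    have w5 : Lim D (y - io K ω⁻¹ * x)
        (mm α β ^ 2 * (1 - (mm α β)⁻¹) - ω⁻¹ * (mm α β ^ 2 * (1 - (mm α β)⁻¹))) :=
      (((Lim.const (mm α β)).pow 2).mul w3).congr (by unfold rf; field_simp) (by ring)
    obtain rfl := (mult_transfer x0 (inv_ne_zero w0) (ratio_of_rot p1 w5) p3).unique q3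
    have := rot_comm p4 q4 w5 x1 (fun h => w1 (inv_eq_one.1 h))
    field_simp at this
    exact mul_ne_zero (sub_ne_zero.2 m1) m2 (by linear_combination -this)

end Euc

end Loc

open Loc in
theorem loc : Spec_LOC := by
  intro euc α β G K _ _ Γ _ D
  refine ⟨fun x hm hk => ?_, ?_⟩
  · have hx := NC.of_moved hm
    rw [g_kap] at hk
    rcases pair G hx hx.g (Ne.symm hm) (same_g x) hk.symm with p | p | p | p
    · exact Or.inr (Or.inr (Or.inr p.1))
    · exact Or.inr (Or.inl p.1)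
    · exact Or.inr (Or.inr (Or.inl p.1))
    · exact Or.inl p.1
  · cases euc
    · simp only [refl_false]
      exact ⟨Gal.B G, Gal.S G⟩
    · simp only [refl_true]
      exact ⟨Euc.B G, Euc.S G⟩

end Vale.Agent.P097A
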