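import Vale.Agent.P097A.Spec

/-!
# P097A: the slope function of a model is single valued (`Spec_MER`)
-/

set_option linter.all false

noncomputable section

namespace Vale.Agent.P097A

open Filter Topology Set Metric

namespace Mer

/-! ### Identity theorem and gluing -/

theorem idt0 {U : Set ℂ} (hU : IsPreconnected U) {f : ℂ → ℂ} (hf : MeromorphicOn f U) {x : ℂ}
    (hx : x ∈ U) (h : ∀ᶠ u in 𝓝[≠] x, f u = 0) : ∀ y ∈ U, ∀ᶠ u in 𝓝[≠] y, f u = 0 := by
  intro y hy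
  by_contra hne
  have h1 : meromorphicOrderAt f y ≠ ⊤ := fun h' => hne (meromorphicOrderAt_eq_top_iff.1 h')
  exact hf.meromorphicOrderAt_ne_top_of_isPreconnected hU hy hx h1
    (meromorphicOrderAt_eq_top_iff.2 h)

theorem idt {U : Set ℂ} (hU : IsPreconnected U) {f g : ℂ → ℂ} (hf : MeromorphicOn f U)
    (hg : MeromorphicOn g U) {x : ℂ} (hx : x ∈ U) (h : f =ᶠ[𝓝[≠] x] g) :
    ∀ y ∈ U, f =ᶠ[𝓝[≠] y] g := by
  intro y hy
  have := idt0 hU (hf.sub hg) hx (by filter_upwards [h] with u hu; simp [hu]) y hy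
  filter_upwards [this] with u hu
  simpa [sub_eq_zero] using hu

theorem dich {U : Set ℂ} (hU : IsPreconnected U) {f : ℂ → ℂ} (hf : MeromorphicOn f U) :
    (∀ y ∈ U, ∀ᶠ u in 𝓝[≠] y, f u = 0) ∨ (∀ y ∈ U, ∀ᶠ u in 𝓝[≠] y, f u ≠ 0) := by
  by_cases h : ∃ x ∈ U, ∀ᶠ u in 𝓝[≠] x, f u = 0
  · obtain ⟨x, hx, h⟩ := h
    exact Or.inl (idt0 hU hf hx h)
  · refine Or.inr fun y hy => ?_
    refine (meromorphicOrderAt_ne_top_iff_eventually_ne_zero (hf y hy)).1 fun h' => h ?_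
    exact ⟨y, hy, meromorphicOrderAt_eq_top_iff.1 h'⟩

theorem glue {ι : Type*} (C : ι → Set ℂ) (F : ι → ℂ → ℂ) (ho : ∀ i, IsOpen (C i))
    (hm : ∀ i, MeromorphicOn (F i) (C i))
    (hc : ∀ i j, ∀ t ∈ C i, t ∈ C j → F i =ᶠ[𝓝[≠] t] F j) :
    ∃ f : ℂ → ℂ, ∀ i, ∀ t ∈ C i, (ContinuousAt (F i) t → f t = F i t) ∧ f =ᶠ[𝓝[≠] t] F i := by
  classical
  let f : ℂ → ℂ := fun t => if h : ∃ i, t ∈ C i then limUnder (𝓝[≠] t) (F h.choose) else 0
  have h1 : ∀ i, ∀ t ∈ C i, ContinuousAt (F i) t → f t = F i t := by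
    intro i t ht hct
    have h : ∃ i, t ∈ C i := ⟨i, ht⟩
    simp only [f, dif_pos h]
    apply Tendsto.limUnder_eq
    exact (hct.tendsto.mono_left nhdsWithin_le_nhds).congr' (hc i _ t ht h.choose_spec)
  refine ⟨f, fun i t ht => ⟨h1 i t ht, ?_⟩⟩
  filter_upwards [(hm i t ht).eventually_analyticAt,
    nhdsWithin_le_nhds ((ho i).mem_nhds ht)] with u hu hu'
  exact h1 i u hu' hu.continuousAt

/-! ### The global continuation -/

/-- the half plane above the height `y` -/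
def H (y : ℝ) : Set ℂ := {t | y < t.im}

theorem H_open (y : ℝ) : IsOpen (H y) := isOpen_lt continuous_const Complex.continuous_im

theorem H_convex (y : ℝ) : Convex ℝ (H y) := convex_halfSpace_im_gt y

/-- `f` continues `φ` to the half plane `H y` -/
def Cont (φ : ℂ → ℂ) (R y : ℝ) (f : ℂ → ℂ) : Prop :=
  MeromorphicOn f (H y) ∧ ∀ t : ℂ, R < t.im → f =ᶠ[𝓝[≠] t] φ

variable {φ : ℂ → ℂ} {R : ℝ}

theorem lt_norm_of_re {t : ℂ} (h : R < t.re) : R < ‖t‖ := h.trans_le (Complex.re_le_norm t)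

theorem lt_norm_of_im {t : ℂ} (h : R < t.im) : R < ‖t‖ := h.trans_le (Complex.im_le_norm t)

theorem lt_norm_of_re' {t : ℂ} (h : t.re < -R) : R < ‖t‖ := by
  have := Complex.abs_re_le_norm t
  have := neg_abs_le t.re
  linarith

theorem lt_norm_of_im' {t : ℂ} (h : t.im < -R) : R < ‖t‖ := by
  have := Complex.abs_im_le_norm t
  have := neg_abs_le t.im
  linarith

theorem Cont.right (hφ : ∀ t : ℂ, R < ‖t‖ → AnalyticAt ℂ φ t) {y : ℝ} (hy : y ≤ R) {f : ℂ → ℂ}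
    (h : Cont φ R y f) : ∀ t ∈ H y, R < t.re → f =ᶠ[𝓝[≠] t] φ := by
  intro t ht ht'
  have hc : Convex ℝ (H y ∩ {t : ℂ | R < t.re}) := (H_convex y).inter (convex_halfSpace_re_gt R)
  refine idt hc.isPreconnected (h.1.mono_set inter_subset_left)
    (fun u hu => (hφ u (lt_norm_of_re hu.2)).meromorphicAt) (x := ⟨R + 1, R + 1⟩) ?_ ?_ t ⟨ht, ht'⟩
  · constructor
    · show y < R + 1
      linarith
    · show R < R + 1
      linarith
  · exact h.2 _ (by show R < R + 1; linarith)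

theorem Cont.left (hφ : ∀ t : ℂ, R < ‖t‖ → AnalyticAt ℂ φ t) {y : ℝ} (hy : y ≤ R) {f : ℂ → ℂ}
    (h : Cont φ R y f) : ∀ t ∈ H y, t.re < -R → f =ᶠ[𝓝[≠] t] φ := by
  intro t ht ht'
  have hc : Convex ℝ (H y ∩ {t : ℂ | t.re < -R}) := (H_convex y).inter (convex_halfSpace_re_lt _)
  refine idt hc.isPreconnected (h.1.mono_set inter_subset_left)
    (fun u hu => (hφ u (lt_norm_of_re' hu.2)).meromorphicAt) (x := ⟨-R - 1, R + 1⟩) ?_ ?_ t
    ⟨ht, ht'⟩
  · constructor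
    · show y < R + 1
      linarith
    · show -R - 1 < -R
      linarith
  · exact h.2 _ (by show R < R + 1; linarith)

theorem Cont.down (hφ : ∀ t : ℂ, R < ‖t‖ → AnalyticAt ℂ φ t) {y : ℝ} (hy : y ≤ R) {f : ℂ → ℂ}
    (h : Cont φ R y f) : ∀ t ∈ H y, t.im < -R → f =ᶠ[𝓝[≠] t] φ := by
  intro t ht ht'
  have hc : Convex ℝ (H y ∩ {t : ℂ | t.im < -R}) := (H_convex y).inter (convex_halfSpace_im_lt _)
  refine idt hc.isPreconnected (h.1.mono_set inter_subset_left)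
    (fun u hu => (hφ u (lt_norm_of_im' hu.2)).meromorphicAt) (x := ⟨R + 1, t.im⟩) ?_ ?_ t
    ⟨ht, ht'⟩
  · exact ⟨ht, ht'⟩
  · exact h.right hφ hy _ ht (by show R < R + 1; linarith)

theorem Cont.far (hφ : ∀ t : ℂ, R < ‖t‖ → AnalyticAt ℂ φ t) {y : ℝ} (hy : y ≤ R) {f : ℂ → ℂ}
    (h : Cont φ R y f) : ∀ t ∈ H y, 2 * R < ‖t‖ → f =ᶠ[𝓝[≠] t] φ := by
  intro t ht ht'
  by_cases h1 : R < t.re
  · exact h.right hφ hy t ht h1
  by_cases h2 : t.re < -R
  · exact h.left hφ hy t ht h2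
  by_cases h3 : R < t.im
  · exact h.2 t h3
  by_cases h4 : t.im < -R
  · exact h.down hφ hy t ht h4
  exfalso
  have := Complex.norm_le_abs_re_add_abs_im t
  have h5 : |t.re| ≤ R := abs_le.2 ⟨by linarith, by linarith⟩
  have h6 : |t.im| ≤ R := abs_le.2 ⟨by linarith, by linarith⟩
  linarith

theorem cont_closed {y : ℝ} (hy : y < R) (h : ∀ y', y < y' → y' ≤ R → ∃ f, Cont φ R y' f) :
    ∃ f, Cont φ R y f := by
  choose! F hF using h
  let ι := {y' : ℝ // y < y' ∧ y' ≤ R}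
  obtain ⟨f, hf⟩ := glue (ι := ι) (fun i => H i.1) (fun i => F i.1) (fun i => H_open _)
    (fun i => (hF i.1 i.2.1 i.2.2).1) (by
      intro i j t hi hj
      have hc : Convex ℝ (H i.1 ∩ H j.1) := (H_convex _).inter (H_convex _)
      refine idt hc.isPreconnected ((hF i.1 i.2.1 i.2.2).1.mono_set inter_subset_left)
        ((hF j.1 j.2.1 j.2.2).1.mono_set inter_subset_right) (x := ⟨0, R + 1⟩) ?_ ?_ t ⟨hi, hj⟩
      · constructor
        · show i.1 < R + 1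
          linarith [i.2.2]
        · show j.1 < R + 1
          linarith [j.2.2]
      · have : R < (⟨0, R + 1⟩ : ℂ).im := by show R < R + 1; linarith
        exact ((hF i.1 i.2.1 i.2.2).2 _ this).trans ((hF j.1 j.2.1 j.2.2).2 _ this).symm)
  refine ⟨f, fun t ht => ?_, fun t ht => ?_⟩
  · have ht' : y < t.im := ht
    let i : ι := ⟨min R ((y + t.im) / 2), lt_min hy (by linarith), min_le_left _ _⟩
    have hi : t ∈ H i.1 :=
      (min_le_right R _).trans_lt (show (y + t.im) / 2 < t.im by linarith)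
    exact ((hF i.1 i.2.1 i.2.2).1 t hi).congr (hf i t hi).2.symm
  · let i : ι := ⟨R, hy, le_rfl⟩
    exact (hf i t ht).2.trans ((hF i.1 i.2.1 i.2.2).2 t ht)

/-- a chart for the continuation of `f` across the line at height `y` -/
structure Chart (f : ℂ → ℂ) (y : ℝ) (C : Set ℂ) (F : ℂ → ℂ) : Prop where
  op : IsOpen C
  cv : Convex ℝ C
  mer : MeromorphicOn F C
  ag : ∀ t ∈ C, t ∈ H y → f =ᶠ[𝓝[≠] t] F
  pr : ∀ u ∈ C, u ∈ H y ∨ (⟨u.re, y⟩ : ℂ) ∈ C

theorem above {C : Set ℂ} (hC : IsOpen C) {x y : ℝ} (h : (⟨x, y⟩ : ℂ) ∈ C) :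
    ∃ w ∈ C, w ∈ H y := by
  obtain ⟨ε, hε, hb⟩ := Metric.isOpen_iff.1 hC _ h
  refine ⟨⟨x, y + ε / 2⟩, hb ?_, ?_⟩
  · rw [mem_ball, dist_eq_norm]
    have : (⟨x, y + ε / 2⟩ : ℂ) - ⟨x, y⟩ = ((ε / 2 : ℝ) : ℂ) * Complex.I := by
      apply Complex.ext <;> simp
    rw [this, norm_mul, Complex.norm_I, Complex.norm_real, Real.norm_eq_abs, abs_of_pos (by linarith)]
    linarith
  · show y < y + ε / 2
    linarith

theorem Chart.compat {f : ℂ → ℂ} {y : ℝ} {C C' : Set ℂ} {F F' : ℂ → ℂ} (h : Chart f y C F)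
    (h' : Chart f y C' F') : ∀ t ∈ C, t ∈ C' → F =ᶠ[𝓝[≠] t] F' := by
  intro t ht ht'
  by_cases hH : t ∈ H y
  · exact (h.ag t ht hH).symm.trans (h'.ag t ht' hH)
  · obtain ⟨w, hw, hwH⟩ := above (h.op.inter h'.op)
      (⟨(h.pr t ht).resolve_left hH, (h'.pr t ht').resolve_left hH⟩ : (⟨t.re, y⟩ : ℂ) ∈ C ∩ C')
    exact idt (h.cv.inter h'.cv).isPreconnected (h.mer.mono_set inter_subset_left)
      (h'.mer.mono_set inter_subset_right) hw ((h.ag w hw.1 hwH).symm.trans (h'.ag w hw.2 hwH)) t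
      ⟨ht, ht'⟩

theorem cont_step (hφ : ∀ t : ℂ, R < ‖t‖ → AnalyticAt ℂ φ t) {y : ℝ} (hy : y ≤ R) {f : ℂ → ℂ}
    (h : Cont φ R y f)
    (hloc : ∀ t₀ : ℂ, t₀.im = y → ∃ F : ℂ → ℂ, MeromorphicAt F t₀ ∧
      ∀ᶠ t in 𝓝[H y] t₀, f =ᶠ[𝓝[≠] t] F) :
    ∃ δ > 0, ∃ f', Cont φ R (y - δ) f' := by
  let ι := {p : Set ℂ × (ℂ → ℂ) // Chart f y p.1 p.2}
  obtain ⟨f', hf'⟩ := glue (ι := ι) (fun i => i.1.1) (fun i => i.1.2) (fun i => i.2.op)
    (fun i => i.2.mer) (fun i j => i.2.compat j.2)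
  have hW : IsOpen (⋃ i : ι, i.1.1) := isOpen_iUnion fun i => i.2.op
  have c0 : Chart f y (H y) f :=
    ⟨H_open y, H_convex y, h.1, fun _ _ _ => EventuallyEq.rfl, fun u hu => Or.inl hu⟩
  have c1 : Chart f y {t : ℂ | R < t.re} φ :=
    ⟨isOpen_lt continuous_const Complex.continuous_re, convex_halfSpace_re_gt R,
      fun u hu => (hφ u (lt_norm_of_re hu)).meromorphicAt, fun t ht ht' => h.right hφ hy t ht' ht,
      fun u hu => Or.inr hu⟩
  have c2 : Chart f y {t : ℂ | t.re < -R} φ :=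
    ⟨isOpen_lt Complex.continuous_re continuous_const, convex_halfSpace_re_lt _,
      fun u hu => (hφ u (lt_norm_of_re' hu)).meromorphicAt, fun t ht ht' => h.left hφ hy t ht' ht,
      fun u hu => Or.inr hu⟩
  have c3 : ∀ t₀ : ℂ, t₀.im = y → t₀ ∈ ⋃ i : ι, i.1.1 := by
    intro t₀ ht₀
    obtain ⟨F, hF, hag⟩ := hloc t₀ ht₀
    have h1 : ∀ᶠ t in 𝓝 t₀, MeromorphicAt F t := by
      have := eventually_nhdsWithin_iff.1 hF.eventually_analyticAt
      filter_upwards [this] with t ht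
      by_cases htt : t = t₀
      · exact htt ▸ hF
      · exact (ht htt).meromorphicAt
    obtain ⟨ε, hε, hb⟩ := Metric.eventually_nhds_iff_ball.1 (h1.and (eventually_nhdsWithin_iff.1 hag))
    have c : Chart f y (ball t₀ ε) F := by
      refine ⟨isOpen_ball, convex_ball _ _, fun t ht => (hb t ht).1, fun t ht => (hb t ht).2,
        fun u hu => Or.inr ?_⟩
      rw [mem_ball, dist_eq_norm] at hu ⊢
      refine lt_of_le_of_lt ?_ hu
      have : (⟨u.re, y⟩ : ℂ) - t₀ = (((u - t₀).re : ℝ) : ℂ) := by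
        apply Complex.ext <;> simp [ht₀]
      rw [this, Complex.norm_real, Real.norm_eq_abs]
      exact Complex.abs_re_le_norm _
    exact mem_iUnion.2 ⟨⟨(_, _), c⟩, mem_ball_self hε⟩
  have hK : IsCompact ((fun x : ℝ => (⟨x, y⟩ : ℂ)) '' Icc (-R) R) := by
    refine isCompact_Icc.image ?_
    have : (fun x : ℝ => (⟨x, y⟩ : ℂ)) = fun x : ℝ => (x : ℂ) + y * Complex.I := by
      funext x
      apply Complex.ext <;> simp
    rw [this]
    fun_prop
  obtain ⟨δ, hδ, hth⟩ := hK.exists_thickening_subset_open hW (by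
    rintro _ ⟨x, -, rfl⟩
    exact c3 _ rfl)
  refine ⟨δ, hδ, f', fun t ht => ?_, fun t ht => ?_⟩
  · have hmem : t ∈ ⋃ i : ι, i.1.1 := by
      by_cases h0 : t ∈ H y
      · exact mem_iUnion.2 ⟨⟨(_, _), c0⟩, h0⟩
      by_cases h1 : R < t.re
      · exact mem_iUnion.2 ⟨⟨(_, _), c1⟩, h1⟩
      by_cases h2 : t.re < -R
      · exact mem_iUnion.2 ⟨⟨(_, _), c2⟩, h2⟩
      apply hth
      rw [mem_thickening_iff]
      refine ⟨⟨t.re, y⟩, ⟨t.re, ⟨not_lt.1 h2, not_lt.1 h1⟩, rfl⟩, ?_⟩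
      have ht' : y - δ < t.im := ht
      have h0' : t.im ≤ y := not_lt.1 h0
      have : t - (⟨t.re, y⟩ : ℂ) = ((t.im - y : ℝ) : ℂ) * Complex.I := by
        apply Complex.ext <;> simp
      rw [dist_eq_norm, this, norm_mul, Complex.norm_I, Complex.norm_real, Real.norm_eq_abs,
        abs_of_nonpos (by linarith)]
      linarith
    obtain ⟨i, hi⟩ := mem_iUnion.1 hmem
    exact (i.2.mer t hi).congr (hf' i t hi).2.symm
  · exact (hf' ⟨(_, _), c0⟩ t (hy.trans_lt ht)).2.trans (h.2 t ht)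

theorem global (hR : 0 < R) (hφ : ∀ t : ℂ, R < ‖t‖ → AnalyticAt ℂ φ t)
    (hloc : ∀ y ≤ R, ∀ f, Cont φ R y f → ∀ t₀ : ℂ, t₀.im = y → ∃ F : ℂ → ℂ, MeromorphicAt F t₀ ∧
      ∀ᶠ t in 𝓝[H y] t₀, f =ᶠ[𝓝[≠] t] F) :
    ∃ ψ : ℂ → ℂ, MeromorphicOn ψ univ ∧ ∀ t : ℂ, 2 * R < ‖t‖ → ψ t = φ t := by
  have hmono : ∀ y y' f, y ≤ y' → Cont φ R y f → Cont φ R y' f := fun y y' f hy h =>
    ⟨h.1.mono_set fun t ht => hy.trans_lt ht, h.2⟩
  have h0 : Cont φ R R φ :=
    ⟨fun t ht => (hφ t (lt_norm_of_im ht)).meromorphicAt, fun _ _ => EventuallyEq.rfl⟩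
  have hall : ∀ y ≤ R, ∃ f, Cont φ R y f := by
    intro y₁ hy₁
    by_contra hne
    let S : Set ℝ := {y | y ≤ R ∧ ∃ f, Cont φ R y f}
    have hS : S.Nonempty := ⟨R, le_rfl, φ, h0⟩
    have hb : y₁ ∈ lowerBounds S := by
      rintro y ⟨-, f, hf⟩
      by_contra hlt
      exact hne ⟨f, hmono _ _ _ (not_le.1 hlt).le hf⟩
    have hbd : BddBelow S := ⟨y₁, hb⟩
    have hle : sInf S ≤ R := csInf_le hbd ⟨le_rfl, φ, h0⟩
    have hin : ∃ f, Cont φ R (sInf S) f := by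
      rcases hle.eq_or_lt with h | h
      · exact ⟨φ, h ▸ h0⟩
      · refine cont_closed h fun y' hy' _ => ?_
        obtain ⟨y, ⟨-, f, hf⟩, hy⟩ := exists_lt_of_csInf_lt hS hy'
        exact ⟨f, hmono _ _ _ hy.le hf⟩
    obtain ⟨f, hf⟩ := hin
    obtain ⟨δ, hδ, f', hf'⟩ := cont_step hφ hle hf (hloc _ hle f hf)
    have : sInf S ≤ sInf S - δ := csInf_le hbd ⟨by linarith, f', hf'⟩
    linarith
  have hy : -(2 * R) - 1 ≤ R := by linarith
  obtain ⟨f, hf⟩ := hall _ hy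
  have hop : IsOpen {t : ℂ | 2 * R < ‖t‖} := isOpen_lt continuous_const continuous_norm
  have hφ' : MeromorphicOn φ {t : ℂ | 2 * R < ‖t‖} := fun t ht =>
    (hφ t (by have : 2 * R < ‖t‖ := ht; linarith)).meromorphicAt
  obtain ⟨ψ, hψ⟩ := glue (ι := Bool) (fun b => cond b (H (-(2 * R) - 1)) {t : ℂ | 2 * R < ‖t‖})
    (fun b => cond b f φ) (by rintro (_ | _); exacts [hop, H_open _])
    (by rintro (_ | _); exacts [hφ', hf.1]) (by
      rintro (_ | _) (_ | _) t h1 h2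
      · exact EventuallyEq.rfl
      · exact (hf.far hφ hy t h2 h1).symm
      · exact hf.far hφ hy t h1 h2
      · exact EventuallyEq.rfl)
  refine ⟨ψ, fun t _ => ?_, fun t ht => ?_⟩
  · by_cases h : t ∈ H (-(2 * R) - 1)
    · exact (hf.1 t h).congr (hψ true t h).2.symm
    · have h' : t.im ≤ -(2 * R) - 1 := not_lt.1 h
      have h'' : 2 * R < ‖t‖ := lt_norm_of_im' (by linarith)
      exact (hφ' t h'').congr (hψ false t h'').2.symm
  · exact (hψ false t ht).1 (hφ t (by linarith)).continuousAt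

/-! ### Germs at the origin from the upper half plane -/

/-- small points of the upper half plane -/
def L : Filter ℂ := 𝓝[H 0] 0

/-- punctured neighbourhoods of small points of the upper half plane -/
def L' : Filter ℂ := L.bind fun s => 𝓝[≠] s

theorem ev_L' {p : ℂ → Prop} : (∀ᶠ s in L', p s) ↔ ∀ᶠ s in L, ∀ᶠ u in 𝓝[≠] s, p u :=
  eventually_bind

theorem L'_le : L' ≤ L := by
  intro U hU
  have h : ∀ᶠ s in L, ∀ᶠ u in 𝓝 s, u ∈ U :=
    (eventually_nhdsWithin_eventually_nhds_iff_of_isOpen (H_open 0)).2 hU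
  exact ev_L'.2 (h.mono fun s hs => nhdsWithin_le_nhds hs)

instance L_neBot : NeBot L := by
  apply mem_closure_iff_nhdsWithin_neBot.1
  rw [_root_.mem_closure_iff]
  intro C hC h
  obtain ⟨w, hw, hw'⟩ := above hC (x := 0) (y := 0) h
  exact ⟨w, hw, hw'⟩

instance L'_neBot : NeBot L' := by
  refine ⟨fun h => ?_⟩
  have h1 : ∀ᶠ s in L', False := by rw [h]; exact eventually_bot
  obtain ⟨s, hs⟩ := (ev_L'.1 h1).exists
  exact hs.exists.elim fun _ h => h

theorem mem_L : ∀ᶠ s in L, s ∈ H 0 := self_mem_nhdsWithin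

theorem ne_L : ∀ᶠ s in L, s ≠ 0 := mem_L.mono fun s hs h => by
  have : (0 : ℝ) < s.im := hs
  simp [h] at this

theorem ev_add (c s : ℂ) {p : ℂ → Prop} :
    (∀ᶠ u in 𝓝[≠] s, p (c + u)) ↔ ∀ᶠ u in 𝓝[≠] (c + s), p u := by
  have := (Homeomorph.addLeft c).map_punctured_nhds_eq s
  simp only [Homeomorph.coe_addLeft] at this
  rw [← this, eventually_map]

theorem L'_of_all (j : ℤ) {p : ℂ → Prop} (h : ∀ t ∈ H 0, ∀ᶠ u in 𝓝[≠] t, p u) :
    ∀ᶠ s in L', p (j + s) := by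
  refine ev_L'.2 (mem_L.mono fun s hs => (ev_add _ _).2 (h _ ?_))
  have : (0 : ℝ) < s.im := hs
  show (0 : ℝ) < ((j : ℂ) + s).im
  simpa using this

theorem zero_L' (j : ℤ) {G : ℂ → ℂ} (hG : MeromorphicOn G (H 0)) :
    (∀ᶠ s in L', G (j + s) = 0) ↔ ∀ t ∈ H 0, ∀ᶠ u in 𝓝[≠] t, G u = 0 := by
  refine ⟨fun h => ?_, fun h => L'_of_all j (p := fun u => G u = 0) h⟩
  obtain ⟨s, hs, hs'⟩ := (mem_L.and (ev_L'.1 h)).exists
  refine idt0 (H_convex 0).isPreconnected hG (x := j + s) ?_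
    ((ev_add _ _ (p := fun u => G u = 0)).1 hs')
  have : (0 : ℝ) < s.im := hs
  show (0 : ℝ) < ((j : ℂ) + s).im
  simpa using this

theorem dich_L' {g : ℂ → ℂ} (hg : ∀ᶠ s in L, MeromorphicAt g s) :
    (∀ᶠ s in L', g s = 0) ∨ ∀ᶠ s in L', g s ≠ 0 := by
  obtain ⟨ε, hε, hb⟩ := Metric.eventually_nhds_iff_ball.1 (eventually_nhdsWithin_iff.1 hg)
  have hU : ∀ᶠ s in L, s ∈ ball (0 : ℂ) ε ∩ H 0 :=
    Eventually.and (nhdsWithin_le_nhds (ball_mem_nhds _ hε)) mem_L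
  rcases dich ((convex_ball (0 : ℂ) ε).inter (H_convex 0)).isPreconnected
    (f := g) (fun s hs => hb s hs.1 hs.2) with h | h
  · exact Or.inl (ev_L'.2 (hU.mono h))
  · exact Or.inr (ev_L'.2 (hU.mono h))

/-- the branch of `s ^ (1 / e)` -/
def ρ (e : ℕ) (s : ℂ) : ℂ := Complex.exp (Complex.log s / e)

theorem ρ_pow {e d : ℕ} (hd : 0 < d) (s : ℂ) : ρ (e * d) s ^ d = ρ e s := by
  unfold ρ
  rw [← Complex.exp_nat_mul]
  congr 1
  have : (d : ℂ) ≠ 0 := by exact_mod_cast hd.ne'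
  by_cases he : (e : ℂ) = 0
  · simp [he]
  · push_cast
    field_simp

theorem ρ_one {s : ℂ} (hs : s ≠ 0) : ρ 1 s = s := by
  simp [ρ, Complex.exp_log hs]

theorem ρ_tendsto {e : ℕ} (he : 0 < e) : Tendsto (ρ e) L (𝓝[≠] 0) := by
  refine tendsto_nhdsWithin_iff.2 ⟨?_, Eventually.of_forall fun s => Complex.exp_ne_zero _⟩
  apply Complex.tendsto_exp_nhds_zero_iff.2
  have h1 : Tendsto (fun s : ℂ => ‖s‖) L (𝓝[>] 0) := by
    refine tendsto_nhdsWithin_iff.2 ⟨?_, ne_L.mono fun s hs => norm_pos_iff.2 hs⟩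
    have : Tendsto (fun s : ℂ => ‖s‖) (𝓝 0) (𝓝 ‖(0 : ℂ)‖) := continuous_norm.tendsto _
    rw [norm_zero] at this
    exact this.mono_left nhdsWithin_le_nhds
  have h2 := (Real.tendsto_log_nhdsGT_zero.comp h1).atBot_div_const
    (show (0 : ℝ) < e by exact_mod_cast he)
  refine h2.congr fun s => ?_
  simp [Complex.log_re]

theorem ρ_an (e : ℕ) {s : ℂ} (hs : s ∈ H 0) : AnalyticAt ℂ (ρ e) s := by
  have h : s ∈ Complex.slitPlane := Or.inr (ne_of_gt hs)
  unfold ρ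
  exact ((analyticAt_clog h).div_const).cexp

theorem comp_ρ_an {e : ℕ} (he : 0 < e) {F : ℂ → ℂ} (hF : MeromorphicAt F 0) :
    ∀ᶠ s in L, AnalyticAt ℂ (fun s => F (ρ e s)) s := by
  filter_upwards [(ρ_tendsto he).eventually hF.eventually_analyticAt, mem_L] with s h1 h2
  exact h1.comp (ρ_an e h2)

theorem mer_pow {F : ℂ → ℂ} (hF : MeromorphicAt F 0) {d : ℕ} (hd : 0 < d) :
    MeromorphicAt (fun τ => F (τ ^ d)) 0 := by
  have h : MeromorphicAt F ((fun τ : ℂ => τ ^ d) 0) := by simpa [hd.ne'] using hF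
  exact h.comp_analyticAt (g := fun τ : ℂ => τ ^ d) (by fun_prop)

/-! ### The embedding of the Puiseux field in the ring of germs -/

section emb

variable {K : Type} [Field K] [Algebra ℂ K] {Γ : Type} [LinearOrderedCommGroupWithZero Γ]
  (D : PuiData K Γ)

theorem pm_wd {e e' : ℕ} {F F' : ℂ → ℂ} (he : 0 < e) (he' : 0 < e') (hF : MeromorphicAt F 0)
    (hF' : MeromorphicAt F' 0) (h : D.pm e F = D.pm e' F') :
    (fun s => F (ρ e s)) =ᶠ[L'] fun s => F' (ρ e' s) := by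
  rw [← D.pm_pow e e' F he he' hF, ← D.pm_pow e' e F' he' he hF', mul_comm e' e,
    D.pm_inj _ _ _ (mul_pos he he') (mer_pow hF he') (mer_pow hF' he)] at h
  have := ((ρ_tendsto (mul_pos he he')).mono_left L'_le).eventually h
  filter_upwards [this] with s hs
  rw [ρ_pow he'] at hs
  rw [hs, mul_comm e e', ρ_pow he]

theorem common (x y : K) : ∃ (e : ℕ) (F G : ℂ → ℂ), 0 < e ∧ MeromorphicAt F 0 ∧
    MeromorphicAt G 0 ∧ x = D.pm e F ∧ y = D.pm e G := by
  obtain ⟨e, F, he, hF, rfl⟩ := D.surj x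
  obtain ⟨e', G, he', hG, rfl⟩ := D.surj y
  refine ⟨e * e', _, _, mul_pos he he', mer_pow hF he', mer_pow hG he,
    (D.pm_pow e e' F he he' hF).symm, ?_⟩
  rw [mul_comm, D.pm_pow e' e G he' he hG]

/-- a function representing `x` -/
def rep (x : K) : ℂ → ℂ := fun s => (D.surj x).choose_spec.choose (ρ (D.surj x).choose s)

theorem rep_pm {e : ℕ} {F : ℂ → ℂ} (he : 0 < e) (hF : MeromorphicAt F 0) :
    (rep D (D.pm e F) : Germ L' ℂ) = (fun s => F (ρ e s) : ℂ → ℂ) := by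
  have h := (D.surj (D.pm e F)).choose_spec.choose_spec
  exact Germ.coe_eq.2 (pm_wd D h.1 he h.2.1 hF h.2.2.symm)

theorem rep_const (c : ℂ) :
    (rep D (algebraMap ℂ K c) : Germ L' ℂ) = (fun _ => c : ℂ → ℂ) := by
  rw [← D.pm_const 1 c one_pos, rep_pm D one_pos (MeromorphicAt.const c 0)]

/-- the embedding -/
def ι : K →+* Germ L' ℂ where
  toFun x := (rep D x : Germ L' ℂ)
  map_one' := by
    rw [← map_one (algebraMap ℂ K), rep_const]
    rfl
  map_zero' := by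
    rw [← map_zero (algebraMap ℂ K), rep_const]
    rfl
  map_mul' x y := by
    obtain ⟨e, F, G, he, hF, hG, rfl, rfl⟩ := common D x y
    rw [← D.pm_mul e F G he hF hG, rep_pm D he hF, rep_pm D he hG, rep_pm D he (hF.mul hG)]
    rfl
  map_add' x y := by
    obtain ⟨e, F, G, he, hF, hG, rfl, rfl⟩ := common D x y
    rw [← D.pm_add e F G he hF hG, rep_pm D he hF, rep_pm D he hG, rep_pm D he (hF.add hG)]
    rfl

/-- `x` is represented by `g` -/
def Rep (x : K) (g : ℂ → ℂ) : Prop := ι D x = (g : Germ L' ℂ)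

variable {D}

theorem Rep.pm {e : ℕ} {F : ℂ → ℂ} (he : 0 < e) (hF : MeromorphicAt F 0) :
    Rep D (D.pm e F) fun s => F (ρ e s) := rep_pm D he hF

theorem Rep.const (c : ℂ) : Rep D (algebraMap ℂ K c) fun _ => c := rep_const D c

theorem Rep.congr {x : K} {g h : ℂ → ℂ} (hx : Rep D x g) (e : g =ᶠ[L'] h) : Rep D x h :=
  Eq.trans hx (Germ.coe_eq.2 e)

theorem Rep.pm_one {F : ℂ → ℂ} (hF : MeromorphicAt F 0) : Rep D (D.pm 1 F) F :=
  (Rep.pm one_pos hF).congr ((ne_L.filter_mono L'_le).mono fun s hs => by simp only [ρ_one hs])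

theorem Rep.eq_iff {x y : K} {g h : ℂ → ℂ} (hx : Rep D x g) (hy : Rep D y h) :
    x = y ↔ g =ᶠ[L'] h := by
  rw [← (ι D).injective.eq_iff, hx, hy, Germ.coe_eq]

theorem Rep.add {x y : K} {g h : ℂ → ℂ} (hx : Rep D x g) (hy : Rep D y h) :
    Rep D (x + y) fun s => g s + h s := by
  unfold Rep
  rw [map_add, hx, hy]
  rfl

theorem Rep.sub {x y : K} {g h : ℂ → ℂ} (hx : Rep D x g) (hy : Rep D y h) :
    Rep D (x - y) fun s => g s - h s := by
  unfold Rep
  rw [map_sub, hx, hy]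
  rfl

theorem Rep.mul {x y : K} {g h : ℂ → ℂ} (hx : Rep D x g) (hy : Rep D y h) :
    Rep D (x * y) fun s => g s * h s := by
  unfold Rep
  rw [map_mul, hx, hy]
  rfl

theorem Rep.one : Rep D 1 fun _ => 1 := by simpa using Rep.const (D := D) 1

theorem Rep.zero : Rep D 0 fun _ => 0 := by simpa using Rep.const (D := D) 0

theorem Rep.ex (x : K) : ∃ g, Rep D x g ∧ ∀ᶠ s in L, AnalyticAt ℂ g s := by
  obtain ⟨e, F, he, hF, rfl⟩ := D.surj x
  exact ⟨_, Rep.pm he hF, comp_ρ_an he hF⟩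

theorem Rep.inv {x : K} {g : ℂ → ℂ} (hx : Rep D x g) : Rep D x⁻¹ fun s => (g s)⁻¹ := by
  by_cases h0 : x = 0
  · subst h0
    rw [inv_zero]
    refine Rep.zero.congr ?_
    filter_upwards [(hx.eq_iff Rep.zero).1 rfl] with s hs
    simp [hs]
  · obtain ⟨h, hh, -⟩ := Rep.ex (D := D) x⁻¹
    refine hh.congr ?_
    filter_upwards [((hx.mul hh).eq_iff Rep.one).1 (mul_inv_cancel₀ h0)] with s hs
    exact eq_inv_of_mul_eq_one_right hs

theorem Rep.div {x y : K} {g h : ℂ → ℂ} (hx : Rep D x g) (hy : Rep D y h) :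
    Rep D (x / y) fun s => g s / h s := by
  simpa only [div_eq_mul_inv] using hx.mul hy.inv

theorem Rep.pow {x : K} {g : ℂ → ℂ} (hx : Rep D x g) (n : ℕ) : Rep D (x ^ n) fun s => g s ^ n := by
  induction n with
  | zero => simpa using Rep.one
  | succ n ih => simpa only [pow_succ] using ih.mul hx

theorem Rep.zpow {x : K} {g : ℂ → ℂ} (hx : Rep D x g) (n : ℤ) : Rep D (x ^ n) fun s => g s ^ n := by
  cases n with
  | ofNat n => simpa using hx.pow n
  | negSucc n => simpa only [zpow_negSucc] using (hx.pow (n + 1)).inv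

theorem Rep.int (n : ℤ) : Rep D (n : K) fun _ => (n : ℂ) := by
  simpa using Rep.const (D := D) (n : ℂ)

theorem Rep.kap {x : K} {g : ℂ → ℂ} (hx : Rep D x g) (α β : ℤ) :
    Rep D (kap α β x) fun s => kap α β (g s) :=
  ((Rep.one.sub hx).zpow _).mul (hx.zpow _)

theorem Rep.refl {x : K} {g : ℂ → ℂ} (hx : Rep D x g) (euc : Bool) (α β : ℤ) :
    Rep D (refl euc α β x) fun s => refl euc α β (g s) := by
  cases euc
  · have h2 : Rep D (2 : K) fun _ => (2 : ℂ) := by simpa using Rep.int (D := D) 2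
    exact (h2.mul ((Rep.int β).div (Rep.int α))).sub hx
  · exact (((Rep.int β).div (Rep.int α)).pow 2).div hx

theorem Rep.aeval {a : ℤ → K} {g : ℤ → ℂ → ℂ} (h : ∀ j, Rep D (a j) (g j))
    (P : MvPolynomial ℤ ℂ) :
    Rep D (MvPolynomial.aeval a P) fun s => MvPolynomial.eval (fun j => g j s) P := by
  induction P using MvPolynomial.induction_on with
  | C c => simpa using Rep.const c
  | add P Q hP hQ => simpa using hP.add hQ
  | mul_X P j hP => simpa using hP.mul (h j)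

end emb

/-! ### Picking a root -/

theorem refl_refl {K : Type*} [Field K] [CharZero K] {euc : Bool} {α β : ℤ} (ha : α ≠ 0)
    (hb : β ≠ 0) (x : K) : refl euc α β (refl euc α β x) = x := by
  have ha' : (α : K) ≠ 0 := by exact_mod_cast ha
  have hb' : (β : K) ≠ 0 := by exact_mod_cast hb
  cases euc
  · simp [refl]
  · simp only [refl, if_true]
    by_cases hx : x = 0
    · simp [hx]
    · field_simp

theorem zpow_mul_toNat {K : Type*} [Field K] {x : K} (hx : x ≠ 0) (n : ℤ) :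
    x ^ n * x ^ (-n).toNat = x ^ n.toNat := by
  rw [← zpow_natCast, ← zpow_natCast, ← zpow_add₀ hx]
  congr 1
  omega

theorem kap_mul {K : Type*} [Field K] (α β : ℤ) {x : K} (h0 : x ≠ 0) (h1 : x ≠ 1) :
    (1 - x) ^ (β - α).toNat * x ^ (-β).toNat -
      kap α β x * ((1 - x) ^ (-(β - α)).toNat * x ^ (-(-β)).toNat) = 0 := by
  rw [← zpow_mul_toNat (sub_ne_zero.2 h1.symm) (β - α), ← zpow_mul_toNat h0 (-β), kap]
  ring

theorem kap_ne {K : Type*} [Field K] (α β : ℤ) {x : K} (h0 : x ≠ 0) (h1 : x ≠ 1) :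
    kap α β x ≠ 0 :=
  mul_ne_zero (zpow_ne_zero _ (sub_ne_zero.2 h1.symm)) (zpow_ne_zero _ h0)

theorem unit_of_ne {g : ℂ → ℂ} (h : ∀ᶠ s in L', g s ≠ 0) : IsUnit (g : Germ L' ℂ) := by
  refine IsUnit.of_mul_eq_one ((fun s => (g s)⁻¹ : ℂ → ℂ) : Germ L' ℂ) ?_
  exact Germ.coe_eq.2 (h.mono fun s hs => mul_inv_cancel₀ hs)

section root

variable {K : Type} [Field K] [Algebra ℂ K] [IsAlgClosed K] {Γ : Type}
  [LinearOrderedCommGroupWithZero Γ] {D : PuiData K Γ}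

open Polynomial in
theorem root_pick {h : ℂ → ℂ} (hh : ∀ᶠ s in L, MeromorphicAt h s) (Q : K[X]) (hQ : Q ≠ 0)
    (h0 : Q.eval₂ (ι D) (h : Germ L' ℂ) = 0) : ∃ r, Rep D r h := by
  by_contra hne
  have hu : ∀ r : K, IsUnit ((h : Germ L' ℂ) - ι D r) := by
    intro r
    obtain ⟨g, hg, hga⟩ := Rep.ex (D := D) r
    rcases dich_L' (g := fun s => h s - g s)
      ((hh.and hga).mono fun s hs => hs.1.sub hs.2.meromorphicAt) with h1 | h1
    · exact (hne ⟨r, hg.congr (h1.mono fun s hs => (sub_eq_zero.1 hs).symm)⟩).elim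
    · rw [hg]
      exact unit_of_ne h1
  have hprod : ∀ m : Multiset K,
      IsUnit (((m.map (X - C ·)).prod).eval₂ (ι D) (h : Germ L' ℂ)) := by
    intro m
    induction m using Multiset.induction_on with
    | empty => simp
    | cons r m ih =>
      rw [Multiset.map_cons, Multiset.prod_cons, eval₂_mul, eval₂_sub, eval₂_X, eval₂_C]
      exact (hu r).mul ih
  rw [(IsAlgClosed.splits Q).eq_prod_roots, eval₂_mul, eval₂_C] at h0
  have : IsUnit (ι D Q.leadingCoeff) :=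
    (IsUnit.mk0 _ (leadingCoeff_ne_zero.2 hQ)).map (ι D)
  exact not_isUnit_zero (h0 ▸ this.mul (hprod _))

open Polynomial in
theorem kap_pick {α β : ℤ} (hb : β ≠ 0) {h : ℂ → ℂ} (hh : ∀ᶠ s in L, MeromorphicAt h s) {k : K}
    (hk : Rep D k fun s => kap α β (h s)) : ∃ r, Rep D r h := by
  rcases dich_L' hh with h0 | h0
  · exact ⟨0, Rep.zero.congr (h0.mono fun s hs => hs.symm)⟩
  rcases dich_L' (g := fun s => h s - 1)
    (hh.mono fun s hs => hs.sub (MeromorphicAt.const 1 s)) with h1 | h1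
  · exact ⟨1, Rep.one.congr (h1.mono fun s hs => (sub_eq_zero.1 hs).symm)⟩
  have hk0 : k ≠ 0 := by
    intro hk0
    obtain ⟨s, hs, hs0, hs1⟩ := (((hk.eq_iff Rep.zero).1 hk0).and (h0.and h1)).exists
    exact kap_ne α β hs0 (sub_ne_zero.1 hs1) hs
  refine root_pick hh ((1 - X) ^ (β - α).toNat * X ^ (-β).toNat -
    C k * ((1 - X) ^ (-(β - α)).toNat * X ^ (-(-β)).toNat)) ?_ ?_
  · intro hQ
    have := congrArg (eval 0) hQ
    rcases lt_or_gt_of_ne hb with hb | hb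
    · have e1 : (-β).toNat ≠ 0 := by omega
      have e2 : β.toNat = 0 := by omega
      simp [e1, e2, hk0] at this
    · have e1 : (-β).toNat = 0 := by omega
      have e2 : β.toNat ≠ 0 := by omega
      simp [e1, e2] at this
  · simp only [eval₂_sub, eval₂_mul, eval₂_pow, eval₂_X, eval₂_C, eval₂_one]
    rw [hk]
    exact Germ.coe_eq.2 ((h0.and h1).mono fun s hs => kap_mul α β hs.1 (sub_ne_zero.1 hs.2))

end root

/-! ### The local step -/

theorem mer_kap {f : ℂ → ℂ} {t : ℂ} (hf : MeromorphicAt f t) (α β : ℤ) :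
    MeromorphicAt (fun u => kap α β (f u)) t :=
  (((MeromorphicAt.const 1 t).sub hf).zpow _).mul (hf.zpow _)

theorem mer_refl {f : ℂ → ℂ} {t : ℂ} (hf : MeromorphicAt f t) (euc : Bool) (α β : ℤ) :
    MeromorphicAt (fun u => refl euc α β (f u)) t := by
  cases euc
  · exact (MeromorphicAt.const _ t).sub hf
  · exact (MeromorphicAt.const _ t).div hf

theorem mer_add {f : ℂ → ℂ} (c : ℂ) {t : ℂ} (hf : MeromorphicAt f (c + t)) :
    MeromorphicAt (fun u => f (c + u)) t :=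
  hf.comp_analyticAt (g := fun u => c + u) (by fun_prop)

theorem mer_shift {f : ℂ → ℂ} (hf : MeromorphicOn f (H 0)) (j : ℤ) :
    MeromorphicOn (fun u => f (j + u)) (H 0) := by
  intro t ht
  refine mer_add _ (hf _ ?_)
  have : (0 : ℝ) < t.im := ht
  show (0 : ℝ) < ((j : ℂ) + t).im
  simpa using this

theorem mer_eval {g : ℤ → ℂ → ℂ} {t : ℂ} (h : ∀ j, MeromorphicAt (g j) t) (P : MvPolynomial ℤ ℂ) :
    MeromorphicAt (fun s => MvPolynomial.eval (fun j => g j s) P) t := by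
  induction P using MvPolynomial.induction_on with
  | C c => simpa using MeromorphicAt.const c t
  | add P Q hP hQ => simpa using hP.fun_add hQ
  | mul_X P j hP => simpa using hP.fun_mul (h j)

theorem loc (h1 : Spec_PUI) (h2 : Spec_PUSH) {euc : Bool} {α β : ℤ} (hG : Good euc α β)
    {f ψ : ℂ → ℂ} {M : ℤ} (hM : 0 ≤ M) (hf : MeromorphicOn f (H 0))
    (hrel : ∀ t ∈ H 0, ∀ᶠ u in 𝓝[≠] t, kap α β (f u) = kap α β (refl euc α β (f (u + 1))))
    (hψ : ∀ j : ℤ, M ≤ |j| → AnalyticAt ℂ ψ j ∧ ∀ᶠ s in L', f (j + s) = ψ (j + s))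
    (hz : ∀ z : ℂ, ∀ᶠ j : ℤ in atTop, ψ j ≠ z)
    (hc : ∀ c : ℂ, ¬ ∀ t ∈ H 0, ∀ᶠ u in 𝓝[≠] t, f u - c = 0) :
    ∃ F : ℂ → ℂ, MeromorphicAt F 0 ∧ f =ᶠ[L'] F := by
  obtain ⟨K, _, _, Γ, _, _, ⟨D⟩⟩ := h1
  have hfar : ∀ j : ℤ, M ≤ |j| → AnalyticAt ℂ (fun s => ψ (j + s)) 0 := fun j hj =>
    AnalyticAt.comp (g := ψ) (f := fun s : ℂ => (j : ℂ) + s) (by simpa using (hψ j hj).1)
      (by fun_prop)
  have hfar' : ∀ j : ℤ, M ≤ |j| → Rep D (D.pm 1 fun s => ψ (j + s)) fun s => f (j + s) :=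
    fun j hj => (Rep.pm_one (hfar j hj).meromorphicAt).congr ((hψ j hj).2.mono fun s hs => hs.symm)
  have hrel' : ∀ j : ℤ, (fun s => kap α β (f (j + s))) =ᶠ[L']
      fun s => kap α β (refl euc α β (f ((j + 1 : ℤ) + s))) := by
    intro j
    filter_upwards [L'_of_all j hrel] with s hs
    rw [hs]
    congr 3
    push_cast
    ring
  have hex : ∀ j : ℤ, ∃ x : K, Rep D x fun s => f (j + s) := by
    intro j
    by_cases hj : j ≤ -M
    · exact ⟨_, hfar' j (by rw [abs_of_nonpos (by omega)]; omega)⟩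
    · have hj' : -M ≤ j := by omega
      clear hj
      induction j, hj' using Int.le_induction with
      | base => exact ⟨_, hfar' _ (by rw [abs_neg, abs_of_nonneg hM])⟩
      | succ j _ ih =>
        obtain ⟨x, hx⟩ := ih
        obtain ⟨r, hr⟩ := kap_pick (α := α) hG.b0
          (h := fun s => refl euc α β (f ((j + 1 : ℤ) + s)))
          (mem_L.mono fun s hs => mer_refl (mer_shift hf _ s hs) _ _ _)
          ((hx.kap α β).congr (hrel' j))
        refine ⟨_, (hr.refl euc α β).congr (Eventually.of_forall fun s => ?_)⟩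
        exact refl_refl hG.a0 hG.b0 _
  choose a ha using hex
  have hapm : ∀ j : ℤ, M ≤ |j| → a j = D.pm 1 fun s => ψ (j + s) := fun j hj =>
    ((ha j).eq_iff (hfar' j hj)).2 EventuallyEq.rfl
  have key := h2 euc α β hG K Γ D.toValData a (fun j => ψ j) M ?_ ?_ ?_ ?_ ?_ hz 0
  · obtain ⟨F, hF, hF'⟩ := D.fixed _ key
    refine ⟨F, hF, ?_⟩
    simpa using ((ha 0).eq_iff (Rep.pm_one hF)).1 hF'
  · rintro j ⟨c, hc'⟩
    refine hc c ((zero_L' j (G := fun u => f u - c) (hf.sub fun t _ => .const c t)).1 ?_)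
    exact (((ha j).eq_iff (Rep.const c)).1 hc'.symm).mono fun s hs => sub_eq_zero.2 hs
  · exact fun j => (((ha j).kap α β).eq_iff (((ha (j + 1)).refl euc α β).kap α β)).2 (hrel' j)
  · intro P
    have hm : MeromorphicOn (fun u => MvPolynomial.eval (fun j : ℤ => f (j + u)) P) (H 0) :=
      fun t ht => mer_eval (fun j => mer_shift hf j t ht) P
    rw [(Rep.aeval ha P).eq_iff Rep.zero, (Rep.aeval (fun j => ha (j + 1)) P).eq_iff Rep.zero]
    have e0 := zero_L' 0 hm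
    have e1 := zero_L' 1 hm
    simp only [Int.cast_zero, zero_add] at e0
    refine e0.trans (e1.symm.trans ?_)
    simp only [EventuallyEq, Int.cast_add, Int.cast_one, add_assoc]
  · intro j hj
    rw [hapm j hj]
    exact D.g_one _ (hfar j hj).meromorphicAt
  · intro j hj
    have hj' : M ≤ |j| := hj.trans (le_abs_self j)
    have hm : MeromorphicAt (fun s => ψ (j + s) - ψ j) 0 :=
      (hfar j hj').meromorphicAt.sub (.const _ _)
    have : a j - algebraMap ℂ K (ψ j) = D.pm 1 fun s => ψ (j + s) - ψ j :=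
      (((ha j).sub (Rep.const _)).eq_iff (Rep.pm_one hm)).2
        ((hψ j hj').2.mono fun s hs => by simp only [hs])
    show D.v (a j - algebraMap ℂ K (ψ j)) < 1
    rw [this, D.v_lt 1 _ one_pos hm]
    have h3 := ((hfar j hj').continuousAt.sub (continuousAt_const (y := ψ j))).tendsto
    simp only [Pi.sub_apply, add_zero, sub_self] at h3
    exact h3.mono_left nhdsWithin_le_nhds

/-! ### Assembly -/

theorem int_norm (t₀ : ℂ) {R : ℝ} {j : ℤ} (hj : ⌈R + ‖t₀‖⌉ + 1 ≤ |j|) : R < ‖t₀ + j‖ := by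
  have h1 : ‖(j : ℂ)‖ ≤ ‖t₀ + j‖ + ‖t₀‖ := by
    have := norm_sub_le (t₀ + j) t₀
    simpa using this
  have h2 : ‖(j : ℂ)‖ = ((|j| : ℤ) : ℝ) := by simp
  have h3 : ((⌈R + ‖t₀‖⌉ + 1 : ℤ) : ℝ) ≤ ((|j| : ℤ) : ℝ) := by exact_mod_cast hj
  have h4 := Int.le_ceil (R + ‖t₀‖)
  push_cast at h3 h2
  linarith

theorem main (h1 : Spec_PUI) (h2 : Spec_PUSH) {euc : Bool} {α β : ℤ} (hG : Good euc α β)
    {φ : ℂ → ℂ} {R : ℝ} (hR : 0 < R) (hφ : ∀ t : ℂ, R < ‖t‖ → AnalyticAt ℂ φ t)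
    (hrel : ∀ t : ℂ, R < ‖t‖ → kap α β (φ t) = kap α β (refl euc α β (φ (t + 1))))
    (hz : ∀ z : ℂ, ∃ R' : ℝ, ∀ t : ℂ, R' < ‖t‖ → φ t ≠ z) :
    ∃ ψ : ℂ → ℂ, MeromorphicOn ψ univ ∧ ∀ t : ℂ, 2 * R < ‖t‖ → ψ t = φ t := by
  refine global hR hφ fun y hy f hf t₀ ht₀ => ?_
  have hmem : ∀ t : ℂ, t ∈ H 0 ↔ t₀ + t ∈ H y := fun t => by
    show (0 : ℝ) < t.im ↔ y < (t₀ + t).im
    simp [ht₀]
  have hbig : ∀ (R' : ℝ) (t : ℂ), R' < ‖t‖ → ∀ᶠ u in 𝓝[≠] t, R' < ‖u‖ := fun R' t ht =>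
    nhdsWithin_le_nhds ((isOpen_lt continuous_const continuous_norm).mem_nhds ht)
  have hrel' : ∀ t ∈ H y, ∀ᶠ u in 𝓝[≠] t, kap α β (f u) = kap α β (refl euc α β (f (u + 1))) := by
    have hm : MeromorphicOn (fun u => f (u + 1)) (H y) := fun t ht => by
      have : MeromorphicAt f (1 + t) := hf.1 _ (by
        have : y < t.im := ht
        show y < (1 + t).im
        simpa using this)
      simpa only [add_comm] using mer_add 1 this
    refine idt (H_convex y).isPreconnected (fun t ht => mer_kap (hf.1 t ht) α β)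
      (fun t ht => mer_kap (mer_refl (hm t ht) euc α β) α β) (x := ⟨0, R + 1⟩)
      (by show y < R + 1; linarith) ?_
    have a1 : R < (⟨0, R + 1⟩ : ℂ).im := by show R < R + 1; linarith
    have a2 : R < (1 + (⟨0, R + 1⟩ : ℂ)).im := by simp
    filter_upwards [hf.2 _ a1, (ev_add 1 _ (p := fun u => f u = φ u)).2 (hf.2 _ a2),
      hbig R _ (lt_norm_of_im a1)] with u e1 e2 e3
    rw [e1, add_comm u, e2, add_comm, hrel u e3]
  have key := loc h1 h2 hG (f := fun u => f (t₀ + u)) (ψ := fun u => φ (t₀ + u))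
    (M := ⌈2 * R + ‖t₀‖⌉ + 1) ?_ (fun t ht => mer_add _ (hf.1 _ ((hmem t).1 ht))) ?_ ?_ ?_ ?_
  · obtain ⟨F, hF, hF'⟩ := key
    refine ⟨fun t => F (-t₀ + t), mer_add _ (by simpa using hF), ?_⟩
    have hT : Tendsto (fun t => -t₀ + t) (𝓝[H y] t₀) L := by
      refine tendsto_nhdsWithin_iff.2 ⟨?_, eventually_nhdsWithin_of_forall fun t ht => ?_⟩
      · have : Tendsto (fun t => -t₀ + t) (𝓝 t₀) (𝓝 (-t₀ + t₀)) :=
          (continuous_const.add continuous_id).tendsto t₀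
        rw [neg_add_cancel] at this
        exact this.mono_left nhdsWithin_le_nhds
      · rw [hmem]
        simpa using ht
    filter_upwards [hT.eventually (ev_L'.1 hF')] with t ht
    filter_upwards [(ev_add (-t₀) t (p := fun u => f (t₀ + u) = F u)).2 ht] with u hu
    simpa using hu
  · have : 0 ≤ ⌈2 * R + ‖t₀‖⌉ := Int.ceil_nonneg (by positivity)
    omega
  · intro t ht
    filter_upwards [(ev_add t₀ t (p := fun u => kap α β (f u) =
      kap α β (refl euc α β (f (u + 1))))).2 (hrel' _ ((hmem t).1 ht))] with u hu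
    simpa only [add_assoc] using hu
  · intro j hj
    have hn := int_norm t₀ hj
    refine ⟨AnalyticAt.comp (g := φ) (f := fun u : ℂ => t₀ + u) (hφ _ (by linarith))
      (by fun_prop), ev_L'.2 ?_⟩
    have hT : Tendsto (fun s : ℂ => ‖t₀ + j + s‖) L (𝓝 ‖t₀ + j + 0‖) :=
      ((continuous_const.add continuous_id).norm.tendsto 0).mono_left nhdsWithin_le_nhds
    rw [add_zero] at hT
    filter_upwards [hT.eventually (lt_mem_nhds hn), mem_L] with s hs hs'
    have hs'' : t₀ + j + s ∈ H y := by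
      have : (0 : ℝ) < s.im := hs'
      show y < (t₀ + j + s).im
      simpa [ht₀] using this
    filter_upwards [(ev_add (t₀ + j) s (p := fun u => f u = φ u)).2 (hf.far hφ hy _ hs'' hs)]
      with u hu
    simpa only [add_assoc] using hu
  · intro z
    obtain ⟨R', hR'⟩ := hz z
    filter_upwards [eventually_ge_atTop (⌈R' + ‖t₀‖⌉ + 1)] with j hj
    exact hR' _ (int_norm t₀ (hj.trans (le_abs_self j)))
  · intro c hc
    obtain ⟨R', hR'⟩ := hz c
    let t : ℂ := ⟨0, max R R' + 1⟩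
    have a1 : R < t.im := (le_max_left R R').trans_lt (lt_add_one _)
    have a2 : R' < t.im := (le_max_right R R').trans_lt (lt_add_one _)
    have a3 : -t₀ + t ∈ H 0 := by
      rw [hmem, add_neg_cancel_left]
      exact hy.trans_lt a1
    obtain ⟨u, e1, e2, e3⟩ := (((ev_add (-t₀) t (p := fun u => f (t₀ + u) - c = 0)).2
      (hc _ a3)).and ((hf.2 t a1).and (hbig R' t (lt_norm_of_im a2)))).exists
    apply hR' u e3
    rw [← e2]
    simpa [sub_eq_zero] using e1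

theorem ev_cob {p : ℂ → Prop} :
    (∀ᶠ t in Bornology.cobounded ℂ, p t) ↔ ∃ R : ℝ, 0 < R ∧ ∀ t : ℂ, R < ‖t‖ → p t := by
  rw [← comap_norm_atTop, eventually_comap, eventually_atTop]
  constructor
  · rintro ⟨R, h⟩
    exact ⟨max R 1, lt_max_of_lt_right one_pos, fun t ht =>
      h _ ((le_max_left _ _).trans ht.le) t rfl⟩
  · rintro ⟨R, -, h⟩
    exact ⟨R + 1, fun r hr t ht => h t (by linarith)⟩

end Mer

open Mer in
theorem mer (h1 : Spec_PUI) (h2 : Spec_PUSH) : Spec_MER := by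
  intro euc α β Φ hG hF
  have hT : Tendsto (fun t : ℂ => t⁻¹) (Bornology.cobounded ℂ) (𝓝[≠] 0) := tendsto_inv₀_cobounded'
  have hne : ∀ᶠ x in 𝓝[≠] (0 : ℂ), x ≠ 0 := self_mem_nhdsWithin
  have hm1 : ∀ᶠ x in 𝓝[≠] (0 : ℂ), 1 + x ≠ 0 := by
    refine nhdsWithin_le_nhds ?_
    exact (continuous_const.add continuous_id).continuousAt.eventually_ne (by simp)
  have han : ∀ᶠ x in 𝓝[≠] (0 : ℂ), AnalyticAt ℂ Φ x :=
    nhdsWithin_le_nhds hF.an.eventually_analyticAt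
  obtain ⟨R, hR, h⟩ := ev_cob.1 (hT.eventually (hne.and (hm1.and (han.and (hF.line.and hF.step)))))
  have key := main h1 h2 hG (φ := fun t => Φ t⁻¹) hR ?_ ?_ ?_
  · obtain ⟨ψ, hψ, hψ'⟩ := key
    exact ⟨ψ, hψ, ev_cob.2 ⟨2 * R, by linarith, hψ'⟩⟩
  · intro t ht
    obtain ⟨a1, -, a3, -⟩ := h t ht
    exact a3.comp (analyticAt_inv (by simpa using a1))
  · intro t ht
    obtain ⟨a1, a2, -, a4, a5⟩ := h t ht
    have ht0 : t ≠ 0 := by simpa using a1
    have e : (t + 1)⁻¹ = t⁻¹ / (1 + t⁻¹) := by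
      have : t + 1 ≠ 0 := by
        intro h0
        apply a2
        field_simp
        simpa using h0
      field_simp
    rw [e, a5, refl_refl hG.a0 hG.b0, a4]
  · intro z
    rcases hF.an.eventually_eq_or_eventually_ne (analyticAt_const (v := z)) with h' | h'
    · refine (hF.der ?_).elim
      rw [EventuallyEq.deriv_eq h']
      simp
    · obtain ⟨R', -, hR'⟩ := ev_cob.1 (hT.eventually h')
      exact ⟨R', hR'⟩

end Vale.Agent.P097A
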