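import Vale.Agent.P097A.Desc
import Vale.Agent.P097A.GB

/-!
# P097A: `GG` is bounded at every integrable place (PLACE)
-/

set_option linter.all false

noncomputable section

namespace Vale.Agent.P097A

open Filter Topology Set Metric

namespace Place

/-- regular and integrable on a punctured neighbourhood of the origin -/
def Pp (Z W : ℂ → ℂ) : Prop := ∀ᶠ τ in 𝓝[≠] (0 : ℂ), Reg Z W τ ∧ IntAt Z W τ

theorem evn {f g : ℂ → ℂ} (h : f =ᶠ[𝓝[≠] 0] g) : ∀ᶠ τ in 𝓝[≠] (0 : ℂ), f =ᶠ[𝓝 τ] g := by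
  filter_upwards [eventually_eventually_nhdsWithin.2 h, self_mem_nhdsWithin] with τ h1 h2
  rwa [nhdsWithin_eq_nhds.2 (isOpen_compl_singleton.mem_nhds h2)] at h1

theorem an_pw {α : ℤ} {z : ℂ → ℂ} (hz : AnalyticAt ℂ z 0) :
    ∀ᶠ τ in 𝓝[≠] (0 : ℂ), AnalyticAt ℂ (pw α z) τ := by
  filter_upwards [self_mem_nhdsWithin, mem_nhdsWithin_of_mem_nhds hz.eventually_analyticAt]
    with τ h1 h2
  exact (analyticAt_id.zpow h1).mul h2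

variable (hL : Spec_LAW) (hG : Spec_GG)
include hL hG

theorem tr {Z W Z₁ W₁ B : ℂ → ℂ} {τ : ℂ} (hB : AnalyticAt ℂ B τ) (dB : deriv B τ ≠ 0)
    (hZ : AnalyticAt ℂ Z (B τ)) (hW : AnalyticAt ℂ W (B τ)) (e1 : Z₁ =ᶠ[𝓝 τ] Z ∘ B)
    (e2 : W₁ =ᶠ[𝓝 τ] W ∘ B) :
    (Reg Z W (B τ) ∧ IntAt Z W (B τ) → Reg Z₁ W₁ τ ∧ IntAt Z₁ W₁ τ) ∧
      (Reg Z₁ W₁ τ → GG Z₁ W₁ τ = GG Z W (B τ)) := by
  obtain ⟨k1, k2⟩ := hL.2.2.2.2 Z W B τ hB dB hZ hW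
  obtain ⟨k3, k4⟩ := hL.2.1 _ _ _ _ τ e1.symm e2.symm
  exact ⟨fun h => ⟨k3 (k1.1 h.1), k4 (k2.1 h.2)⟩, fun h =>
    (hG.2.1 _ _ _ _ τ e1 e2).self_of_nhds.trans
      (hG.2.2.2.2 Z W B τ hB dB (k1.2 ((hL.2.1 _ _ _ _ τ e1 e2).1 h)))⟩

/-- change of the local parameter, then descent -/
theorem red {Z W Z₁ W₁ B : ℂ → ℂ} {a : ℕ} (ha : 0 < a) (h : Pp Z W) (hB : AnalyticAt ℂ B 0)
    (B0 : B 0 = 0) (dB : deriv B 0 ≠ 0) (e1 : Z₁ =ᶠ[𝓝[≠] 0] Z ∘ B) (e2 : W₁ =ᶠ[𝓝[≠] 0] W ∘ B)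
    (h2 : Pp Z₁ W₁ → ∃ Z₂ W₂ : ℂ → ℂ,
      (∀ᶠ τ in 𝓝[≠] (0 : ℂ), AnalyticAt ℂ Z₂ τ ∧ AnalyticAt ℂ W₂ τ) ∧
      (∀ᶠ τ in 𝓝[≠] (0 : ℂ), Z₁ τ = Z₂ (τ ^ a) ∧ W₁ τ = W₂ (τ ^ a)) ∧ Bdd0 (GG Z₂ W₂)) :
    Bdd0 (GG Z W) := by
  have hs := hB.hasStrictDerivAt
  have tB : Tendsto B (𝓝[≠] 0) (𝓝[≠] 0) := by
    simpa [B0] using hs.hasDerivAt.tendsto_nhdsNE dB
  have k1 : ∀ᶠ τ in 𝓝[≠] (0 : ℂ), (Reg Z₁ W₁ τ ∧ IntAt Z₁ W₁ τ) ∧ GG Z₁ W₁ τ = GG Z W (B τ) := by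
    filter_upwards [tB.eventually h, evn e1, evn e2, mem_nhdsWithin_of_mem_nhds
      (hB.eventually_analyticAt.and (hB.deriv.continuousAt.eventually_ne dB))] with τ c1 c2 c3 c4
    obtain ⟨c5, c6⟩ := tr hL hG c4.1 c4.2 c1.1.anZ c1.1.anW c2 c3
    exact ⟨c5 c1, c6 (c5 c1).1⟩
  obtain ⟨Z₂, W₂, a2, e3, C, hC⟩ := h2 (k1.mono fun _ c => c.1)
  have tp : Tendsto (fun τ : ℂ => τ ^ a) (𝓝[≠] 0) (𝓝[≠] 0) :=
    tendsto_nhdsWithin_iff.2 ⟨by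
      simpa [ha.ne'] using ((continuous_pow a).tendsto (0 : ℂ)).mono_left nhdsWithin_le_nhds,
      eventually_mem_nhdsWithin.mono fun τ c => pow_ne_zero a c⟩
  have k2 : ∀ᶠ τ in 𝓝[≠] (0 : ℂ), ‖GG Z W (B τ)‖ ≤ C := by
    filter_upwards [k1, tp.eventually a2, tp.eventually hC, self_mem_nhdsWithin,
      evn (g := Z₂ ∘ fun τ => τ ^ a) (e3.mono fun _ c => c.1),
      evn (g := W₂ ∘ fun τ => τ ^ a) (e3.mono fun _ c => c.2)] with τ c1 c2 c3 c4 c5 c6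
    rwa [← c1.2, (tr hL hG (B := fun τ => τ ^ a) (analyticAt_id.pow a) (by
      rw [(hasDerivAt_pow a _).deriv]
      exact mul_ne_zero (Nat.cast_ne_zero.2 ha.ne') (pow_ne_zero _ c4)) c2.1 c2.2 c5 c6).2 c1.1.1]
  refine ⟨C, eventually_nhdsWithin_iff.2 ?_⟩
  have k3 := hs.map_nhds_eq dB
  rw [B0] at k3
  rw [← k3, eventually_map]
  filter_upwards [eventually_nhdsWithin_iff.1 k2] with τ c1 c2
  exact c1 fun c3 => c2 (by rw [c3, B0]; rfl)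

/-- affine change of the coordinates -/
theorem aff {Z W Z₁ W₁ : ℂ → ℂ} {b c d : ℂ} (c0 : c ≠ 0) (h : Pp Z W)
    (e : ∀ᶠ τ in 𝓝[≠] (0 : ℂ), Z₁ τ = Z τ + b ∧ W₁ τ = c * W τ + d)
    (h2 : Pp Z₁ W₁ → Bdd0 (GG Z₁ W₁)) : Bdd0 (GG Z W) := by
  have k1 : ∀ᶠ τ in 𝓝[≠] (0 : ℂ), (Reg Z₁ W₁ τ ∧ IntAt Z₁ W₁ τ) ∧
      GG Z₁ W₁ τ = (1 * c)⁻¹ * GG Z W τ := by
    filter_upwards [h, evn (f := Z₁) (g := fun τ => 1 * Z τ + b) (e.mono fun _ c => by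
      simpa using c.1), evn (f := W₁) (g := fun τ => c * W τ + d) (e.mono fun _ c => c.2)]
      with τ c1 c2 c3
    obtain ⟨k1, k2⟩ := hL.2.2.1 Z W τ 1 b c d one_ne_zero c0
    obtain ⟨k3, k4⟩ := hL.2.1 _ _ _ _ τ c2.symm c3.symm
    exact ⟨⟨k3 (k1 c1.1), k4 (k2 c1.1.anZ c1.1.anW c1.2)⟩,
      (hG.2.1 _ _ _ _ τ c2 c3).self_of_nhds.trans
        (hG.2.2.1 Z W τ 1 b c d one_ne_zero c0 c1.1)⟩
  obtain ⟨C, hC⟩ := h2 (k1.mono fun _ c => c.1)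
  refine ⟨‖c‖ * C, ?_⟩
  filter_upwards [k1, hC] with τ c1 c2
  rw [show GG Z W τ = c * GG Z₁ W₁ τ by rw [c1.2, one_mul, mul_inv_cancel_left₀ c0], norm_mul]
  exact mul_le_mul_of_nonneg_left c2 (norm_nonneg _)

omit hL hG in
theorem pw_pow (a : ℕ) (n : ℤ) {w w₂ : ℂ → ℂ} {τ : ℂ} (h : w τ = w₂ (τ ^ a)) :
    pw (n * a) w τ = pw n w₂ (τ ^ a) := by
  rw [pw, pw, h, mul_comm n, zpow_mul, zpow_natCast]

theorem euc (hE : Spec_EXP) (hR : Spec_RE) {α β : ℤ} {z w : ℂ → ℂ} (α0 : α ≠ 0) (β0 : β ≠ 0)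
    (αβ : α < β) (hz : AnalyticAt ℂ z 0) (hw : AnalyticAt ℂ w 0) (z0 : z 0 ≠ 0) (w0 : w 0 ≠ 0)
    (h : Pp (pw α z) (pw β w)) : Bdd0 (GG (pw α z) (pw β w)) := by
  by_cases h0 : α + β ≤ 0
  · exact gb.1 α β z w α0 β0 αβ.ne hz hw z0 w0 (.inl h0)
  obtain ⟨k1, rfl⟩ := hE.1 α β z w α0 β0 αβ (by omega) hz hw z0 w0 (h.mono fun _ c => c.2)
  lift α to ℕ using k1.le with a
  have ha : 0 < a := by omega
  obtain ⟨B, w₁, hB, B0, dB, a1, w1, e⟩ := desc.2 a (2 * a) z w α0 hz hw z0 w0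
  refine red hL hG ha h hB B0 dB (e.mono fun _ c => c.1.symm) (e.mono fun _ c => c.2.symm)
    fun h1 => ?_
  obtain ⟨w₂, a2, e2⟩ := desc.1 a w₁ ha a1 fun ζ hζ =>
    hR a w₁ ζ ha hζ a1 w1 (h1.mono fun _ c => c.2)
  refine ⟨pw 1 fun _ => 1, pw 2 w₂, (an_pw analyticAt_const).and (an_pw a2),
    mem_nhdsWithin_of_mem_nhds (e2.mono fun τ c => ⟨by simp [pw], pw_pow a 2 c⟩),
    gb.1 1 2 _ _ one_ne_zero two_ne_zero (by omega) analyticAt_const a2 one_ne_zero ?_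
      (.inr ⟨rfl, rfl⟩)⟩
  simpa [ha.ne', e2.self_of_nhds] using w1

theorem gal (hE : Spec_EXP) (h1 : Spec_RG1) (h2 : Spec_RG2) {α β : ℤ} {u v : ℂ → ℂ} (α0 : α ≠ 0)
    (β0 : β ≠ 0) (αβ : α < β) (hu : AnalyticAt ℂ u 0) (hv : AnalyticAt ℂ v 0) (u0 : u 0 ≠ 0)
    (v0 : v 0 ≠ 0) (h : Pp (pw α u - pw β v) (pw α u + pw β v)) :
    Bdd0 (GG (pw α u - pw β v) (pw α u + pw β v)) := by
  by_cases h0 : 2 * β - α ≤ 0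
  · exact gb.2 α β u v α0 β0 αβ hu hv u0 v0 (.inl h0)
  rcases hE.2 α β u v α0 β0 αβ (by omega) hu hv u0 v0 (h.mono fun _ c => c.2) with
    ⟨k1, rfl⟩ | ⟨k1, rfl⟩
  · lift α to ℕ using k1.le with a
    have ha : 0 < a := by omega
    obtain ⟨B, w₁, hB, B0, dB, a1, w1, e⟩ := desc.2 a (2 * a) u v α0 hu hv u0 v0
    refine red hL hG (Z₁ := pw a (fun _ => 1) - pw (2 * a) w₁)
      (W₁ := pw a (fun _ => 1) + pw (2 * a) w₁) ha h hB B0 dB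
      (e.mono fun _ c => by simp [c.1, c.2]) (e.mono fun _ c => by simp [c.1, c.2]) fun h3 => ?_
    obtain ⟨w₂, a2, e2⟩ := desc.1 a w₁ ha a1 fun ζ hζ =>
      h1 a w₁ ζ ha hζ a1 w1 (h3.mono fun _ c => c.2)
    refine ⟨pw 1 (fun _ => 1) - pw 2 w₂, pw 1 (fun _ => 1) + pw 2 w₂,
      ((an_pw analyticAt_const).and (an_pw a2)).mono fun _ c => ⟨c.1.sub c.2, c.1.add c.2⟩,
      mem_nhdsWithin_of_mem_nhds (e2.mono fun τ c => ?_),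
      gb.2 1 2 _ _ one_ne_zero two_ne_zero (by omega) analyticAt_const a2 one_ne_zero ?_
        (.inr (.inl ⟨rfl, rfl⟩))⟩
    · simp only [Pi.sub_apply, Pi.add_apply, pw_pow a 2 c]
      simp [pw]
    · simpa [ha.ne', e2.self_of_nhds] using w1
  · lift β to ℕ using k1.le with a
    have ha : 0 < a := by omega
    obtain ⟨B, w₁, hB, B0, dB, a1, w1, e⟩ := desc.2 a (-a) v u β0 hv hu v0 u0
    refine red hL hG (Z₁ := pw (-a) w₁ - pw a (fun _ => 1))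
      (W₁ := pw (-a) w₁ + pw a (fun _ => 1)) ha h hB B0 dB
      (e.mono fun _ c => by simp [c.1, c.2]) (e.mono fun _ c => by simp [c.1, c.2]) fun h3 => ?_
    obtain ⟨w₂, a2, e2⟩ := desc.1 a w₁ ha a1 fun ζ hζ =>
      h2 a w₁ ζ ha hζ a1 w1 (h3.mono fun _ c => c.2)
    refine ⟨pw (-1) w₂ - pw 1 (fun _ => 1), pw (-1) w₂ + pw 1 (fun _ => 1),
      ((an_pw a2).and (an_pw analyticAt_const)).mono fun _ c => ⟨c.1.sub c.2, c.1.add c.2⟩,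
      mem_nhdsWithin_of_mem_nhds (e2.mono fun τ c => ?_),
      gb.2 (-1) 1 _ _ (by omega) one_ne_zero (by omega) a2 analyticAt_const ?_ one_ne_zero
        (.inr (.inr ⟨rfl, rfl, fun _ => rfl⟩))⟩
    · simp only [Pi.sub_apply, Pi.add_apply, ← pw_pow a (-1) c]
      simp [pw]
    · simpa [ha.ne', e2.self_of_nhds] using w1

end Place

open Place in
theorem place (hN : Spec_NF) (hL : Spec_LAW) (hG : Spec_GG) (hE : Spec_EXP) (h1 : Spec_RG1)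
    (h2 : Spec_RG2) (hR : Spec_RE) : Spec_PLACE := by
  intro Z W hZ hW h
  rcases hN Z W hZ hW (h.mono fun _ c => c.1) with
    ⟨α, β, z, w, b, d, α0, β0, αβ, hz, hw, z0, w0, e⟩ |
    ⟨α, β, u, v, b, c, d, α0, β0, αβ, hu, hv, u0, v0, c0, e⟩
  · refine aff hL hG (b := b) (d := d) one_ne_zero h (by simpa using e) fun h3 => ?_
    rcases lt_or_gt_of_ne αβ with k | k
    · exact euc hL hG hE hR α0 β0 k hz hw z0 w0 h3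
    · obtain ⟨C, hC⟩ := euc hL hG hE hR β0 α0 k hw hz w0 z0 (h3.mono fun τ c =>
        ⟨(hL.2.2.2.1 _ _ τ).1 c.1, (hL.2.2.2.1 _ _ τ).2 c.2⟩)
      exact ⟨C, (hC.and h3).mono fun τ c => hG.2.2.2.1 _ _ τ c.2.1 ▸ c.1⟩
  · exact aff hL hG (Z₁ := pw α u - pw β v) (W₁ := pw α u + pw β v) c0 h e
      (gal hL hG hE h1 h2 α0 β0 αβ hu hv u0 v0)

end Vale.Agent.P097A
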