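import Vale.Agent.P097A.Spec

/-!
# P097A: propagation of integrability along regular points (row PROP)
-/

set_option linter.all false

noncomputable section

namespace Vale.Agent.P097A

open Filter Topology Set Metric

namespace Propag

lemma hasDerivAt_line {Θ : ℂ × ℂ → ℂ} {η : ℂ} (h : DifferentiableAt ℂ Θ (η, 0)) :
    HasDerivAt (fun t : ℂ => Θ (t, 0)) (fderiv ℂ Θ (η, 0) (1, 0)) η := by
  have h1 : HasDerivAt (fun t : ℂ => ((t, 0) : ℂ × ℂ)) (1, 0) η :=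
    (hasDerivAt_id η).prodMk (hasDerivAt_const η (0 : ℂ))
  exact h.hasFDerivAt.comp_hasDerivAt η h1

lemma recentre (E : ℂ × ℂ × ℂ → ℂ) (Θ : ℂ × ℂ → ℂ) (η : ℂ) (ha : AnalyticAt ℂ Θ (η, 0))
    (hd : fderiv ℂ Θ (η, 0) (1, 0) ≠ 0)
    (hs : ∀ᶠ p in 𝓝 ((η, 0) : ℂ × ℂ), E (Θ (p.1 - p.2, p.2), Θ p, Θ (p.1 + p.2, p.2)) = 0) :
    IntLaw E (Θ (η, 0)) := by
  have ht : Tendsto (fun p : ℂ × ℂ => p + (η, 0)) (𝓝 0) (𝓝 (η, 0)) := by
    have : Continuous (fun p : ℂ × ℂ => p + (η, 0)) := by fun_prop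
    simpa using this.tendsto 0
  refine ⟨fun p => Θ (p + (η, 0)), ?_, by simp, ?_, ?_⟩
  · have h1 : AnalyticAt ℂ (fun p : ℂ × ℂ => p + (η, 0)) 0 := by fun_prop
    exact AnalyticAt.comp_of_eq (g := Θ) ha h1 (by simp)
  · rw [fderiv_comp_add_right]
    simpa using hd
  · filter_upwards [ht.eventually hs] with p hp
    have e1 : ((p.1 - p.2, p.2) : ℂ × ℂ) + (η, 0) = ((p + (η, 0)).1 - (p + (η, 0)).2, (p + (η, 0)).2) := by
      ext <;> simp; ring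
    have e2 : ((p.1 + p.2, p.2) : ℂ × ℂ) + (η, 0) = ((p + (η, 0)).1 + (p + (η, 0)).2, (p + (η, 0)).2) := by
      ext <;> simp; ring
    show E (Θ ((p.1 - p.2, p.2) + (η, 0)), Θ (p + (η, 0)), Θ ((p.1 + p.2, p.2) + (η, 0))) = 0
    rw [e1, e2]
    exact hp

lemma isOpen_int (E : ℂ × ℂ × ℂ → ℂ) : IsOpen {x | IntLaw E x} := by
  rw [isOpen_iff_mem_nhds]
  rintro x ⟨Θ, ha, h0, hd, hs⟩
  have hl : AnalyticAt ℂ (fun t : ℂ => ((t, 0) : ℂ × ℂ)) 0 := by fun_prop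
  have hθ : AnalyticAt ℂ (fun t : ℂ => Θ (t, 0)) 0 :=
    AnalyticAt.comp_of_eq (g := Θ) ha hl (by rfl)
  have hder : deriv (fun t : ℂ => Θ (t, 0)) 0 = fderiv ℂ Θ 0 (1, 0) :=
    (hasDerivAt_line (η := 0) ha.differentiableAt).deriv
  have hmap := hθ.hasStrictDerivAt.map_nhds_eq (by rw [hder]; exact hd)
  have hx : Θ ((0 : ℂ), (0 : ℂ)) = x := h0
  simp only [hx] at hmap
  rw [← hmap, mem_map]
  have ht : Tendsto (fun t : ℂ => ((t, 0) : ℂ × ℂ)) (𝓝 0) (𝓝 0) := hl.continuousAt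
  have hc : ContinuousAt (fun p : ℂ × ℂ => fderiv ℂ Θ p (1, 0)) 0 :=
    ha.fderiv.continuousAt.clm_apply continuousAt_const
  filter_upwards [ht.eventually ha.eventually_analyticAt, ht.eventually (hc.eventually_ne hd),
    ht.eventually hs.eventually_nhds] with t h1 h2 h3
  exact recentre E Θ t h1 h2 h3

/-- normalisation of the derivative -/
lemma normalise (E : ℂ × ℂ × ℂ → ℂ) (x : ℂ) (h : IntLaw E x) :
    ∃ Θ : ℂ × ℂ → ℂ, AnalyticAt ℂ Θ 0 ∧ Θ 0 = x ∧ fderiv ℂ Θ 0 (1, 0) = 1 ∧ Solves E Θ := by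
  obtain ⟨Θ, ha, h0, hd, hs⟩ := h
  set l := fderiv ℂ Θ 0 (1, 0) with hl
  have h1 : AnalyticAt ℂ (fun p : ℂ × ℂ => l⁻¹ • p) 0 := by fun_prop
  have ht : Tendsto (fun p : ℂ × ℂ => l⁻¹ • p) (𝓝 0) (𝓝 0) := by
    simpa using h1.continuousAt.tendsto
  refine ⟨fun p => Θ (l⁻¹ • p), AnalyticAt.comp_of_eq (g := Θ) ha h1 (by simp), by simpa using h0,
    ?_, ?_⟩
  · have h2 : HasFDerivAt Θ (fderiv ℂ Θ 0) (l⁻¹ • (0 : ℂ × ℂ)) := by
      simpa using ha.differentiableAt.hasFDerivAt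
    have h3 : HasFDerivAt (fun p : ℂ × ℂ => l⁻¹ • p) (l⁻¹ • ContinuousLinearMap.id ℂ (ℂ × ℂ)) 0 :=
      (hasFDerivAt_id (0 : ℂ × ℂ)).const_smul l⁻¹
    have h4 := (h2.comp (0 : ℂ × ℂ) h3).fderiv
    have h5 : (fun p : ℂ × ℂ => Θ (l⁻¹ • p)) = Θ ∘ (fun p : ℂ × ℂ => l⁻¹ • p) := rfl
    rw [h5, h4]
    simp only [ContinuousLinearMap.comp_apply, ContinuousLinearMap.smul_apply,
      ContinuousLinearMap.id_apply, map_smul, ← hl, smul_eq_mul]
    exact inv_mul_cancel₀ hd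
  · filter_upwards [ht.eventually hs] with p hp
    have e1 : l⁻¹ • ((p.1 - p.2, p.2) : ℂ × ℂ) = ((l⁻¹ • p).1 - (l⁻¹ • p).2, (l⁻¹ • p).2) := by
      ext <;> simp; ring
    have e2 : l⁻¹ • ((p.1 + p.2, p.2) : ℂ × ℂ) = ((l⁻¹ • p).1 + (l⁻¹ • p).2, (l⁻¹ • p).2) := by
      ext <;> simp; ring
    show E (Θ (l⁻¹ • (p.1 - p.2, p.2)), Θ (l⁻¹ • p), Θ (l⁻¹ • (p.1 + p.2, p.2))) = 0
    rw [e1, e2]
    exact hp

/-- a quantitative inverse function statement -/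
lemma qinv (R M : ℝ) (hR : 0 < R) (hM : 0 < M) : ∃ δ : ℝ, 0 < δ ∧ ∀ h : ℂ → ℂ,
    DifferentiableOn ℂ h (ball 0 R) → (∀ z ∈ ball (0 : ℂ) R, ‖h z‖ ≤ M) → deriv h 0 = 1 →
    ‖h 0‖ < δ → ∃ η ∈ ball (0 : ℂ) (R / 2), h η = 0 ∧ deriv h η ≠ 0 := by
  set B : ℝ := 4 * M / R + 1 with hB
  have hB1 : 1 < B := by
    have : 0 < 4 * M / R := by positivity
    linarith
  set L : ℝ := R / (4 * B) with hL
  have hL0 : 0 < L := by positivity
  have hLR : L < R / 2 := by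
    rw [hL, div_lt_div_iff₀ (by positivity) (by positivity)]
    nlinarith
  refine ⟨L / 2 / 2, by positivity, fun h hd hb h1 h0 => ?_⟩
  have hd1 : ∀ z ∈ ball (0 : ℂ) (R / 2), ‖deriv h z‖ ≤ 4 * M / R := by
    intro z hz
    have hsub : ball z (R / 2) ⊆ ball 0 R := by
      intro w hw
      rw [mem_ball] at *
      linarith [dist_triangle w z 0]
    have := Complex.norm_deriv_le_div_of_mapsTo_ball (f := h) (c := z) (R₁ := R / 2) (R₂ := 2 * M)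
      (hd.mono hsub) (fun w hw => by
        rw [mem_closedBall, dist_eq_norm]
        have h2 := hb w (hsub hw)
        have h3 := hb z (hsub (mem_ball_self (by positivity)))
        linarith [norm_sub_le (h w) (h z)]) (by positivity)
    calc ‖deriv h z‖ ≤ 2 * M / (R / 2) := this
      _ = 4 * M / R := by field_simp; ring
  have hd2 : ∀ z ∈ closedBall (0 : ℂ) L, ‖deriv h z - 1‖ ≤ 1 / 2 := by
    intro z hz
    have hz' : z ∈ ball (0 : ℂ) (R / 2) := closedBall_subset_ball hLR hz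
    have hdd : DifferentiableOn ℂ (deriv h) (ball 0 (R / 2)) :=
      (hd.deriv isOpen_ball).mono (ball_subset_ball (by linarith))
    have := Complex.dist_le_div_mul_dist_of_mapsTo_ball (f := deriv h) (c := 0) (R₁ := R / 2)
      (R₂ := B) hdd (fun w hw => by
        rw [mem_closedBall, dist_eq_norm, h1]
        have h2 := hd1 w hw
        have h3 := norm_sub_le (deriv h w) 1
        rw [norm_one] at h3
        linarith) hz'
    rw [h1, dist_eq_norm] at this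
    have h4 : dist z 0 ≤ L := hz
    calc ‖deriv h z - 1‖ ≤ B / (R / 2) * dist z 0 := this
      _ ≤ B / (R / 2) * L := by gcongr
      _ = 1 / 2 := by rw [hL]; field_simp; ring
  have hsubR : closedBall (0 : ℂ) L ⊆ ball 0 R := closedBall_subset_ball (by linarith)
  have hlow : ∀ z ∈ closedBall (0 : ℂ) L, ‖z‖ / 2 ≤ ‖h z - h 0‖ := by
    intro z hz
    have hmv := (convex_closedBall (0 : ℂ) L).norm_image_sub_le_of_norm_hasDerivWithin_le
      (f := fun w => h w - w) (f' := fun w => deriv h w - 1) (C := 1 / 2)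
      (fun w hw => (((hd.differentiableAt (isOpen_ball.mem_nhds (hsubR hw))).hasDerivAt).sub
        (hasDerivAt_id w)).hasDerivWithinAt) hd2 (mem_closedBall_self hL0.le) hz
    simp only [sub_zero] at hmv
    have e : z = (h z - h 0) - (h z - z - h 0) := by ring
    have h5 : ‖z‖ ≤ ‖h z - h 0‖ + ‖h z - z - h 0‖ := by
      calc ‖z‖ = ‖(h z - h 0) - (h z - z - h 0)‖ := by rw [← e]
        _ ≤ _ := norm_sub_le _ _
    linarith
  have hdc : DiffContOnCl ℂ h (ball 0 L) := by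
    apply DifferentiableOn.diffContOnCl
    rw [closure_ball _ hL0.ne']
    exact hd.mono hsubR
  have hfr : ∃ᶠ z in 𝓝 (0 : ℂ), h z ≠ h 0 := by
    have h6 : ∀ᶠ z in 𝓝[≠] (0 : ℂ), h z ≠ h 0 := by
      filter_upwards [self_mem_nhdsWithin, mem_nhdsWithin_of_mem_nhds (closedBall_mem_nhds 0 hL0)]
        with z hz0 hz heq
      have h7 := hlow z hz
      rw [heq, sub_self, norm_zero] at h7
      have : 0 < ‖z‖ := norm_pos_iff.mpr hz0
      linarith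
    exact (h6.frequently).filter_mono nhdsWithin_le_nhds
  have himg := hdc.ball_subset_image_closedBall (ε := L / 2) hL0 (fun z hz => by
    have h8 := hlow z (sphere_subset_closedBall hz)
    rwa [mem_sphere_zero_iff_norm.mp hz] at h8) hfr
  obtain ⟨η, hη, hη0⟩ := himg (a := 0) (by rw [mem_ball, dist_comm, dist_zero_right]; exact h0)
  refine ⟨η, closedBall_subset_ball hLR hη, hη0, fun h9 => ?_⟩
  have := hd2 η hη
  rw [h9, zero_sub, norm_neg, norm_one] at this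
  linarith

/-- the step map on pairs of points -/
def T (j : ℂ × ℂ → ℂ) (p : ℂ × ℂ) : ℂ × ℂ := (p.2, j p)

lemma orbit (j : ℂ × ℂ → ℂ) (x₀ : ℂ) (ρ C L r : ℝ) (hρ : 0 < ρ) (hC : 0 < C) (hr : 0 < r)
    (hrL : r ≤ L) (hL1 : 16 * L ≤ ρ) (hL2 : 8 * C * L ≤ 1)
    (hj : ∀ a ∈ ball x₀ (3 * ρ), ∀ b ∈ ball x₀ (3 * ρ),
      AnalyticAt ℂ j (a, b) ∧ ‖j (a, b) - (2 * b - a)‖ ≤ C * ‖b - a‖ ^ 2)
    (p : ℂ × ℂ) (h1 : ‖p.1 - x₀‖ ≤ ρ / 4) (h2 : ‖p.2 - p.1‖ ≤ 2 * r) (n : ℕ) (hn : r * n ≤ L) :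
    ‖((T j)^[n] p).1 - x₀‖ ≤ ρ / 4 + 4 * (r * n) ∧
      ‖((T j)^[n] p).2 - ((T j)^[n] p).1‖ ≤ 2 * r + 16 * C * r * (r * n) ∧
      AnalyticAt ℂ ((T j)^[n]) p := by
  induction n with
  | zero =>
    refine ⟨by simpa using h1, by simpa using h2, ?_⟩
    simp only [Function.iterate_zero]
    exact analyticAt_id
  | succ n ih =>
    have hn' : r * n ≤ L := by
      push_cast at hn
      nlinarith
    obtain ⟨i1, i2, i3⟩ := ih hn'
    rw [Function.iterate_succ']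
    simp only [Function.comp_apply]
    set q := (T j)^[n] p with hq
    have hd : ‖q.2 - q.1‖ ≤ 4 * r := by
      have : 16 * C * r * (r * n) ≤ 16 * C * r * L := by gcongr
      nlinarith
    have hq2 : ‖q.2 - x₀‖ ≤ ρ / 4 + 4 * (r * n) + 4 * r := by
      calc ‖q.2 - x₀‖ = ‖(q.1 - x₀) + (q.2 - q.1)‖ := by congr 1; ring
        _ ≤ ‖q.1 - x₀‖ + ‖q.2 - q.1‖ := norm_add_le _ _
        _ ≤ _ := by linarith
    have m1 : q.1 ∈ ball x₀ (3 * ρ) := by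
      rw [mem_ball, dist_eq_norm]; linarith
    have m2 : q.2 ∈ ball x₀ (3 * ρ) := by
      rw [mem_ball, dist_eq_norm]; linarith
    obtain ⟨k1, k2⟩ := hj q.1 m1 q.2 m2
    refine ⟨?_, ?_, ?_⟩
    · show ‖q.2 - x₀‖ ≤ _
      push_cast
      linarith
    · show ‖j q - q.2‖ ≤ _
      have k3 : C * ‖q.2 - q.1‖ ^ 2 ≤ C * (4 * r) ^ 2 := by gcongr
      calc ‖j q - q.2‖ = ‖(j (q.1, q.2) - (2 * q.2 - q.1)) + (q.2 - q.1)‖ := by congr 1; ring
        _ ≤ ‖j (q.1, q.2) - (2 * q.2 - q.1)‖ + ‖q.2 - q.1‖ := norm_add_le _ _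
        _ ≤ C * (4 * r) ^ 2 + (2 * r + 16 * C * r * (r * n)) := by linarith
        _ = _ := by push_cast; ring
    · have k4 : AnalyticAt ℂ (T j) q := analyticAt_snd.prod k1
      exact k4.comp i3

/-- two consecutive points on the line `η = s v` -/
def pr (Θ : ℂ × ℂ → ℂ) (s v : ℂ) : ℂ × ℂ := (Θ (s * v, v), Θ ((s + 1) * v, v))

lemma tendsto_line (s : ℂ) : Tendsto (fun v : ℂ => ((s * v, v) : ℂ × ℂ)) (𝓝 0) (𝓝 0) := by
  have : Continuous (fun v : ℂ => ((s * v, v) : ℂ × ℂ)) := by fun_prop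
  exact this.tendsto' 0 0 (by simp)

lemma step_germ (E : ℂ × ℂ × ℂ → ℂ) (j : ℂ × ℂ → ℂ) (U : Set ℂ) (Θ : ℂ × ℂ → ℂ)
    (ha : ContinuousAt Θ 0) (hU : U ∈ 𝓝 (Θ 0)) (hs : Solves E Θ)
    (hE : ∀ a ∈ U, ∀ b ∈ U, ∀ c ∈ U, E (a, b, c) = 0 → c = j (a, b)) (s : ℂ) :
    ∀ᶠ v in 𝓝 (0 : ℂ), T j (pr Θ s v) = pr Θ (s + 1) v := by
  have hev : ∀ᶠ p in 𝓝 (0 : ℂ × ℂ), Θ p ∈ U := ha hU
  filter_upwards [(tendsto_line s).eventually hev, (tendsto_line (s + 1)).eventually hev,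
    (tendsto_line (s + 1 + 1)).eventually hev, (tendsto_line (s + 1)).eventually hs]
    with v h1 h2 h3 h4
  have e1 : (s + 1) * v - v = s * v := by ring
  have e2 : (s + 1) * v + v = (s + 1 + 1) * v := by ring
  simp only [e1, e2] at h4
  have := hE _ h1 _ h2 _ h3 h4
  simp only [T, pr]
  rw [← this]

lemma iter_germ (j : ℂ × ℂ → ℂ) (Θ : ℂ × ℂ → ℂ)
    (h : ∀ s : ℂ, ∀ᶠ v in 𝓝 (0 : ℂ), T j (pr Θ s v) = pr Θ (s + 1) v) (s : ℂ) (n : ℕ) :
    ∀ᶠ v in 𝓝 (0 : ℂ), (T j)^[n] (pr Θ s v) = pr Θ (s + n) v := by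
  induction n with
  | zero => simp
  | succ n ih =>
    filter_upwards [ih, h (s + n)] with v h1 h2
    rw [Function.iterate_succ_apply', h1, h2]
    push_cast
    rw [add_assoc]

lemma core (hX : Spec_EXT) (E : ℂ × ℂ × ℂ → ℂ) (j : ℂ × ℂ → ℂ) (x₀ : ℂ) (ρ C : ℝ) (hρ : 0 < ρ)
    (hC : 0 < C)
    (hE : ∀ a ∈ ball x₀ (3 * ρ), ∀ b ∈ ball x₀ (3 * ρ), ∀ c ∈ ball x₀ (3 * ρ),
      AnalyticAt ℂ E (a, b, c) ∧ (E (a, b, c) = 0 → c = j (a, b)))
    (hj : ∀ a ∈ ball x₀ (3 * ρ), ∀ b ∈ ball x₀ (3 * ρ),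
      AnalyticAt ℂ j (a, b) ∧ ‖j (a, b) - (2 * b - a)‖ ≤ C * ‖b - a‖ ^ 2) :
    ∃ δ : ℝ, 0 < δ ∧ ∀ x₁, ‖x₁ - x₀‖ < δ → IntLaw E x₁ → IntLaw E x₀ := by
  set L : ℝ := min (ρ / 16) (1 / (8 * C)) with hLdef
  have hL0 : 0 < L := lt_min (by positivity) (by positivity)
  have hL1 : 16 * L ≤ ρ := by
    have := min_le_left (ρ / 16) (1 / (8 * C))
    linarith
  have hL2 : 8 * C * L ≤ 1 := by
    have := min_le_right (ρ / 16) (1 / (8 * C))
    rw [← hLdef, le_div_iff₀ (by positivity)] at this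
    linarith
  obtain ⟨δ, hδ, hq⟩ := qinv (L / 14) (2 * ρ) (by positivity) (by positivity)
  refine ⟨min δ (ρ / 8), lt_min hδ (by positivity), fun x₁ hx₁ hI => ?_⟩
  have hx1 : ‖x₁ - x₀‖ < δ := lt_of_lt_of_le hx₁ (min_le_left _ _)
  have hx2 : ‖x₁ - x₀‖ < ρ / 8 := lt_of_lt_of_le hx₁ (min_le_right _ _)
  obtain ⟨Θ, ha, h0, hd, hs⟩ := normalise E x₁ hI
  -- choice of the radius
  have hst := (ha.hasStrictFDerivAt.isLittleO).bound (c := 1) one_pos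
  have hcl : ∀ᶠ p in 𝓝 (0 : ℂ × ℂ), ‖Θ p - x₁‖ < ρ / 8 := by
    have := ha.continuousAt.eventually (ball_mem_nhds (Θ 0) (show 0 < ρ / 8 by positivity))
    filter_upwards [this] with p hp
    rwa [dist_eq_norm, h0] at hp
  obtain ⟨r₁, hr₁, hb₁⟩ := Metric.eventually_nhds_iff_ball.mp (hcl.and ha.eventually_analyticAt)
  obtain ⟨r₂, hr₂, hb₂⟩ := Metric.eventually_nhds_iff_ball.mp hst
  set r : ℝ := min (min (r₁ / 2) (r₂ / 2)) (L / 2) with hrdef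
  have hr : 0 < r := lt_min (lt_min (by positivity) (by positivity)) (by positivity)
  have hr1 : r ≤ r₁ / 2 := (min_le_left _ _).trans (min_le_left _ _)
  have hr2 : r ≤ r₂ / 2 := (min_le_left _ _).trans (min_le_right _ _)
  have hr3 : r ≤ L / 2 := min_le_right _ _
  have hnorm : ∀ (s : ℝ) (v : ℂ), 0 ≤ s → s ≤ 2 → ‖v‖ < r →
      ‖(((s : ℂ) * v, v) : ℂ × ℂ)‖ < 2 * r := by
    intro s v hs0 hs2 hv
    rw [Prod.norm_def, max_lt_iff]
    refine ⟨?_, by simp only; linarith⟩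
    simp only [norm_mul, Complex.norm_real, Real.norm_eq_abs, abs_of_nonneg hs0]
    nlinarith [norm_nonneg v]
  have hgerm := iter_germ j Θ (step_germ E j (ball x₀ (3 * ρ)) Θ ha.continuousAt
    (isOpen_ball.mem_nhds (by rw [h0, mem_ball, dist_eq_norm]; linarith)) hs
    (fun a ha b hb c hc => (hE a ha b hb c hc).2))
  have hG : AnalyticAt ℂ (fun p => Θ p - x₀) 0 := ha.sub analyticAt_const
  obtain ⟨H, hHa, hHb, hHe⟩ := hX (fun p => Θ p - x₀) ρ r (L / r) hG hr (by positivity) (by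
    intro s hs0 hsS
    set n : ℕ := ⌊s⌋₊ with hn
    set σ : ℝ := s - n with hσ
    have hσ0 : 0 ≤ σ := by
      have := Nat.floor_le hs0
      linarith
    have hσ1 : σ ≤ 1 := by
      have := Nat.lt_floor_add_one s
      linarith
    have hnL : r * n ≤ L := by
      have h1 := Nat.floor_le hs0
      rw [le_div_iff₀ hr] at hsS
      nlinarith
    have key : ∀ v ∈ ball (0 : ℂ) r, ‖((T j)^[n] (pr Θ σ v)).1 - x₀‖ ≤ ρ ∧
        DifferentiableAt ℂ (fun v => ((T j)^[n] (pr Θ σ v)).1 - x₀) v := by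
      intro v hv
      rw [mem_ball_zero_iff] at hv
      have n1 := hnorm σ v hσ0 (by linarith) hv
      have n2 := hnorm (σ + 1) v (by linarith) (by linarith) hv
      push_cast at n2
      obtain ⟨b1, b2⟩ := hb₁ ((σ : ℂ) * v, v) (by rw [mem_ball_zero_iff]; linarith)
      obtain ⟨b3, b4⟩ := hb₁ (((σ : ℂ) + 1) * v, v) (by rw [mem_ball_zero_iff]; linarith)
      have b5 := hb₂ ((((σ : ℂ) + 1) * v, v), ((σ : ℂ) * v, v)) (by
        rw [mem_ball, Prod.dist_eq, max_lt_iff, dist_zero_right, dist_zero_right]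
        exact ⟨by simp only; linarith, by simp only; linarith⟩)
      have e1 : ((((σ : ℂ) + 1) * v, v) : ℂ × ℂ) - ((σ : ℂ) * v, v) = v • ((1, 0) : ℂ × ℂ) := by
        ext <;> simp; ring
      simp only [e1, map_smul, hd, smul_eq_mul, mul_one, one_mul, norm_smul] at b5
      have e2 : ‖((1, 0) : ℂ × ℂ)‖ = 1 := by simp [Prod.norm_def]
      rw [e2, mul_one] at b5
      have p1 : ‖(pr Θ σ v).1 - x₀‖ ≤ ρ / 4 := by
        show ‖Θ ((σ : ℂ) * v, v) - x₀‖ ≤ ρ / 4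
        calc ‖Θ ((σ : ℂ) * v, v) - x₀‖ = ‖(Θ ((σ : ℂ) * v, v) - x₁) + (x₁ - x₀)‖ := by
              congr 1; ring
          _ ≤ ‖Θ ((σ : ℂ) * v, v) - x₁‖ + ‖x₁ - x₀‖ := norm_add_le _ _
          _ ≤ ρ / 4 := by linarith
      have p2 : ‖(pr Θ σ v).2 - (pr Θ σ v).1‖ ≤ 2 * r := by
        show ‖Θ (((σ : ℂ) + 1) * v, v) - Θ ((σ : ℂ) * v, v)‖ ≤ 2 * r
        calc ‖Θ (((σ : ℂ) + 1) * v, v) - Θ ((σ : ℂ) * v, v)‖
            = ‖(Θ (((σ : ℂ) + 1) * v, v) - Θ ((σ : ℂ) * v, v) - v) + v‖ := by congr 1; ring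
          _ ≤ ‖Θ (((σ : ℂ) + 1) * v, v) - Θ ((σ : ℂ) * v, v) - v‖ + ‖v‖ := norm_add_le _ _
          _ ≤ 2 * r := by linarith
      obtain ⟨o1, -, o3⟩ := orbit j x₀ ρ C L r hρ hC hr (by linarith) hL1 hL2 hj (pr Θ σ v) p1 p2 n
        hnL
      refine ⟨by linarith, ?_⟩
      have l1 : AnalyticAt ℂ (fun v : ℂ => (((σ : ℂ) * v, v) : ℂ × ℂ)) v := by fun_prop
      have l2 : AnalyticAt ℂ (fun v : ℂ => ((((σ : ℂ) + 1) * v, v) : ℂ × ℂ)) v := by fun_prop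
      have l3 : AnalyticAt ℂ (pr Θ σ) v :=
        (AnalyticAt.comp_of_eq (g := Θ) b2 l1 rfl).prod (AnalyticAt.comp_of_eq (g := Θ) b4 l2 rfl)
      have l4 : AnalyticAt ℂ (fun v => (T j)^[n] (pr Θ σ v)) v :=
        AnalyticAt.comp (g := (T j)^[n]) o3 l3
      exact (l4.differentiableAt.fst).sub_const x₀
    refine ⟨fun v => ((T j)^[n] (pr Θ σ v)).1 - x₀,
      fun v hv => (key v hv).2.differentiableWithinAt, fun v hv => (key v hv).1, ?_⟩
    filter_upwards [hgerm σ n] with v hv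
    rw [hv]
    have e : (σ : ℂ) + n = (s : ℂ) := by rw [hσ]; push_cast; ring
    simp only [pr, e])
  have eL : L / r * r / 14 = L / 14 := by field_simp
  rw [eL] at hHa hHb
  -- the law on a smaller bidisc
  set V : Set (ℂ × ℂ) := ball (0 : ℂ) (L / 14 / 2) ×ˢ ball (0 : ℂ) (r / 14) with hV
  have hVo : IsOpen V := isOpen_ball.prod isOpen_ball
  have hVc : IsPreconnected V := ((convex_ball _ _).prod (convex_ball _ _)).isPreconnected
  have hmem : ∀ p ∈ V, ∀ c : ℂ, ‖c‖ ≤ 1 → ((p.1 + c * p.2, p.2) : ℂ × ℂ) ∈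
      ball (0 : ℂ) (L / 14) ×ˢ ball (0 : ℂ) (r / 14) := by
    rintro p ⟨hp1, hp2⟩ c hc
    refine ⟨?_, hp2⟩
    rw [mem_ball_zero_iff] at *
    have : ‖c * p.2‖ ≤ ‖p.2‖ := by
      rw [norm_mul]
      exact mul_le_of_le_one_left (norm_nonneg _) hc
    have h2 := norm_add_le p.1 (c * p.2)
    simp only
    linarith
  have hin : ∀ p ∈ ball (0 : ℂ) (L / 14) ×ˢ ball (0 : ℂ) (r / 14), H p + x₀ ∈ ball x₀ (3 * ρ) := by
    intro p hp
    rw [mem_ball, dist_eq_norm, add_sub_cancel_right]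
    linarith [hHb p hp]
  have hFa : AnalyticOnNhd ℂ (fun p : ℂ × ℂ =>
      E (H (p.1 - p.2, p.2) + x₀, H p + x₀, H (p.1 + p.2, p.2) + x₀)) V := by
    intro p hp
    have m1 := hmem p hp (-1) (by simp)
    have m2 := hmem p hp 0 (by simp)
    have m3 := hmem p hp 1 (by simp)
    rw [neg_one_mul, ← sub_eq_add_neg] at m1
    rw [zero_mul, add_zero] at m2
    rw [one_mul] at m3
    have l1 : AnalyticAt ℂ (fun p : ℂ × ℂ => ((p.1 - p.2, p.2) : ℂ × ℂ)) p :=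
      (analyticAt_fst.sub analyticAt_snd).prod analyticAt_snd
    have l3 : AnalyticAt ℂ (fun p : ℂ × ℂ => ((p.1 + p.2, p.2) : ℂ × ℂ)) p :=
      (analyticAt_fst.add analyticAt_snd).prod analyticAt_snd
    have a1 : AnalyticAt ℂ (fun p : ℂ × ℂ => H (p.1 - p.2, p.2) + x₀) p :=
      (AnalyticAt.comp_of_eq (g := H) (hHa _ m1) l1 rfl).add (analyticAt_const (v := x₀))
    have a2 : AnalyticAt ℂ (fun p : ℂ × ℂ => H p + x₀) p :=
      (hHa _ m2).add (analyticAt_const (v := x₀))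
    have a3 : AnalyticAt ℂ (fun p : ℂ × ℂ => H (p.1 + p.2, p.2) + x₀) p :=
      (AnalyticAt.comp_of_eq (g := H) (hHa _ m3) l3 rfl).add (analyticAt_const (v := x₀))
    exact AnalyticAt.comp_of_eq (g := E) (hE _ (hin _ m1) _ (hin _ m2) _ (hin _ m3)).1
      (a1.prod (a2.prod a3)) rfl
  have h0V : (0 : ℂ × ℂ) ∈ V := ⟨mem_ball_self (by positivity), mem_ball_self (by positivity)⟩
  have hzero := hFa.eqOn_zero_of_preconnected_of_eventuallyEq_zero hVc h0V (by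
    have t1 : Tendsto (fun p : ℂ × ℂ => ((p.1 - p.2, p.2) : ℂ × ℂ)) (𝓝 0) (𝓝 0) := by
      have : Continuous (fun p : ℂ × ℂ => ((p.1 - p.2, p.2) : ℂ × ℂ)) := by fun_prop
      exact this.tendsto' 0 0 (by simp)
    have t3 : Tendsto (fun p : ℂ × ℂ => ((p.1 + p.2, p.2) : ℂ × ℂ)) (𝓝 0) (𝓝 0) := by
      have : Continuous (fun p : ℂ × ℂ => ((p.1 + p.2, p.2) : ℂ × ℂ)) := by fun_prop
      exact this.tendsto' 0 0 (by simp)
    filter_upwards [t1.eventually hHe, hHe, t3.eventually hHe, hs] with p h1 h2 h3 h4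
    simp only [h1, h2, h3, sub_add_cancel, Pi.zero_apply]
    exact h4)
  have hline : ∀ z ∈ ball (0 : ℂ) (L / 14), ((z, 0) : ℂ × ℂ) ∈
      ball (0 : ℂ) (L / 14) ×ˢ ball (0 : ℂ) (r / 14) :=
    fun z hz => ⟨hz, mem_ball_self (by positivity)⟩
  have hH0 : H 0 = x₁ - x₀ := by rw [hHe.self_of_nhds, h0]
  have hHd : fderiv ℂ H 0 (1, 0) = 1 := by
    have : fderiv ℂ H 0 = fderiv ℂ (fun p => Θ p - x₀) 0 := Filter.EventuallyEq.fderiv_eq hHe
    rw [this, fderiv_sub_const, hd]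
  obtain ⟨η, hη, hη0, hη1⟩ := hq (fun z => H (z, 0))
    (fun z hz => (hasDerivAt_line (hHa _ (hline z hz)).differentiableAt).differentiableAt
      |>.differentiableWithinAt)
    (fun z hz => hHb _ (hline z hz))
    (by
      rw [(hasDerivAt_line (hHa _ (hline 0 (mem_ball_self (by positivity)))).differentiableAt).deriv]
      exact hHd)
    (by
      show ‖H 0‖ < δ
      rw [hH0]; exact hx1)
  have hη' : η ∈ ball (0 : ℂ) (L / 14) := ball_subset_ball (by linarith) hη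
  have hηV : ((η, 0) : ℂ × ℂ) ∈ V := ⟨hη, mem_ball_self (by positivity)⟩
  have hres := recentre E (fun p => H p + x₀) η ((hHa _ (hline η hη')).add analyticAt_const)
    (by
      rw [fderiv_add_const, ← (hasDerivAt_line (hHa _ (hline η hη')).differentiableAt).deriv]
      exact hη1)
    (by
      filter_upwards [hVo.mem_nhds hηV] with p hp
      exact hzero hp)
  have hη2 : H (η, 0) = 0 := hη0
  simpa only [hη2, zero_add] using hres

end Propag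

open Propag in
theorem propag (hS : Spec_STEP) (hL : Spec_LAWF) (hX : Spec_EXT) : Spec_PROP := by
  intro E D _ hD hlaw x₀ hx₀ hI
  refine hD.subset_of_closure_inter_subset (isOpen_int E) ⟨x₀, hx₀, hI⟩ ?_
  rintro x ⟨hxc, hxD⟩
  have hx := hlaw x hxD
  obtain ⟨J, hJa, -, hJe, C, hJb⟩ := hS (fun q => E q.2) 0 x (hL.2 E 0 x hx)
  have t3 : Tendsto (fun q : ℂ × ℂ × ℂ => (((0 : ℂ), q) : ℂ × ℂ × ℂ × ℂ)) (𝓝 (x, x, x))
      (𝓝 (0, x, x, x)) := (Continuous.prodMk_right (0 : ℂ)).tendsto _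
  have t2 : Tendsto (fun q : ℂ × ℂ => (((0 : ℂ), q) : ℂ × ℂ × ℂ)) (𝓝 (x, x))
      (𝓝 (0, x, x)) := (Continuous.prodMk_right (0 : ℂ)).tendsto _
  obtain ⟨ρ₁, hρ₁, h₁⟩ := Metric.eventually_nhds_iff_ball.mp
    (hx.an.eventually_analyticAt.and (t3.eventually hJe))
  obtain ⟨ρ₂, hρ₂, h₂⟩ := Metric.eventually_nhds_iff_ball.mp
    ((t2.eventually hJa.eventually_analyticAt).and (t2.eventually hJb))
  have hm : 0 < min ρ₁ ρ₂ := lt_min hρ₁ hρ₂
  have e3 : 3 * (min ρ₁ ρ₂ / 3) = min ρ₁ ρ₂ := by ring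
  obtain ⟨δ, hδ, hcore⟩ := core hX E (fun p => J (0, p)) x (min ρ₁ ρ₂ / 3) (|C| + 1)
    (by positivity) (by positivity)
    (by
      intro a ha b hb c hc
      rw [e3] at ha hb hc
      have hmem : ((a, b, c) : ℂ × ℂ × ℂ) ∈ ball (x, x, x) ρ₁ := by
        rw [← ball_prod_same, ← ball_prod_same]
        exact ⟨ball_subset_ball (min_le_left _ _) ha, ball_subset_ball (min_le_left _ _) hb,
          ball_subset_ball (min_le_left _ _) hc⟩
      obtain ⟨k1, k2⟩ := h₁ _ hmem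
      exact ⟨k1, fun h => k2.mp h⟩)
    (by
      intro a ha b hb
      rw [e3] at ha hb
      have hmem : ((a, b) : ℂ × ℂ) ∈ ball (x, x) ρ₂ := by
        rw [← ball_prod_same]
        exact ⟨ball_subset_ball (min_le_right _ _) ha, ball_subset_ball (min_le_right _ _) hb⟩
      obtain ⟨k1, k2⟩ := h₂ _ hmem
      have l : AnalyticAt ℂ (fun q : ℂ × ℂ => (((0 : ℂ), q) : ℂ × ℂ × ℂ)) (a, b) := by fun_prop
      refine ⟨AnalyticAt.comp (g := J) k1 l, k2.trans ?_⟩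
      have : C ≤ |C| + 1 := by linarith [le_abs_self C]
      exact mul_le_mul_of_nonneg_right this (by positivity))
  obtain ⟨x₁, hx₁, hd⟩ := Metric.mem_closure_iff.mp hxc δ hδ
  exact hcore x₁ (by rw [← dist_eq_norm, dist_comm]; exact hd) hx₁

end Vale.Agent.P097A
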