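import Vale.Agent.P097A.Pup

/-!
# P097A: the field of convergent Puiseux series
-/

noncomputable section

namespace Vale.Agent.P097A

open Filter Topology Set Metric Complex

namespace Pui

/-- the filter `Re l → -∞` -/
abbrev L : Filter ℂ := comap re atBot

/-- the local parameter `s ^ (1 / e)` for `s = exp l` -/
def ex (e : ℕ) (l : ℂ) : ℂ := exp (l / e)

theorem tendsto_mul {c : ℝ} (hc : 0 < c) : Tendsto (fun l : ℂ => l * c) L L :=
  tendsto_comap_iff.2 <| by
    simpa [Function.comp_def] using (tendsto_comap (f := re) (x := atBot)).atBot_mul_const hc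

theorem map_ex {e : ℕ} (he : 0 < e) : map (ex e) L = 𝓝[≠] 0 := by
  have h0 : (0 : ℝ) < e := by exact_mod_cast he
  have h1 : (e : ℂ) ≠ 0 := by exact_mod_cast he.ne'
  have h2 : map (fun l : ℂ => l / e) L = L := by
    refine le_antisymm (show Tendsto _ _ _ by
      simpa [div_eq_mul_inv] using tendsto_mul (inv_pos.2 h0)) ?_
    have := map_mono (m := fun l : ℂ => l / e) (tendsto_mul h0)
    simpa [map_map, Function.comp_def, h1] using this
  rw [← map_exp_comap_re_atBot]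
  exact (map_map (m := fun l : ℂ => l / e) (m' := exp)).symm.trans (congrArg _ h2)

theorem ex_pow {e d : ℕ} (hd : 0 < d) (l : ℂ) : ex (e * d) l ^ d = ex e l := by
  have h1 : (d : ℂ) ≠ 0 := by exact_mod_cast hd.ne'
  rw [ex, ex, ← exp_nat_mul, Nat.cast_mul, ← div_div, mul_div_cancel₀ _ h1]

/-- the germ of `F (s ^ (1 / e))` -/
def ph (e : ℕ) : (ℂ → ℂ) →+* Germ L ℂ where
  toFun F := ((fun l => F (ex e l) : ℂ → ℂ) : Germ L ℂ)
  map_one' := rfl
  map_mul' _ _ := rfl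
  map_zero' := rfl
  map_add' _ _ := rfl

variable {e d : ℕ} {F G : ℂ → ℂ}

theorem ph_eq (he : 0 < e) : ph e F = ph e G ↔ F =ᶠ[𝓝[≠] 0] G := by
  rw [← map_ex he]
  exact Germ.coe_eq

theorem ph_pow (hd : 0 < d) : ph (e * d) (fun τ => F (τ ^ d)) = ph e F :=
  congrArg Germ.ofFun (funext fun l => congrArg F (ex_pow hd l))

theorem ph_tendsto (he : 0 < e) {l : Filter ℂ} : (ph e F).Tendsto l ↔ Tendsto F (𝓝[≠] 0) l := by
  rw [← map_ex he]
  exact Germ.coe_tendsto

theorem mer_pow (hF : MeromorphicAt F 0) (hd : 0 < d) : MeromorphicAt (fun τ => F (τ ^ d)) 0 :=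
  MeromorphicAt.comp_analyticAt (g := fun τ : ℂ => τ ^ d) (by rwa [zero_pow hd.ne'])
    (analyticAt_id.pow d)

/-- `x` is a Puiseux series with denominator `e` -/
def Rp (e : ℕ) (x : Germ L ℂ) : Prop := ∃ F, MeromorphicAt F 0 ∧ x = ph e F

theorem Rp.dvd {x : Germ L ℂ} (h : Rp e x) {n : ℕ} (hn : 0 < n) (k : e ∣ n) : Rp n x := by
  obtain ⟨d, rfl⟩ := k
  obtain ⟨F, h1, rfl⟩ := h
  have hd := Nat.pos_of_mul_pos_left hn
  exact ⟨_, mer_pow h1 hd, (ph_pow hd).symm⟩

theorem two {x y : Germ L ℂ} (hx : ∃ e > 0, Rp e x) (hy : ∃ e > 0, Rp e y) :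
    ∃ e > 0, Rp e x ∧ Rp e y :=
  let ⟨a, a0, ha⟩ := hx
  let ⟨b, b0, hb⟩ := hy
  ⟨a * b, mul_pos a0 b0, ha.dvd (mul_pos a0 b0) (dvd_mul_right a b),
    hb.dvd (mul_pos a0 b0) (dvd_mul_left b a)⟩

/-- the ring of the Puiseux series -/
def S : Subring (Germ L ℂ) where
  carrier := {x | ∃ e > 0, Rp e x}
  mul_mem' hx hy := let ⟨e, e0, ⟨_, h1, h2⟩, _, h3, h4⟩ := two hx hy
    ⟨e, e0, _, h1.mul h3, by rw [map_mul, h2, h4]⟩
  one_mem' := ⟨1, one_pos, 1, .const 1 0, rfl⟩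
  add_mem' hx hy := let ⟨e, e0, ⟨_, h1, h2⟩, _, h3, h4⟩ := two hx hy
    ⟨e, e0, _, h1.add h3, by rw [map_add, h2, h4]⟩
  zero_mem' := ⟨1, one_pos, 0, .const 0 0, rfl⟩
  neg_mem' := fun ⟨e, e0, _, h1, h2⟩ => ⟨e, e0, _, h1.neg, by rw [map_neg, h2]⟩

theorem ph_inv (he : 0 < e) (hF : MeromorphicAt F 0) (h : ph e F ≠ 0) : ph e F * ph e F⁻¹ = 1 := by
  rw [← map_mul, ← (ph e).map_one, ph_eq he]
  exact (hF.eventually_eq_zero_or_eventually_ne_zero.resolve_left fun k =>
    h (((ph_eq he).2 k).trans (map_zero _))).mono fun τ k => mul_inv_cancel₀ k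

theorem isField : IsField S where
  exists_pair_ne := ⟨0, 1, fun h => zero_ne_one
    ((ph_eq (F := 0) (G := 1) one_pos).1 (congrArg Subtype.val h)).exists.choose_spec⟩
  mul_comm := mul_comm
  mul_inv_cancel := by
    rintro ⟨_, e, e0, F, h1, rfl⟩ h
    exact ⟨⟨ph e F⁻¹, e, e0, _, h1.inv, rfl⟩, Subtype.ext (ph_inv e0 h1 fun k => h (Subtype.ext k))⟩

/-- the field of the Puiseux series -/
def K : Type := S

instance : Field K := isField.toField

instance : Algebra ℂ K := RingHom.toAlgebra (R := ℂ) (S := K)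
  (((ph 1).comp (Pi.constRingHom ℂ ℂ)).codRestrict S fun c => ⟨1, one_pos, _, .const c 0, rfl⟩)

/-- the underlying germ -/
def gm : K →+* Germ L ℂ := S.subtype

theorem gm_inj : Function.Injective gm := Subtype.val_injective

open Classical in
/-- the Puiseux series `F (s ^ (1 / e))` -/
def pm (e : ℕ) (F : ℂ → ℂ) : K :=
  if h : 0 < e ∧ MeromorphicAt F 0 then (⟨ph e F, e, h.1, F, h.2, rfl⟩ : S) else 0

theorem gm_pm (he : 0 < e) (hF : MeromorphicAt F 0) : gm (pm e F) = ph e F :=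
  congrArg gm (dif_pos ⟨he, hF⟩)

theorem surj (x : K) : ∃ (e : ℕ) (F : ℂ → ℂ), 0 < e ∧ MeromorphicAt F 0 ∧ x = pm e F :=
  let ⟨e, e0, F, h1, h2⟩ := x.2
  ⟨e, F, e0, h1, gm_inj (h2.trans (gm_pm e0 h1).symm)⟩

theorem pm_inj (he : 0 < e) (hF : MeromorphicAt F 0) (hG : MeromorphicAt G 0) :
    pm e F = pm e G ↔ F =ᶠ[𝓝[≠] 0] G := by
  rw [← gm_inj.eq_iff, gm_pm he hF, gm_pm he hG, ph_eq he]

theorem pm_mul (he : 0 < e) (hF : MeromorphicAt F 0) (hG : MeromorphicAt G 0) :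
    pm e (F * G) = pm e F * pm e G := gm_inj <| by
  rw [map_mul, gm_pm he hF, gm_pm he hG, gm_pm he (hF.mul hG), map_mul]

theorem pm_zero (he : 0 < e) (hF : MeromorphicAt F 0) : pm e F = 0 ↔ F =ᶠ[𝓝[≠] 0] 0 := by
  rw [← gm_inj.eq_iff, gm_pm he hF, map_zero, ← ph_eq he, map_zero]

theorem pm_inv (he : 0 < e) (hF : MeromorphicAt F 0) : (pm e F)⁻¹ = pm e F⁻¹ := by
  by_cases h : pm e F = 0
  · rw [h, inv_zero, eq_comm, pm_zero he hF.inv]
    exact ((pm_zero he hF).1 h).mono fun τ k => inv_eq_zero.2 k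
  · refine inv_eq_of_mul_eq_one_right (gm_inj ?_)
    rw [map_mul, gm_pm he hF, gm_pm he hF.inv, map_one]
    exact ph_inv he hF fun k => h (gm_inj (by rw [gm_pm he hF, k, map_zero]))

theorem lim₂ {f : ℂ → ℂ → ℂ} (hf : Continuous fun p : ℂ × ℂ => f p.1 p.2) {x y : Germ L ℂ} {a b : ℂ}
    (hx : x.Tendsto (𝓝 a)) (hy : y.Tendsto (𝓝 b)) : (Germ.map₂ f x y).Tendsto (𝓝 (f a b)) := by
  induction x using Germ.inductionOn
  induction y using Germ.inductionOn
  exact (hf.tendsto (a, b)).comp (Tendsto.prodMk_nhds hx hy)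

/-- the series with a finite limit -/
def O : ValuationSubring K where
  carrier := {x | ∃ c : ℂ, (gm x).Tendsto (𝓝 c)}
  mul_mem' := fun ⟨_, h1⟩ ⟨_, h2⟩ => ⟨_, lim₂ continuous_mul h1 h2⟩
  one_mem' := ⟨1, tendsto_const_nhds⟩
  add_mem' := fun ⟨_, h1⟩ ⟨_, h2⟩ => ⟨_, lim₂ continuous_add h1 h2⟩
  zero_mem' := ⟨0, tendsto_const_nhds⟩
  neg_mem' := fun {x} ⟨_, h1⟩ => ⟨_, by
    rw [← neg_one_mul]
    exact lim₂ (x := gm (-1)) continuous_mul (tendsto_const_nhds (x := -1)) h1⟩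
  mem_or_inv_mem' x := by
    obtain ⟨e, F, e0, h, rfl⟩ := surj x
    simp only [mem_ofPred_eq, pm_inv e0 h, gm_pm e0 h, gm_pm e0 h.inv, ph_tendsto e0]
    rcases le_total 0 (meromorphicOrderAt F 0) with k | k
    · exact .inl (tendsto_nhds_of_meromorphicOrderAt_nonneg h k)
    · refine .inr (tendsto_nhds_of_meromorphicOrderAt_nonneg h.inv ?_)
      rw [meromorphicOrderAt_inv]
      induction h : meromorphicOrderAt F 0 with
      | top => simp
      | coe a => simpa [← WithTop.LinearOrderedAddCommGroup.coe_neg, h] using k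

theorem v_le (he : 0 < e) (hF : MeromorphicAt F 0) :
    O.valuation (pm e F) ≤ 1 ↔ 0 ≤ meromorphicOrderAt F 0 := by
  rw [O.valuation_le_one_iff, ← tendsto_nhds_iff_meromorphicOrderAt_nonneg hF]
  show (∃ c : ℂ, (gm (pm e F)).Tendsto (𝓝 c)) ↔ _
  simp only [gm_pm he hF, ph_tendsto he]

theorem v_lt (he : 0 < e) (hF : MeromorphicAt F 0) :
    O.valuation (pm e F) < 1 ↔ 0 < meromorphicOrderAt F 0 := by
  rw [← O.mem_nonunits_iff, O.mem_nonunits_iff_or, ← O.valuation_le_one_iff, pm_inv he hF,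
    v_le he hF.inv, meromorphicOrderAt_inv, pm_zero he hF]
  have := meromorphicOrderAt_eq_top_iff (f := F) (x := 0)
  rw [show (F =ᶠ[𝓝[≠] 0] 0) ↔ _ from this.symm]
  induction meromorphicOrderAt F 0 with
  | top => simp
  | coe a => simp [← WithTop.LinearOrderedAddCommGroup.coe_neg]

theorem v_one (he : 0 < e) (hF : MeromorphicAt F 0) (h : meromorphicOrderAt F 0 = 0) :
    O.valuation (pm e F) = 1 :=
  ((v_le he hF).2 h.ge).eq_of_not_lt fun k => ((v_lt he hF).1 k).ne' h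

theorem pm_const (he : 0 < e) (c : ℂ) : pm e (fun _ => c) = algebraMap ℂ K c :=
  gm_inj (gm_pm he (.const c 0))

theorem tendsto_add {c : ℂ} (hc : c.re = 0) : Tendsto (fun l : ℂ => c + l) L L :=
  tendsto_comap_iff.2 <| by
    simp only [Function.comp_def, add_re, hc, zero_add]
    exact tendsto_comap

/-- the shift of germs -/
def sh {c : ℂ} (hc : c.re = 0) : Germ L ℂ →+* Germ L ℂ where
  toFun x := x.compTendsto _ (tendsto_add hc)
  map_one' := rfl
  map_mul' x y := Germ.inductionOn₂ x y fun _ _ => rfl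
  map_zero' := rfl
  map_add' x y := Germ.inductionOn₂ x y fun _ _ => rfl

theorem sh_ph {c : ℂ} (hc : c.re = 0) : sh hc (ph e F) = ph e fun τ => F (ex e c * τ) :=
  congrArg Germ.ofFun (funext fun l => by simp only [ex, Function.comp, add_div, exp_add])

theorem mer_rot (hF : MeromorphicAt F 0) (c : ℂ) : MeromorphicAt (fun τ => F (c * τ)) 0 :=
  MeromorphicAt.comp_analyticAt (g := fun τ : ℂ => c * τ) (by rwa [mul_zero]) (by fun_prop)

theorem sh_sh {c c' : ℂ} (hc : c.re = 0) (hc' : c'.re = 0) (h : c + c' = 0) (x : Germ L ℂ) :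
    sh hc' (sh hc x) = x := Germ.inductionOn x fun f =>
  congrArg Germ.ofFun (funext fun l => by simp only [Function.comp, ← add_assoc, h, zero_add])

/-- the shift of Puiseux series -/
def sk {c : ℂ} (hc : c.re = 0) : K →+* K :=
  ((sh hc).comp gm).codRestrict S fun x =>
    let ⟨e, e0, _, h1, h2⟩ := x.2
    ⟨e, e0, _, mer_rot h1 _, (congrArg (sh hc) h2).trans (sh_ph hc)⟩

theorem re0 : (2 * Real.pi * I : ℂ).re = 0 := by simp

theorem re1 : (-(2 * Real.pi * I) : ℂ).re = 0 := by simp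

/-- the monodromy -/
def g : K ≃ₐ[ℂ] K where
  toFun := sk re0
  invFun := sk re1
  left_inv _ := gm_inj (sh_sh re0 re1 (add_neg_cancel _) _)
  right_inv _ := gm_inj (sh_sh re1 re0 (neg_add_cancel _) _)
  map_mul' := map_mul _
  map_add' := map_add _
  commutes' _ := rfl

theorem g_pm (he : 0 < e) (hF : MeromorphicAt F 0) :
    g (pm e F) = pm e fun τ => F (ex e (2 * Real.pi * I) * τ) := gm_inj <| by
  rw [gm_pm he (mer_rot hF _), ← sh_ph re0, ← gm_pm he hF]
  rfl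

theorem v_g (x : K) : O.valuation (g x) = O.valuation x := by
  obtain ⟨e, F, e0, h, rfl⟩ := surj x
  by_cases h0 : pm e F = 0
  · rw [h0, map_zero]
  have h1 := mer_rot h (ex e (2 * Real.pi * I))
  have h2 : meromorphicOrderAt F 0 ≠ ⊤ := fun k =>
    h0 ((pm_zero e0 h).2 (meromorphicOrderAt_eq_top_iff.1 k))
  have h3 : meromorphicOrderAt (fun τ => F (ex e (2 * Real.pi * I) * τ)) 0 =
      meromorphicOrderAt F 0 := by
    have := meromorphicOrderAt_comp_of_deriv_ne_zero (f := F) (x := 0)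
      (g := fun τ : ℂ => ex e (2 * Real.pi * I) * τ) (by fun_prop) (by simp [ex])
    rwa [mul_zero] at this
  have h4 := v_one e0 (h1.mul h.inv) (by
    rw [meromorphicOrderAt_mul h1 h.inv, meromorphicOrderAt_inv, h3,
      LinearOrderedAddCommGroupWithTop.add_neg_cancel_of_ne_top h2])
  rwa [pm_mul e0 h1 h.inv, ← pm_inv e0 h, ← g_pm e0 h, map_mul, map_inv₀,
    mul_inv_eq_one₀ ((Valuation.ne_zero_iff _).2 h0)] at h4

theorem fixed (hD : Spec_DESC) (x : K) (hx : g x = x) :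
    ∃ F : ℂ → ℂ, MeromorphicAt F 0 ∧ x = pm 1 F := by
  obtain ⟨e, F, e0, h, rfl⟩ := surj x
  rw [g_pm e0 h, pm_inj e0 (mer_rot h _) h] at hx
  have hz : IsPrimitiveRoot (ex e (2 * Real.pi * I)) e := isPrimitiveRoot_exp e e0.ne'
  generalize ex e (2 * Real.pi * I) = z at hx hz
  have z0 := hz.ne_zero e0.ne'
  have t : Tendsto (fun τ : ℂ => z * τ) (𝓝[≠] 0) (𝓝[≠] 0) := tendsto_nhdsWithin_iff.2
    ⟨(Continuous.tendsto' (by fun_prop) _ _ (by simp)).mono_left nhdsWithin_le_nhds,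
      eventually_mem_nhdsWithin.mono fun _ k => mul_ne_zero z0 k⟩
  have it : ∀ j : ℕ, ∀ᶠ τ in 𝓝[≠] (0 : ℂ), F (z ^ j * τ) = F τ := fun j => by
    induction j with
    | zero => simp
    | succ j ih =>
      filter_upwards [t.eventually ih, hx] with τ k1 k2
      rw [pow_succ, mul_assoc, k1, k2]
  obtain ⟨n, hn⟩ := id h
  obtain ⟨m, hm⟩ := Nat.exists_eq_add_of_le (Nat.le_mul_of_pos_left n e0)
  have ha : AnalyticAt ℂ (fun τ => (τ ^ e) ^ n * F τ) 0 :=
    ((analyticAt_id.pow m).mul hn).congr (.of_forall fun s => by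
      simp only [← pow_mul, hm, Pi.mul_apply, Pi.pow_apply, id, sub_zero, smul_eq_mul]
      ring)
  obtain ⟨w, w1, w2⟩ := hD.1 e _ e0 ha fun ζ hζ => by
    have := NeZero.mk e0.ne'
    obtain ⟨j, -, rfl⟩ := hz.eq_pow_of_pow_eq_one hζ
    filter_upwards [eventually_nhdsWithin_iff.1 (it j)] with τ k
    by_cases k0 : τ = 0
    · rw [k0, mul_zero]
    · rw [k k0, mul_pow, hζ, one_mul]
  have hm : MeromorphicAt (fun s => w s / s ^ n) 0 :=
    w1.meromorphicAt.div ((MeromorphicAt.id 0).pow n)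
  refine ⟨_, hm, gm_inj ?_⟩
  rw [gm_pm e0 h, gm_pm one_pos hm, ← ph_pow (e := 1) e0, one_mul, ph_eq e0]
  filter_upwards [nhdsWithin_le_nhds w2, self_mem_nhdsWithin] with τ k1 k2
  rw [← k1, mul_div_cancel_left₀ _ (pow_ne_zero _ (pow_ne_zero _ k2))]

theorem algClosed : IsAlgClosed K := IsAlgClosed.of_exists_root K fun p hp hi => by
  choose a F a0 h1 h2 using fun i => surj (p.coeff i)
  have e0 : 0 < ∏ i ∈ Finset.range p.natDegree, a i := Finset.prod_pos fun i _ => a0 i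
  have h3 : ∀ i, ∃ G, MeromorphicAt G 0 ∧ (i ∈ Finset.range p.natDegree →
      gm (p.coeff i) = ph (∏ i ∈ Finset.range p.natDegree, a i) G) := fun i => by
    by_cases k : i ∈ Finset.range p.natDegree
    · obtain ⟨G, k1, k2⟩ := Rp.dvd ⟨F i, h1 i, rfl⟩ e0 (Finset.dvd_prod_of_mem a k)
      exact ⟨G, k1, fun _ => by rw [h2, gm_pm (a0 i) (h1 i), k2]⟩
    · exact ⟨0, .const 0 0, fun k' => absurd k' k⟩
  choose G h4 h5 using h3
  obtain ⟨d, Y, d0, hY, h⟩ := root' p.natDegree G hi.natDegree_pos h4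
  have e1 := mul_pos e0 d0
  generalize ∏ i ∈ Finset.range p.natDegree, a i = e at h5 e1
  refine ⟨pm (e * d) Y, gm_inj ?_⟩
  rw [hp.as_sum, Polynomial.eval_add, Polynomial.eval_finsetSum, map_add, map_sum, map_zero]
  simp only [Polynomial.eval_pow, Polynomial.eval_X, Polynomial.eval_mul, Polynomial.eval_C,
    map_pow, map_mul]
  rw [gm_pm e1 hY, Finset.sum_congr rfl fun i hi => by
    rw [h5 i hi, ← ph_pow d0, ← map_pow, ← map_mul], ← map_pow, ← map_sum, ← map_add,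
    ← (ph _).map_zero, ph_eq e1]
  exact h.mono fun τ k => by simpa using k

end Pui

open Pui in
theorem pui (hD : Spec_DESC) : Spec_PUI :=
  ⟨K, inferInstance, inferInstance, O.ValueGroup, inferInstance, algClosed, ⟨{
    v := O.valuation
    g := g
    v_alg := fun c hc => by
      rw [← pm_const one_pos]
      exact v_one one_pos (.const c 0) (by classical rw [meromorphicOrderAt_const, if_neg hc])
    v_res := fun x hx => by
      obtain ⟨e, F, e0, h, rfl⟩ := surj x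
      obtain ⟨c, hc⟩ := tendsto_nhds_of_meromorphicOrderAt_nonneg h ((v_le e0 h).1 hx)
      have h1 : MeromorphicAt (F - fun _ => c) 0 := h.sub (.const c 0)
      refine ⟨c, ?_⟩
      rw [show pm e F - algebraMap ℂ K c = pm e (F - fun _ => c) from gm_inj (by
        rw [← pm_const e0, map_sub, gm_pm e0 h, gm_pm e0 h1, gm_pm e0 (.const c 0), map_sub]),
        v_lt e0 h1, ← tendsto_zero_iff_meromorphicOrderAt_pos h1]
      exact tendsto_sub_nhds_zero_iff.2 hc
    v_g := v_g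
    pm := pm
    surj := surj
    pm_add := fun e F G he hF hG => gm_inj <| by
      rw [map_add, gm_pm he hF, gm_pm he hG, gm_pm he (hF.add hG), map_add]
    pm_mul := fun _ _ _ => pm_mul
    pm_const := fun _ c he => pm_const he c
    pm_pow := fun e d F he hd hF => gm_inj <| by
      rw [gm_pm (mul_pos he hd) (mer_pow hF hd), gm_pm he hF, ph_pow hd]
    pm_inj := fun _ _ _ => pm_inj
    g_one := fun F hF => by simp [g_pm one_pos hF, ex]
    fixed := fixed hD
    v_lt := fun e F he hF => by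
      rw [v_lt he hF, tendsto_zero_iff_meromorphicOrderAt_pos hF] }⟩⟩

end Vale.Agent.P097A
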