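import Vale.Agent.P097A.Spec
import Vale.Agent.P267.H823.Puiseux

/-!
# P097A: Puiseux factorisation
-/

noncomputable section

namespace Vale.Agent.P097A

open Filter Topology Set Metric Polynomial Vale.Agent.P267.H823.Puiseux

theorem tendsto_pow_ne {e : ℕ} (he : 0 < e) :
    Tendsto (fun τ : ℂ => τ ^ e) (𝓝[≠] 0) (𝓝[≠] 0) :=
  tendsto_nhdsWithin_iff.2 ⟨(tendsto_pow he).mono_left nhdsWithin_le_nhds,
    eventually_mem_nhdsWithin.mono fun _ h => pow_ne_zero _ h⟩

theorem pup : Spec_PUP := by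
  intro d q hq h0
  choose k hk using fun i => (hq i).div (hq d)
  obtain ⟨K, hK⟩ : ∃ K, ∀ i < d, k i ≤ K := ⟨∑ i ∈ Finset.range d, k i, fun i hi =>
    Finset.single_le_sum (fun _ _ => Nat.zero_le _) (Finset.mem_range.2 hi)⟩
  have ha : ∀ i : Fin d, AnalyticAt ℂ (fun s => (s ^ K) ^ (d - i) * (q i s / q d s)) 0 := fun i => by
    obtain ⟨m, hm⟩ := Nat.exists_eq_add_of_le ((hK i i.2).trans
      (Nat.le_mul_of_pos_right K (Nat.sub_pos_of_lt i.2)))
    refine ((analyticAt_id.pow m).mul (hk i)).congr (.of_forall fun s => ?_)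
    simp only [← pow_mul, hm, Pi.mul_apply, Pi.pow_apply, id, sub_zero, smul_eq_mul, Pi.div_apply]
    ring
  obtain ⟨e, e0, κ, _, β, hβ, hP⟩ := main d
    (fun s => mk fun i : Fin d => (s ^ K) ^ (d - i) * (q i s / q d s)) (fun s => mk_monic _)
    fun i => by
      simp only [P267.H823.Puiseux.mk, coeff_add, finsetSum_coeff, coeff_C_mul]
      exact analyticAt_const.add (Finset.analyticAt_fun_sum _ fun j _ => (ha j).mul analyticAt_const)
  have hc : Fintype.card κ = d := by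
    have := congrArg natDegree hP.self_of_nhds
    rwa [(mk_monic _).2, natDegree_finsetProd_X_sub_C_eq_card, Finset.card_univ, eq_comm] at this
  refine ⟨e, fun i τ => β ((Fintype.equivFinOfCardEq hc).symm i) τ / (τ ^ e) ^ K, e0,
    fun i => (hβ _).meromorphicAt.div (((MeromorphicAt.id 0).pow e).pow K), ?_⟩
  filter_upwards [nhdsWithin_le_nhds hP, (tendsto_pow_ne e0).eventually h0,
    (tendsto_pow_ne e0).eventually self_mem_nhdsWithin] with τ h1 h2 h3 y
  have t0 : (τ ^ e) ^ K ≠ 0 := pow_ne_zero _ h3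
  have h4 := congrArg (eval ((τ ^ e) ^ K * y)) h1
  simp only [P267.H823.Puiseux.mk, eval_add, eval_pow, eval_X, eval_finsetSum, eval_mul, eval_C, eval_prod,
    eval_sub] at h4
  generalize (τ ^ e) ^ K = t at *
  rw [(Fintype.equivFinOfCardEq hc).symm.prod_comp fun i => y - β i τ / t]
  have h5 : ∏ i, (t * y - β i τ) = t ^ d * ∏ i, (y - β i τ / t) := by
    rw [← hc, ← Finset.card_univ, ← Finset.prod_const, ← Finset.prod_mul_distrib]
    exact Finset.prod_congr rfl fun i _ => by field_simp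
  refine mul_left_cancel₀ (pow_ne_zero d t0) ?_
  rw [mul_left_comm, ← h5, ← h4, Finset.sum_range_succ, ← Fin.sum_univ_eq_sum_range
    fun i => q i (τ ^ e) * y ^ i, mul_add, mul_add, Finset.mul_sum, Finset.mul_sum, add_comm]
  congr 1
  · ring
  · refine Finset.sum_congr rfl fun i _ => ?_
    rw [show t ^ d = t ^ (d - i) * t ^ (i : ℕ) by rw [← pow_add, Nat.sub_add_cancel i.2.le], mul_pow]
    field_simp

/-- a monic polynomial with meromorphic coefficients has a Puiseux root -/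
theorem root' (d : ℕ) (q : ℕ → ℂ → ℂ) (hd : 0 < d) (hq : ∀ i, MeromorphicAt (q i) 0) :
    ∃ (e : ℕ) (F : ℂ → ℂ), 0 < e ∧ MeromorphicAt F 0 ∧
      ∀ᶠ τ in 𝓝[≠] (0 : ℂ), F τ ^ d + ∑ i ∈ Finset.range d, q i (τ ^ e) * F τ ^ i = 0 := by
  obtain ⟨e, F, e0, hF, h⟩ := pup d (fun i => if i = d then 1 else q i)
    (fun i => by split_ifs; exacts [.const 1 0, hq i]) (by simp)
  refine ⟨e, F ⟨0, hd⟩, e0, hF _, h.mono fun τ k => ?_⟩
  have := k (F ⟨0, hd⟩ τ)
  rw [Finset.prod_eq_zero (Finset.mem_univ ⟨0, hd⟩) (sub_self _), mul_zero, Finset.sum_range_succ,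
    if_pos rfl, Finset.sum_congr rfl fun i hi => by rw [if_neg (Finset.mem_range.1 hi).ne]] at this
  rw [← this, add_comm, Pi.one_apply, one_mul]

theorem root : Spec_ROOT := fun d q hd hq _ => root' d q hd hq

end Vale.Agent.P097A
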