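import Vale.Agent.P097A.Spec

/-!
# P097A: the steps FIN and PUSH
-/

noncomputable section

namespace Vale.Agent.P097A

open Filter Topology Set Polynomial

namespace Push

variable {euc : Bool} {α β : ℤ}

section alg

variable {F E : Type*} [Field F] [Field E]

theorem map_kap (φ : F →+* E) (x : F) : φ (kap α β x) = kap α β (φ x) := by
  simp only [kap, map_mul, map_zpow₀, map_sub, map_one]

theorem map_refl (φ : F →+* E) (x : F) : φ (refl euc α β x) = refl euc α β (φ x) := by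
  cases euc <;> simp [refl, map_ofNat]

theorem kap_ne {x : F} (h0 : x ≠ 0) (h1 : x ≠ 1) : kap α β x ≠ 0 :=
  mul_ne_zero (zpow_ne_zero _ (sub_ne_zero.2 h1.symm)) (zpow_ne_zero _ h0)

/-- the equation `kap x = k` -/
def pk (α β : ℤ) (k : F) : F[X] :=
  (1 - X) ^ (β - α).toNat * X ^ (-β).toNat - C k * ((1 - X) ^ (-(β - α)).toNat * X ^ β.toNat)

theorem pk_ne {k : F} (hk : k ≠ 0) (hβ : β ≠ 0) : pk α β k ≠ 0 := fun e => by
  have h := congrArg (eval 0) e
  rcases hβ.lt_or_gt with h0 | h0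
  · have h1 : (-β).toNat ≠ 0 := by omega
    have h2 : β.toNat = 0 := by omega
    simp [pk, h1, h2, hk] at h
  · have h1 : (-β).toNat = 0 := by omega
    have h2 : β.toNat ≠ 0 := by omega
    simp [pk, h1, h2] at h

theorem zp (x : E) (h : x ≠ 0) (n : ℤ) : x ^ n.toNat = x ^ n * x ^ (-n).toNat := by
  rw [← zpow_natCast, ← zpow_natCast, ← zpow_add₀ h]
  congr 1
  omega

theorem pk_root [Algebra F E] {k : F} {x : E} (h0 : x ≠ 0) (h1 : x ≠ 1)
    (h : kap α β x = algebraMap F E k) : aeval x (pk α β k) = 0 := by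
  simp only [pk, map_sub, map_mul, map_pow, map_one, aeval_X, aeval_C, ← h, kap]
  rw [zp _ (sub_ne_zero.2 h1.symm) (β - α), zp x h0 (-β), neg_neg]
  ring

theorem fin_kap {k : F} (hk : k ≠ 0) (hβ : β ≠ 0) :
    {d : F | d ≠ 0 ∧ d ≠ 1 ∧ kap α β d = k}.Finite :=
  (finite_setOfPred_isRoot (pk_ne (α := α) hk hβ)).subset fun d h => by
    simpa using pk_root (F := F) h.1 h.2.1 h.2.2

theorem refl_refl [CharZero F] (hg : Good euc α β) (x : F) :
    refl euc α β (refl euc α β x) = x := by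
  have h : ((β : F) / (α : F)) ^ 2 ≠ 0 :=
    pow_ne_zero _ (div_ne_zero (Int.cast_ne_zero.2 hg.b0) (Int.cast_ne_zero.2 hg.a0))
  cases euc
  · simp [refl]
  · simpa only [refl, if_true] using div_div_cancel₀ h

end alg

section val

variable {K : Type} [Field K] [Algebra ℂ K] {Γ : Type} [LinearOrderedCommGroupWithZero Γ]
  {D : ValData K Γ} {x y : K} {c d : ℂ}

theorem v_le (c : ℂ) : D.v (algebraMap ℂ K c) ≤ 1 := by
  rcases eq_or_ne c 0 with rfl | h
  · simp
  · exact (D.v_alg c h).le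

theorem cen_le (h : D.Cen x (some c)) : D.v x ≤ 1 := by
  simpa using D.v.map_add_le (le_of_lt h) (v_le c)

theorem cen_eq (h : D.Cen x (some c)) (hc : c ≠ 0) : D.v x = 1 := by
  have := D.v.map_add_eq_of_lt_right (x := x - algebraMap ℂ K c) (y := algebraMap ℂ K c)
    (by rw [D.v_alg c hc]; exact h)
  rwa [sub_add_cancel, D.v_alg c hc] at this

theorem cen_const (c : ℂ) : D.Cen (algebraMap ℂ K c) (some c) := by simp [ValData.Cen]

theorem cen_sub (h : D.Cen x (some c)) (k : D.Cen y (some d)) : D.Cen (x - y) (some (c - d)) := by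
  have := D.v.map_sub_lt h k
  rwa [sub_sub_sub_comm, ← map_sub] at this

theorem cen_mul (h : D.Cen x (some c)) (k : D.Cen y (some d)) : D.Cen (x * y) (some (c * d)) := by
  have e : x * y - algebraMap ℂ K (c * d) =
      (x - algebraMap ℂ K c) * y + algebraMap ℂ K c * (y - algebraMap ℂ K d) := by
    rw [map_mul]; ring
  show D.v _ < 1
  rw [e]
  refine D.v.map_add_lt ?_ ?_ <;> rw [map_mul]
  exacts [(mul_le_of_le_one_right' (cen_le k)).trans_lt h,
    (mul_le_of_le_one_left' (v_le c)).trans_lt k]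

theorem cen_uniq (h : D.Cen x (some c)) (k : D.Cen x (some d)) : c = d := by
  by_contra e
  have := cen_eq (cen_sub h k) (sub_ne_zero.2 e)
  simp at this

theorem cen_inv (h : D.Cen x (some c)) (hc : c ≠ 0) : D.Cen x⁻¹ (some c⁻¹) := by
  have h1 := cen_eq h hc
  have h2 : x ≠ 0 := fun e => by simp [e] at h1
  have h3 : algebraMap ℂ K c ≠ 0 := (_root_.map_ne_zero _).2 hc
  show D.v _ < 1
  rw [map_inv₀, inv_sub_inv h2 h3, map_div₀, map_mul, h1, D.v_alg c hc, mul_one, div_one,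
    D.v.map_sub_swap]
  exact h

theorem cen_pow (h : D.Cen x (some c)) (n : ℕ) : D.Cen (x ^ n) (some (c ^ n)) := by
  induction n with
  | zero => simp [ValData.Cen]
  | succ n ih => simpa only [pow_succ] using cen_mul ih h

theorem cen_zpow (h : D.Cen x (some c)) (hc : c ≠ 0) (n : ℤ) : D.Cen (x ^ n) (some (c ^ n)) := by
  cases n with
  | ofNat n => simpa using cen_pow h n
  | negSucc n => simpa only [zpow_negSucc] using cen_inv (cen_pow h _) (pow_ne_zero _ hc)

theorem cen_one_sub (h : D.Cen x (some c)) : D.Cen (1 - x) (some (1 - c)) := by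
  simpa using cen_sub (cen_const 1) h

theorem cen_kap (h : D.Cen x (some c)) (h0 : c ≠ 0) (h1 : c ≠ 1) :
    D.Cen (kap α β x) (some (kap α β c)) :=
  cen_mul (cen_zpow (cen_one_sub h) (sub_ne_zero.2 h1.symm) _) (cen_zpow h h0 _)

theorem cen_refl (h : D.Cen x (some c)) (h0 : c ≠ 0) :
    D.Cen (refl euc α β x) (some (refl euc α β c)) := by
  cases euc
  · simpa [refl, map_ofNat] using cen_sub (cen_const (2 * ((β : ℂ) / α))) h
  · have := cen_mul (cen_const (((β : ℂ) / α) ^ 2)) (cen_inv h h0)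
    rw [map_pow, map_div₀, map_intCast, map_intCast, ← div_eq_mul_inv, ← div_eq_mul_inv] at this
    exact this

theorem cen_ex (x : K) : ∃ c, D.Cen x c :=
  (le_or_gt (D.v x) 1).elim (fun h => (D.v_res x h).elim fun c k => ⟨some c, k⟩) fun h => ⟨none, h⟩

theorem ne_of_nc (hx : x ∉ range (algebraMap ℂ K)) : x ≠ 0 ∧ x ≠ 1 :=
  ⟨fun e => hx ⟨0, by simp [e]⟩, fun e => hx ⟨1, by simp [e]⟩⟩

theorem zp_ne {u : Γ} {n : ℤ} (h1 : u ≠ 1) (hn : n ≠ 0) : u ^ n ≠ 1 := fun e =>
  hn ((zpow_eq_one_iff_right₀ zero_le h1).1 e)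

theorem cen_of_kap (hg : Good euc α β) (hx : x ∉ range (algebraMap ℂ K)) {o : Option ℂ}
    (h : D.Cen x o) (hv : D.v (kap α β x) = 1) : ∃ c, o = some c ∧ c ≠ 0 ∧ c ≠ 1 := by
  obtain ⟨x0, x1⟩ := ne_of_nc hx
  have v0 : D.v x ≠ 0 := (Valuation.ne_zero_iff _).2 x0
  simp only [kap, map_mul, map_zpow₀] at hv
  cases o with
  | none =>
    have h1 : 1 < D.v x := h
    rw [D.v.map_sub_eq_of_lt_right (by simpa using h1), ← zpow_add₀ v0] at hv
    exact (zp_ne h1.ne' (by have := hg.a0; omega) hv).elim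
  | some c =>
    refine ⟨c, rfl, ?_, ?_⟩ <;> rintro rfl
    · rw [cen_eq (cen_one_sub h) (by simp), one_zpow, one_mul] at hv
      exact zp_ne (by simpa [ValData.Cen] using ne_of_lt h) (neg_ne_zero.2 hg.b0) hv
    · rw [cen_eq h one_ne_zero, one_zpow, mul_one] at hv
      exact zp_ne (by simpa [ValData.Cen] using ne_of_lt (cen_one_sub h))
        (sub_ne_zero.2 hg.ab.symm) hv

end val

section gal

variable {K : Type} [Field K] [Algebra ℂ K] {a b c : ℤ → K}

/-- the same relations -/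
def Sim (a b : ℤ → K) : Prop :=
  ∀ P : MvPolynomial ℤ ℂ, MvPolynomial.aeval a P = 0 ↔ MvPolynomial.aeval b P = 0

theorem Sim.comp (h : Sim a b) (f : ℤ → ℤ) : Sim (fun j => a (f j)) fun j => b (f j) := fun P => by
  simpa only [MvPolynomial.aeval_rename, Function.comp_def] using h (MvPolynomial.rename f P)

theorem Sim.shift (h : Sim a fun j => a (j + 1)) (k : ℤ) : Sim a fun j => a (j + k) := by
  have h1 : ∀ k, Sim (fun j => a (j + k)) fun j => a (j + (k + 1)) := fun k => by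
    simpa only [add_assoc] using h.comp (· + k)
  induction k with
  | zero => exact fun P => by simp
  | succ k ih => exact fun P => (ih P).trans (h1 k P)
  | pred k ih => exact fun P => (ih P).trans (by simpa using (h1 (-k - 1) P).symm)

theorem Sim.fix (h : Sim a b) (g : K ≃ₐ[ℂ] K) {S : Set ℤ} (hS : ∀ j ∈ S, g (a j) = a j) {N : ℤ}
    (h0 : b N ≠ 0) (hb : b N ∈ IntermediateField.adjoin ℂ (range fun j : S => b j)) :
    g (a N) = a N := by
  obtain ⟨r, s, e⟩ := (IntermediateField.mem_adjoin_range_iff _ _ _).1 hb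
  have s0 : MvPolynomial.aeval (fun j : S => b j) s ≠ 0 := fun k => h0 (by rw [e, k, div_zero])
  have h1 := (h (MvPolynomial.rename (↑) s)).not
  have h2 := h (MvPolynomial.X N * MvPolynomial.rename (↑) s - MvPolynomial.rename (↑) r)
  simp only [map_sub, map_mul, MvPolynomial.aeval_rename, MvPolynomial.aeval_X, Function.comp_def,
    sub_eq_zero] at h1 h2
  have h3 : ∀ p, g (MvPolynomial.aeval (fun j : S => a j) p) =
      MvPolynomial.aeval (fun j : S => a j) p := fun p =>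
    (MvPolynomial.comp_aeval_apply _ (g : K →ₐ[ℂ] K) p).trans
      (congrArg (MvPolynomial.aeval · p) (funext fun j => hS j j.2))
  rw [eq_div_of_mul_eq (h1.2 s0) (h2.2 ((eq_div_iff s0).1 e)), map_div₀, h3, h3]

theorem ex_move [IsAlgClosed K] (L : IntermediateField ℂ K) (hb : ∀ j, b j ∈ algebraicClosure L K)
    {N : ℤ} (h : b N ∉ L) : ∃ (E : Type) (_ : Field E) (_ : Algebra ℂ E) (ι ψ : E →ₐ[ℂ] K)
      (e : ℤ → E), (∀ j, ι (e j) = b j) ∧ ψ (e N) ≠ b N ∧ ∀ j, b j ∈ L → ψ (e j) = b j := by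
  have : CharZero L := charZero_of_injective_algebraMap (algebraMap ℂ L).injective
  obtain ⟨σ, hσ⟩ := not_forall.1 ((InfiniteGalois.mem_range_algebraMap_iff_fixed (k := L)
    (⟨b N, hb N⟩ : algebraicClosure L K)).not.1 fun ⟨y, hy⟩ =>
      h ((show (y : K) = b N from congrArg Subtype.val hy) ▸ y.2))
  refine ⟨algebraicClosure L K, inferInstance, inferInstance,
    (algebraicClosure L K).val.restrictScalars ℂ,
    ((algebraicClosure L K).val.comp σ.toAlgHom).restrictScalars ℂ, fun j => ⟨b j, hb j⟩,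
    fun _ => rfl, fun k => hσ (Subtype.ext k), fun j hj => ?_⟩
  exact congrArg Subtype.val (σ.commutes ⟨b j, hj⟩)

theorem alg_all (hβ : β ≠ 0) (L : IntermediateField ℂ K) (nc : ∀ j, b j ∉ range (algebraMap ℂ K))
    (rel : ∀ j, kap α β (b j) = kap α β (refl euc α β (b (j + 1)))) {N : ℤ}
    (h : ∀ j, N ≤ j → b j ∈ L) (j : ℤ) : b j ∈ algebraicClosure L K := by
  have h0 : ∀ j, N ≤ j → b j ∈ algebraicClosure L K := fun j hj =>
    (algebraicClosure L K).algebraMap_mem ⟨b j, h j hj⟩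
  refine (le_total N j).elim (h0 j) fun hj => ?_
  induction j, hj using Int.leInductionDown with
  | base => exact h0 N le_rfl
  | pred j _ ih =>
    obtain ⟨x0, x1⟩ := ne_of_nc (nc (j - 1))
    have e : kap α β (b (j - 1)) = algebraMap (algebraicClosure L K) K
        (kap α β (refl euc α β ⟨b j, ih⟩)) := by
      rw [map_kap, map_refl, rel, sub_add_cancel]
      rfl
    exact mem_algebraicClosure_iff.2 (IsAlgebraic.restrictScalars L (S := algebraicClosure L K)
      ⟨_, pk_ne (fun k => kap_ne x0 x1 (by rw [e, k, map_zero])) hβ, pk_root x0 x1 e⟩)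

end gal

end Push

open Push

theorem fin : Spec_FIN := by
  intro euc α β hg A hA
  let B : Set ℂ := {0, 1} ∪ ⋃ c ∈ some ⁻¹' A, {d | d ≠ 0 ∧ d ≠ 1 ∧ kap α β d = kap α β c}
  have hB : B.Finite := (toFinite _).union
    ((hA.preimage (Option.some_injective _).injOn).biUnion fun c _ => by
      by_cases h : kap α β c = 0
      · exact finite_empty.subset fun d k => kap_ne k.1 k.2.1 (k.2.2.trans h)
      · exact fin_kap h hg.b0)
  refine ⟨{none, some 0} ∪ some '' (refl euc α β '' B),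
    (toFinite _).union ((hB.image _).image _), fun K _ _ Γ _ D x y hx _ e ⟨o, h1, h2⟩ => ?_⟩
  obtain ⟨_ | c, hc⟩ := cen_ex (D := D) y
  · exact ⟨_, .inl (.inl rfl), hc⟩
  by_cases c0 : c = 0
  · exact ⟨_, .inl (.inr (congrArg _ c0)), hc⟩
  refine ⟨_, .inr ⟨c, ⟨refl euc α β c, ?_, refl_refl hg c⟩, rfl⟩, hc⟩
  by_cases d0 : refl euc α β c = 0
  · exact .inl (.inl d0)
  by_cases d1 : refl euc α β c = 1
  · exact .inl (.inr d1)
  have h3 := e ▸ cen_kap (α := α) (β := β) (cen_refl hc c0) d0 d1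
  obtain ⟨d, rfl, k0, k1⟩ := cen_of_kap hg hx h2 (cen_eq h3 (kap_ne d0 d1))
  exact .inr (mem_biUnion (x := d) h1 ⟨d0, d1, cen_uniq h3 (cen_kap h2 k0 k1)⟩)

theorem push (hL : Spec_LOC) : Spec_PUSH := by
  intro euc α β hg K _ _ _ Γ _ D a c M nc rel sim fx cen hc
  obtain ⟨hC, hB, hS⟩ := hL euc α β hg K Γ D
  by_contra hn
  have bd : ∀ j, D.g (a j) ≠ a j → |j| < M := fun j h => not_le.1 fun k => h (fx j k)
  obtain ⟨j₀, a0, a1⟩ := Int.exists_least_of_bdd (P := fun j => D.g (a j) ≠ a j)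
    ⟨-M, fun j h => (abs_lt.1 (bd j h)).1.le⟩ (not_forall.1 hn)
  obtain ⟨j₁, b0, b1⟩ := Int.exists_greatest_of_bdd (P := fun j => D.g (a j) ≠ a j)
    ⟨M, fun j h => (abs_lt.1 (bd j h)).2.le⟩ (not_forall.1 hn)
  obtain ⟨n, rfl⟩ := Int.le.dest (b1 _ a0)
  let Inv (b : ℤ → K) (N : ℤ) : Prop := (∀ j, b j ∉ range (algebraMap ℂ K)) ∧
    (∀ j, kap α β (b j) = kap α β (refl euc α β (b (j + 1)))) ∧ Sim a b ∧ D.g (b N) ≠ b N ∧
    (∀ j, N < j → D.g (b j) = b j) ∧ ∀ j, N + n < j → b j = a j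
  have gk : ∀ x, D.g x = x → D.g (kap α β (refl euc α β x)) = kap α β (refl euc α β x) :=
    fun x h => (map_kap (D.g : K →+* K) _).trans (congrArg _
      ((map_refl (D.g : K →+* K) _).trans (congrArg _ h)))
  have step : ∀ b N, Inv b N → ∃ b' N', N < N' ∧ Inv b' N' := by
    rintro b N ⟨i1, i2, i3, i4, i5, i6⟩
    let L := IntermediateField.adjoin ℂ (range fun j : ↥(Icc N (N + n))ᶜ => b j)
    have mL : ∀ j, j < N ∨ N + n < j → b j ∈ L := fun j hj =>
      IntermediateField.subset_adjoin _ _ ⟨⟨j, fun k => by have := k.1; have := k.2; omega⟩, rfl⟩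
    obtain ⟨E, _, _, ι, ψ, e, e1, e2, e3⟩ := ex_move L
      (alg_all hg.b0 L i1 i2 (N := N + n + 1) fun j hj => mL j (.inr (by omega))) (N := N)
      fun h => a0 (by
        have s1 : Sim (fun j => a (j + (j₀ - N))) b := fun P =>
          (Sim.shift sim _ P).symm.trans (i3 P)
        simpa using s1.fix D.g (S := (Icc N (N + n))ᶜ) (fun j hj => by_contra fun k => hj
          ⟨by have := a1 _ k; omega, by have := b1 _ k; omega⟩) (ne_of_nc (i1 N)).1 h)
    have r2 : ∀ j, kap α β (ψ (e j)) = kap α β (refl euc α β (ψ (e (j + 1)))) := fun j => by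
      have h : kap α β (e j) = kap α β (refl euc α β (e (j + 1))) := (ι : E →+* K).injective (by
        rw [map_kap, map_kap, map_refl]
        exact (congrArg _ (e1 j)).trans ((i2 j).trans (congrArg (kap α β <| refl euc α β ·)
          (e1 _).symm)))
      have := congrArg (ψ : E →+* K) h
      rwa [map_kap, map_kap, map_refl] at this
    have k1 : D.g (kap α β (b N)) = kap α β (b N) := by
      rw [i2]; exact gk _ (i5 _ (by omega))
    have k2 : D.g (ψ (e (N + 1))) ≠ ψ (e (N + 1)) := fun h => i4 (hB _ k1 (hS _ _ e2.symm (by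
      have := r2 (N - 1)
      rw [e3 _ (mL _ (.inl (by omega))), i2, sub_add_cancel] at this
      exact this) k1 (by rw [r2]; exact gk _ h)))
    have k3 : ∀ j, D.g (ψ (e j)) ≠ ψ (e j) → j ≤ N + n := fun j h => not_lt.1 fun k => h (by
      rw [e3 j (mL j (.inr k))]; exact i5 j (by omega))
    obtain ⟨N', c0, c1⟩ := Int.exists_greatest_of_bdd ⟨_, k3⟩ ⟨_, k2⟩
    have k4 := c1 _ k2
    refine ⟨fun j => ψ (e j), N', by omega, fun j ⟨z, hz⟩ => i1 j ⟨z, ?_⟩, r2, fun P => ?_, c0,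
      fun j hj => by_contra fun k => hj.not_ge (c1 j k),
      fun j hj => (e3 j (mL j (.inr (by omega)))).trans (i6 j (by omega))⟩
    · rw [← e1, ← (ψ : E →+* K).injective ((ψ.commutes z).trans hz), ι.commutes]
    · rw [i3, ← MvPolynomial.comp_aeval_apply, ← funext e1, ← MvPolynomial.comp_aeval_apply,
        map_eq_zero ι, map_eq_zero ψ]
  have all : ∀ k : ℕ, ∃ b N, j₀ + k ≤ N ∧ Inv b N := fun k => by
    induction k with
    | zero => exact ⟨a, j₀ + n, by omega, nc, rel, fun _ => Iff.rfl, b0,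
        fun j hj => by_contra fun k => hj.not_ge (b1 j k), fun _ _ => rfl⟩
    | succ k ih =>
      obtain ⟨b, N, h1, h2⟩ := ih
      obtain ⟨b', N', h3, h4⟩ := step b N h2
      exact ⟨b', N', by omega, h4⟩
  have fi : ∀ k : ℕ, ∃ A : Set (Option ℂ), A.Finite ∧ ∀ b N, Inv b N →
      ∃ o ∈ A, D.Cen (b (N + k)) o := fun k => by
    induction k with
    | zero =>
      refine ⟨{none, some 0, some 1, some ((β : ℂ) / α)}, toFinite _, ?_⟩
      rintro b N ⟨-, i2, -, i4, i5, -⟩
      simpa using hC _ i4 (by rw [i2]; exact gk _ (i5 _ (by omega)))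
    | succ k ih =>
      obtain ⟨A, h1, h2⟩ := ih
      obtain ⟨A', h3, h4⟩ := fin euc α β hg A h1
      exact ⟨A', h3, fun b N h => h4 K Γ D _ _ (h.1 (N + k)) (h.1 _)
        (by rw [h.2.1, Nat.cast_succ, add_assoc]) (h2 b N h)⟩
  obtain ⟨A, h1, h2⟩ := fi (n + 1)
  obtain ⟨J, hJ⟩ := eventually_atTop.1 (((eventually_all_finite
    (h1.preimage (Option.some_injective _).injOn)).2 fun z _ => hc z).and (eventually_ge_atTop M))
  obtain ⟨b, N, h3, h4⟩ := all (J - j₀).toNat
  obtain ⟨o, h5, h6⟩ := h2 b N h4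
  obtain ⟨h7, h8⟩ := hJ (N + (n + 1 : ℕ)) (by omega)
  rw [h4.2.2.2.2.2 _ (by omega)] at h6
  cases o with
  | none => exact (cen_le (cen _ h8)).not_gt h6
  | some z => exact h7 z h5 (cen_uniq (cen _ h8) h6)

end Vale.Agent.P097A
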