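import Vale.Agent.P097A.Spec

/-!
# P097A: the step RE
-/

noncomputable section

namespace Vale.Agent.P097A

open Filter Topology Set Complex

namespace RamE

theorem ex_r {a : ℕ} {w : ℂ → ℂ} {ζ : ℂ} (ha : 0 < a) (hζ : ζ ^ a = 1) (hw : AnalyticAt ℂ w 0)
    (h : ¬ ∀ᶠ τ in 𝓝 (0 : ℂ), w (ζ * τ) = w τ) : ∃ (k : ℕ) (r : ℂ → ℂ), 0 < k ∧ ¬ a ∣ k ∧
      AnalyticAt ℂ r 0 ∧ r 0 ≠ 0 ∧ ∀ τ, w (ζ * τ) = w τ + τ ^ k * r τ := by
  have h1 : AnalyticAt ℂ (fun τ => w (ζ * τ) - w τ) 0 :=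
    (hw.comp_of_eq (analyticAt_const.mul analyticAt_id) (mul_zero _)).sub hw
  obtain ⟨k, r, r1, r2, r3⟩ := h1.exists_eventuallyEq_pow_smul_nonzero_iff.2
    (by simpa only [sub_eq_zero] using h)
  have k0 : k ≠ 0 := by
    rintro rfl
    exact r2 (by simpa using r3.self_of_nhds.symm)
  obtain ⟨s, s0, s1⟩ : ∃ s : ℂ → ℂ, s 0 = r 0 ∧ ∀ τ ≠ 0, s τ = (w (ζ * τ) - w τ) / τ ^ k :=
    ⟨fun τ => if τ = 0 then r 0 else (w (ζ * τ) - w τ) / τ ^ k, if_pos rfl,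
      fun _ k => if_neg k⟩
  have s2 : ∀ τ, w (ζ * τ) = w τ + τ ^ k * s τ := fun τ => by
    rcases eq_or_ne τ 0 with rfl | h0
    · simp [k0]
    · rw [s1 τ h0, mul_div_cancel₀ _ (pow_ne_zero _ h0), add_sub_cancel]
  have s3 : AnalyticAt ℂ s 0 := r1.congr (r3.mono fun τ e => by
    rcases eq_or_ne τ 0 with rfl | h0
    · exact s0.symm
    · rw [s1 τ h0, e, sub_zero, smul_eq_mul, mul_div_cancel_left₀ _ (pow_ne_zero _ h0)])
  refine ⟨k, s, Nat.pos_of_ne_zero k0, fun ⟨c, hc⟩ => ?_, s3, s0 ▸ r2, s2⟩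
  have z1 : ζ ^ k = 1 := by rw [hc, pow_mul, hζ, one_pow]
  have z2 : ∀ j τ, w (ζ ^ j * τ) = w τ + τ ^ k * ∑ i ∈ Finset.range j, s (ζ ^ i * τ) := fun j τ => by
    induction j with
    | zero => simp
    | succ j ih => rw [pow_succ', mul_assoc, s2, ih, Finset.sum_range_succ, mul_pow, ← pow_mul,
        mul_comm j, pow_mul, z1, one_pow, one_mul, mul_add, add_assoc]
  have z3 : Tendsto (fun τ => ∑ i ∈ Finset.range a, s (ζ ^ i * τ)) (𝓝[≠] 0)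
      (𝓝 (∑ i ∈ Finset.range a, s 0)) := tendsto_finsetSum _ fun i _ =>
    (s3.continuousAt.tendsto.comp ((continuous_const.mul continuous_id).tendsto' _ _
      (mul_zero _))).mono_left nhdsWithin_le_nhds
  have z4 := tendsto_nhds_unique z3 (tendsto_const_nhds.congr' (eventually_nhdsWithin_of_forall
    fun τ h0 => ((mul_eq_zero.1 (left_eq_add.1 ((congrArg w (by rw [hζ, one_mul])).trans
      (z2 a τ)))).resolve_left (pow_ne_zero _ h0)).symm))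
  simp [ha.ne', s0, r2] at z4

theorem mc {u v : ℂ} (hu : 0 < u.re) (hv : 0 < v.re) (ν : ℂ) : (u * v) ^ ν = u ^ ν * v ^ ν := by
  have u0 : u ≠ 0 := fun e => by simp [e] at hu
  have v0 : v ≠ 0 := fun e => by simp [e] at hv
  have h1 := abs_lt.1 (abs_arg_lt_pi_div_two_iff.2 (.inl hu))
  have h2 := abs_lt.1 (abs_arg_lt_pi_div_two_iff.2 (.inl hv))
  rw [cpow_def_of_ne_zero u0, cpow_def_of_ne_zero v0, cpow_def_of_ne_zero (mul_ne_zero u0 v0),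
    (log_mul_eq_add_log_iff u0 v0).2 ⟨by linarith, by linarith⟩, add_mul, exp_add]

theorem mi {v : ℂ} (hv : 0 < v.re) (ν : ℂ) : (I * v) ^ ν = I ^ ν * v ^ ν := by
  have v0 : v ≠ 0 := fun e => by simp [e] at hv
  have h2 := abs_lt.1 (abs_arg_lt_pi_div_two_iff.2 (.inl hv))
  rw [cpow_def_of_ne_zero I_ne_zero, cpow_def_of_ne_zero v0,
    cpow_def_of_ne_zero (mul_ne_zero I_ne_zero v0), (log_mul_eq_add_log_iff I_ne_zero v0).2
      ⟨by rw [arg_I]; linarith [Real.pi_pos], by rw [arg_I]; linarith⟩, add_mul, exp_add]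

theorem mh {t u : ℂ} (ht : 0 < t.im) (hu : 0 < u.re) (h : 0 < (t * u).im) (ν : ℂ) :
    (t * u) ^ ν = t ^ ν * u ^ ν := by
  have e : ∀ z : ℂ, z = I * (-I * z) := fun z => by rw [← mul_assoc]; simp
  have r : ∀ z : ℂ, (-I * z).re = z.im := fun z => by simp
  rw [e (t * u), mi (by rwa [r]), ← mul_assoc (-I), mc (by rwa [r]) hu, ← mul_assoc,
    ← mi (by rwa [r]), ← e]

/-- the function of the kink lemma -/
def SS (ν t : ℂ) : ℂ := t * ((t - 1 / 2) ^ ν * (t + 1 / 2) ^ ν)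

theorem slit {t : ℂ} (h : 0 < t.im) (c : ℝ) : t + c ∈ slitPlane := .inr (by simpa using h.ne')

theorem SS_der (ν : ℂ) {t : ℂ} (h : 0 < t.im) : HasDerivAt (SS ν) ((t - 1 / 2) ^ ν * (t + 1 / 2) ^ ν *
    (1 + ν * t * ((t - 1 / 2)⁻¹ + (t + 1 / 2)⁻¹))) t := by
  have h1 : t - 1 / 2 ∈ slitPlane := by simpa [sub_eq_add_neg] using slit h (-(1 / 2))
  have h2 : t + 1 / 2 ∈ slitPlane := by simpa using slit h (1 / 2)
  refine ((hasDerivAt_id' t).fun_mul ((((hasDerivAt_id' t).sub_const _).cpow_const h1).fun_mul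
    (((hasDerivAt_id' t).add_const _).cpow_const h2))).congr_deriv ?_
  rw [cpow_sub _ _ (slitPlane_ne_zero h1), cpow_sub _ _ (slitPlane_ne_zero h2), cpow_one, cpow_one]
  ring

/-- functions on the upper half plane which extend to the origin -/
def Ex (f : ℂ → ℂ) : Prop :=
  ∃ F : ℂ → ℂ, AnalyticAt ℂ F 0 ∧ ∀ᶠ s in 𝓝[{t | 0 < t.im}] (0 : ℂ), f s = F s

theorem Ex.sum {ι : Type} {f : ι → ℂ → ℂ} (T : Finset ι) (h : ∀ i ∈ T, Ex (f i)) :
    Ex fun s => ∑ i ∈ T, f i s := by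
  choose! F h1 h2 using h
  exact ⟨fun s => ∑ i ∈ T, F i s, T.analyticAt_fun_sum h1,
    ((eventually_all_finset T).2 h2).mono fun s k => Finset.sum_congr rfl k⟩

theorem last (hK : Spec_KINK) (hN : Spec_NP) (hA : Spec_AN) {ν : ℂ} {J : ℂ × ℂ → ℂ}
    (hJ : AnalyticAt ℂ J (1, 0)) (h : ∀ᶠ p in 𝓝 ((1 : ℂ), (0 : ℂ)), J p - J (p.1 - p.2, p.2) =
      p.1 * p.2 * (p.1 ^ 2 - p.2 ^ 2 / 4) ^ ν) : ∃ n : ℤ, ν = n := by
  have one : ∀ c : ℂ, AnalyticAt ℂ (fun x : ℂ => (1 + c * x) ^ ν) 0 := fun c =>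
    AnalyticAt.cpow (by fun_prop) analyticAt_const (by simp)
  have pos : ∀ {f : ℂ × ℂ → ℂ}, ContinuousAt f (1, 0) → f (1, 0) = 1 →
      ∀ᶠ p in 𝓝 ((1 : ℂ), (0 : ℂ)), 0 < (f p).re := fun k e =>
    (continuous_re.continuousAt.comp k).eventually (lt_mem_nhds (by simp [e]))
  obtain ⟨N, hN₀⟩ := hK J (fun x => x * ((1 + -(1 / 2) * x) ^ ν * (1 + 1 / 2 * x) ^ ν)) (SS ν)
    (ν + ν + 1 + 1) (1 / 2) hJ (analyticAt_id.mul ((one _).mul (one _))) (by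
      filter_upwards [h, pos (f := fun p => p.1) (by fun_prop) rfl,
        pos (f := fun p => 1 + -(1 / 2) * (p.2 / p.1)) (by fun_prop (disch := simp)) (by simp),
        pos (f := fun p => 1 + 1 / 2 * (p.2 / p.1)) (by fun_prop (disch := simp)) (by simp),
        pos (f := fun p => p.1 * (1 + -(1 / 2) * (p.2 / p.1))) (by fun_prop (disch := simp))
          (by simp), pos (f := fun p => p.1 * (1 + 1 / 2 * (p.2 / p.1)))
          (by fun_prop (disch := simp)) (by simp)] with p a0 a1 a2 a3 a4 a5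
      have p0 : p.1 ≠ 0 := fun e => by simp [e] at a1
      rw [a0, show p.1 ^ 2 - p.2 ^ 2 / 4 = p.1 * (1 + -(1 / 2) * (p.2 / p.1)) *
        (p.1 * (1 + 1 / 2 * (p.2 / p.1))) by field_simp; ring, mc a4 a5, mc a1 a2, mc a1 a3,
        cpow_add _ _ p0, cpow_add _ _ p0, cpow_add _ _ p0, cpow_one]
      field_simp)
    (fun t ht => (SS_der ν ht).differentiableAt.differentiableWithinAt) ⟨1, fun t ht => by
      have h0 : 0 < t.im := one_pos.trans ht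
      have t0 : t ≠ 0 := fun e => by simp [e] at h0
      have t1 : ‖t⁻¹‖ < 1 := by
        rw [norm_inv]
        exact inv_lt_one_of_one_lt₀ (ht.trans_le (im_le_norm t))
      have t2 : ∀ c : ℂ, ‖c‖ = 1 / 2 → 0 < (1 + c * t⁻¹).re := fun c hc => by
        have := (abs_lt.1 ((abs_re_le_norm (c * t⁻¹)).trans_lt
          (show _ < 1 by rw [norm_mul, hc]; linarith))).1
        rw [add_re, one_re]
        linarith
      have e1 : t - 1 / 2 = t * (1 + -(1 / 2) * t⁻¹) := by field_simp; ring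
      have e2 : t + 1 / 2 = t * (1 + 1 / 2 * t⁻¹) := by field_simp
      rw [SS, e1, e2, mh h0 (t2 _ (by simp)) (by rw [← e1]; simpa using h0),
        mh h0 (t2 _ (by simp)) (by rw [← e2]; simpa using h0),
        cpow_add _ _ t0, cpow_add _ _ t0, cpow_add _ _ t0, cpow_one]
      field_simp⟩
  obtain ⟨F, F1, F2⟩ := hN₀ (N + 1) N.le_succ
  let f : ℤ → ℂ → ℂ := fun j s => ((j : ℝ) + s) ^ ν * (((j + 1 : ℤ) : ℝ) + s) ^ ν *
    (1 + ν * (j + 1 / 2 + s) * ((j + s)⁻¹ + (j + 1 + s)⁻¹))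
  have f1 : ∀ j : ℤ, ∀ s : ℂ, 0 < s.im → deriv (SS ν) (j + ((1 / 2 : ℝ) : ℂ) + s) = f j s :=
    fun j s hs => by
      rw [(SS_der ν (by simpa using hs)).deriv]
      simp only [f]
      push_cast
      congr 3 <;> ring
  obtain ⟨G, G1, G2⟩ := Ex.sum (f := f)
      (((Finset.Icc (-((N + 1 : ℕ) : ℤ)) (N + 1 : ℕ)).erase 0).erase (-1)) fun j hj => by
    have j1 : j ≠ -1 := Finset.ne_of_mem_erase hj
    have j0 : j ≠ 0 := Finset.ne_of_mem_erase (Finset.mem_of_mem_erase hj)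
    have j2 : j + 1 ≠ 0 := by omega
    obtain ⟨A, A1, -, -, A2⟩ := hA ν j (Int.cast_ne_zero.2 j0)
    obtain ⟨B, B1, -, -, B2⟩ := hA ν (j + 1 : ℤ) (Int.cast_ne_zero.2 j2)
    have j3 : (j : ℂ) + 0 ≠ 0 := by simpa using j0
    have j4 : (j : ℂ) + 1 + 0 ≠ 0 := by exact_mod_cast (by simpa using j2)
    exact ⟨fun s => A s * B s * (1 + ν * (j + 1 / 2 + s) * ((j + s)⁻¹ + (j + 1 + s)⁻¹)),
      by fun_prop (disch := assumption), (A2.and B2).mono fun s k => by simp only [f, k.1, k.2]⟩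
  obtain ⟨A, A1, A0, -, A2⟩ := hA ν 1 one_ne_zero
  obtain ⟨B, B1, -, B0, B2⟩ := hA ν (-1) (by norm_num)
  by_contra hn
  refine hn (hN ν (fun s => A s * (s + ν * (1 / 2 + s) * (1 + s * (1 + s)⁻¹)) +
    B s * (s + ν * (-1 + 1 / 2 + s) * (s * (-1 + s)⁻¹ + 1))) (fun s => s * (F s - G s))
    (by fun_prop (disch := simp)) (fun e => ?_) (AnalyticAt.meromorphicAt (by fun_prop)) ?_)
  · rw [A0 one_pos, B0 (by norm_num)] at e
    have e1 : ν * (exp (Real.pi * I * ν) - 1) = 0 := by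
      simp at e
      linear_combination (-2) * e
    rcases mul_eq_zero.1 e1 with k | k
    · exact hn ⟨0, by simp [k]⟩
    · obtain ⟨n, k⟩ := exp_eq_one_iff.1 (sub_eq_zero.1 k)
      exact hn ⟨2 * n, mul_left_cancel₀ (mul_ne_zero (ofReal_ne_zero.2 Real.pi_ne_zero) I_ne_zero)
        (by rw [k]; push_cast; ring)⟩
  · filter_upwards [F2, G2, A2, B2, self_mem_nhdsWithin] with s a1 a2 a3 a4 a5
    have s0 : s ≠ 0 := fun e => by simp [e] at a5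
    rw [← a1, ← a2, Finset.sum_congr rfl fun j _ => f1 j s a5,
      ← Finset.add_sum_erase _ _ (a := 0) (by simp; omega),
      ← Finset.add_sum_erase _ _ (a := -1) (by simp; omega), ← add_assoc, add_sub_cancel_right, ← a3, ← a4]
    simp only [f]
    push_cast
    simp only [zero_add, neg_add_cancel]
    field_simp

theorem td {X Y : Type} [NormedAddCommGroup X] [NormedSpace ℂ X] [NormedAddCommGroup Y]
    [NormedSpace ℂ Y] {f : X → Y} {x : X} {y : Y} (h : AnalyticAt ℂ f x) (e : f x = y) :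
    Tendsto f (𝓝 x) (𝓝 y) := e ▸ h.continuousAt

theorem ds_eq {f : ℂ → ℂ} {y p v : ℂ} (hd : p = y → deriv f y = v)
    (hs : f p - f y = (p - y) * v) : dslope f y p = v := by
  rcases eq_or_ne p y with rfl | h
  · rw [dslope_same, hd rfl]
  · exact mul_left_cancel₀ (sub_ne_zero.2 h) ((sub_smul_dslope f y p).trans hs)

theorem ds_sq (c y p : ℂ) : dslope (fun y => y ^ 2 * c) y p = (y + p) * c :=
  ds_eq (fun e => by rw [e, ((hasDerivAt_pow 2 y).mul_const c).deriv]; ring) (by ring)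

theorem ds_id (y p : ℂ) : dslope (fun y => y) y p = 1 := ds_eq (fun _ => by simp) (by ring)

theorem ds_add {g h : ℂ → ℂ} {y : ℂ} (hg : DifferentiableAt ℂ g y) (hh : DifferentiableAt ℂ h y)
    (c p : ℂ) : dslope (fun y => g y + c * h y) y p = dslope g y p + c * dslope h y p :=
  ds_eq (fun e => by
    rw [e, dslope_same, dslope_same, (hg.hasDerivAt.fun_add (hh.hasDerivAt.const_mul c)).deriv])
    (by linear_combination -sub_smul_dslope g y p - c * sub_smul_dslope h y p)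

/-- the divided difference -/
def Dv (F : ℂ × ℂ → ℂ) (q : ℂ × ℂ × ℂ) : ℂ := dslope (fun y => F (q.1, y)) q.2.1 q.2.2

/-- the law of the graph of `F (ε, ·)` -/
def EE (F : ℂ × ℂ → ℂ) (q : ℂ × ℂ × ℂ × ℂ) : ℂ :=
  Dv F (q.1, q.2.2.1, q.2.1) * Dv F (q.1, q.2.2.1, q.2.2.2) - Dv F (q.1, q.2.2.1, q.2.2.1) ^ 2

theorem fd {E : ℂ × ℂ × ℂ × ℂ → ℂ} {c : ℂ} {q d : ℂ × ℂ × ℂ} (hE : DifferentiableAt ℂ E (0, q))
    (h : ∀ q, E (0, q) = (q.2.1 + q.1) * c * ((q.2.1 + q.2.2) * c) - ((q.2.1 + q.2.1) * c) ^ 2) :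
    fderiv ℂ E (0, q) (0, d) = c ^ 2 * ((d.2.1 + d.1) * (q.2.1 + q.2.2) +
      (q.2.1 + q.1) * (d.2.1 + d.2.2) - 8 * q.2.1 * d.2.1) := by
  have h1 : HasDerivAt (fun s : ℂ => ((0 : ℂ), q + s • d)) (0, d) 0 :=
    (hasDerivAt_const _ _).prodMk (by simpa using ((hasDerivAt_id' (0 : ℂ)).smul_const d).const_add q)
  have h2 := hE.hasFDerivAt.comp_hasDerivAt_of_eq 0 h1 (by simp)
  have l : ∀ x y : ℂ, HasDerivAt (fun s : ℂ => (x + s * y) * c) (y * c) 0 := fun x y => by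
    simpa using (((hasDerivAt_id' (0 : ℂ)).mul_const y).const_add x).mul_const c
  have h3 := ((l (q.2.1 + q.1) (d.2.1 + d.1)).fun_mul (l (q.2.1 + q.2.2) (d.2.1 + d.2.2))).fun_sub
    ((l (q.2.1 + q.2.1) (d.2.1 + d.2.1)).fun_pow 2)
  refine (h2.unique (h3.congr_of_eventuallyEq (.of_forall fun s => ?_))).trans ?_
  · simp only [Function.comp, h, Prod.fst_add, Prod.snd_add, Prod.smul_fst, Prod.smul_snd,
      smul_eq_mul]
    ring
  · simp only [Nat.cast_ofNat]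
    ring

/-- the square root -/
def y0 (v : ℂ) : ℂ := (1 + v ^ 2 / 4) ^ (2 : ℂ)⁻¹

theorem y0_sq (v : ℂ) : y0 v ^ 2 = 1 + v ^ 2 / 4 := cpow_ofNat_inv_pow _ 2

theorem y0_zero : y0 0 = 1 := by simp [y0]

theorem y0_an : AnalyticAt ℂ y0 0 := AnalyticAt.cpow (by fun_prop) analyticAt_const (by simp)

/-- the change of the gauge -/
def Ps (p : ℂ × ℂ) : ℂ × ℂ := (p.1 * (2 * y0 p.2 + p.2), p.2 * (2 * y0 p.2 + p.2))

theorem Ps_an : AnalyticAt ℂ Ps 0 :=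
  have h : AnalyticAt ℂ (fun p : ℂ × ℂ => 2 * y0 p.2 + p.2) 0 :=
    (analyticAt_const.mul (y0_an.comp_of_eq analyticAt_snd rfl)).add analyticAt_snd
  (analyticAt_fst.mul h).prod (analyticAt_snd.mul h)

theorem Ps_zero : Ps 0 = 0 := by simp [Ps]

theorem Ps_add (p : ℂ × ℂ) : Ps (p.1 + p.2, p.2) = ((Ps p).1 + (Ps p).2, (Ps p).2) :=
  Prod.ext (add_mul _ _ _) rfl

theorem Ps_sub (p : ℂ × ℂ) : Ps (p.1 - p.2, p.2) = ((Ps p).1 - (Ps p).2, (Ps p).2) :=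
  Prod.ext (sub_mul _ _ _) rfl

theorem model (hU : Spec_UNIQ) {E : ℂ × ℂ × ℂ × ℂ → ℂ} {c : ℂ} {H : ℂ × ℂ × ℂ → ℂ}
    (hE : IsLaw (fun y => E (0, y)) 1) (hH : Gauged E 0 1 H)
    (h : ∀ q, E (0, q) = (q.2.1 + q.1) * c * ((q.2.1 + q.2.2) * c) - ((q.2.1 + q.2.1) * c) ^ 2) :
    ∀ᶠ p in 𝓝 (0 : ℂ × ℂ), H (0, Ps p) = (y0 p.2 + p.1) ^ 2 - p.2 ^ 2 / 4 := by
  have t1 : Tendsto (fun p => ((0 : ℂ), Ps p)) (𝓝 0) (𝓝 (0, 0, 0)) :=
    tendsto_const_nhds.prodMk_nhds (td Ps_an Ps_zero)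
  have t2 : Tendsto (fun v => ((0 : ℂ), v * (2 * y0 v + v))) (𝓝 0) (𝓝 (0, 0)) :=
    tendsto_const_nhds.prodMk_nhds ((continuousAt_id.mul ((continuousAt_const (y := (2 : ℂ)).mul
      y0_an.continuousAt).add continuousAt_id)).tendsto.trans_eq (congrArg 𝓝 (zero_mul _)))
  refine hU _ 1 (fun p => H (0, Ps p)) _ hE
    (hH.an.comp_of_eq (analyticAt_const.prod Ps_an) (by simp [Ps_zero]; rfl))
    ((((y0_an.comp_of_eq analyticAt_snd rfl).add analyticAt_fst).pow 2).sub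
      ((analyticAt_snd.pow 2).div_const)) (by rw [Ps_zero]; exact hH.g0.self_of_nhds) (by simp [y0_zero])
    ((t1.eventually hH.sol).mono fun p k => by simpa only [Ps_add, Ps_sub] using k)
    (.of_forall fun p => by simp only [h]; ring) ?_
  filter_upwards [t2.eventually hH.g0, t2.eventually hH.g1] with v a1 a2
  exact ⟨by simp only [Ps, zero_mul, a1]; linear_combination -y0_sq v,
    by simp only [Ps, a2]; linear_combination -y0_sq v⟩

theorem alg {y v c r ν z d₀ d₁ d₂ f₀ f₁ f₂ A B C : ℂ} (hc : c ≠ 0) (hP : y + v / 2 ≠ 0)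
    (hQ : y - v + v / 2 ≠ 0) (hr : (2 * ν + 2) * r ≠ 0)
    (h0 : f₀ = (y ^ 2 - v ^ 2 / 4) ^ 2 * (z * r)) (hB : (y ^ 2 - v ^ 2 / 4) * B = (2 + ν) * f₀)
    (hA : ((y - v) ^ 2 - v ^ 2 / 4 - (y ^ 2 - v ^ 2 / 4)) * A = f₁ - f₀)
    (hC : ((y + v) ^ 2 - v ^ 2 / 4 - (y ^ 2 - v ^ 2 / 4)) * C = f₂ - f₀)
    (h : c ^ 2 * ((d₀ + d₁) * (y ^ 2 - v ^ 2 / 4 + ((y + v) ^ 2 - v ^ 2 / 4)) +
        (y ^ 2 - v ^ 2 / 4 + ((y - v) ^ 2 - v ^ 2 / 4)) * (d₀ + d₂) - 8 * (y ^ 2 - v ^ 2 / 4) * d₀) +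
      ((y ^ 2 - v ^ 2 / 4 + ((y - v) ^ 2 - v ^ 2 / 4)) * c * C +
        A * ((y ^ 2 - v ^ 2 / 4 + ((y + v) ^ 2 - v ^ 2 / 4)) * c) -
        2 * ((y ^ 2 - v ^ 2 / 4 + (y ^ 2 - v ^ 2 / 4)) * c) * B) = 0) :
    (c * v * (y * d₂ - (y + v) * d₀) / (y + v / 2) ^ 2 +
        (y * f₂ + (y + v) * f₀) / (2 * (y + v / 2) ^ 3)) / ((2 * ν + 2) * r) -
      (c * v * ((y - v) * d₀ - (y - v + v) * d₁) / (y - v + v / 2) ^ 2 +
        ((y - v) * f₀ + (y - v + v) * f₁) / (2 * (y - v + v / 2) ^ 3)) / ((2 * ν + 2) * r) =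
      y * v * z := by
  obtain ⟨P, rfl⟩ : ∃ P, y = P - v / 2 := ⟨y + v / 2, by ring⟩
  obtain ⟨Q, rfl⟩ : ∃ Q, v = P - Q := ⟨P - v, by ring⟩
  have e1 : P - (P - Q) / 2 + (P - Q) / 2 = P := by ring
  have e2 : P - (P - Q) / 2 - (P - Q) + (P - Q) / 2 = Q := by ring
  rw [e1] at hP
  rw [e2] at hQ
  rw [e1, e2, ← sub_div, div_eq_iff hr, eq_add_of_sub_eq hA.symm, eq_add_of_sub_eq hC.symm]
  have k := mul_left_cancel₀ hc (show c * (c * (Q ^ 2 * d₂ + P ^ 2 * d₁ +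
    (P ^ 2 + Q ^ 2 - 4 * P * Q) * d₀) + (Q ^ 2 * C + P ^ 2 * A - 2 * ((2 + ν) * f₀))) = c * 0 by
      linear_combination h / 2 + 2 * c * hB)
  have h1 : f₀ = (P * Q) ^ 2 * (z * r) := by rw [h0]; ring
  rw [h1] at k ⊢
  refine sub_eq_zero.1 (Eq.trans ?_ ((congrArg ((P - Q) * (P + Q) / (2 * P ^ 2 * Q ^ 2) * ·) k).trans
    (mul_zero _)))
  field_simp
  ring

end RamE

open RamE

theorem re (hF : Spec_FAM) (hL : Spec_LIN) (hU : Spec_UNIQ) (hW : Spec_LAWF) (hK : Spec_KINK)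
    (hN : Spec_NP) (hA : Spec_AN) (hD : Spec_DD) : Spec_RE := by
  intro a w ζ ha hζ hw w0 hI
  by_contra hn
  obtain ⟨k, r, k0, k1, r1, r0, r2⟩ := ex_r ha hζ hw hn
  have a0 : (a : ℂ) ≠ 0 := Nat.cast_ne_zero.2 ha.ne'
  let b : ℂ → ℂ := fun y => y ^ (a : ℂ)⁻¹
  have b1 : AnalyticAt ℂ b 1 := AnalyticAt.cpow analyticAt_id analyticAt_const (by simp)
  have b2 : ∀ y, b y ^ a = y := fun y => cpow_nat_inv_pow y ha.ne'
  obtain ⟨hE, H, hH⟩ := hF.1 a (2 * a) (fun _ => 1) w b 1 (by omega) (by omega) (by omega)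
    analyticAt_const hw one_ne_zero w0 b1 (one_cpow _) (by
      rw [((hasDerivAt_id' (1 : ℂ)).cpow_const (by simp)).deriv]
      simpa using ha.ne') hI
  let F : ℂ × ℂ → ℂ := fun p => p.2 ^ 2 * w (p.1 * b p.2)
  let G : ℂ × ℂ → ℂ := fun p => p.2 ^ 2 * (b p.2 ^ k * r (p.1 * b p.2))
  have e0 : famZ a (2 * a) (fun _ => 1) w b = EE F := funext fun q => by
    have s1 : sc a (fun _ => 1) b q.1 = fun y => y := funext fun y => by
      rw [sc, zpow_natCast, b2, mul_one]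
    have s2 : sc (2 * a) w b q.1 = fun y => F (q.1, y) := funext fun y => by
      rw [sc, mul_comm 2, zpow_mul, zpow_natCast, b2, zpow_ofNat]
    simp only [famZ, lawZ, s1, s2, ds_id, EE, Dv, dslope_same, deriv_id'', one_pow, mul_one,
      one_mul]
  rw [e0] at hE hH
  have bb : AnalyticAt ℂ (fun p : ℂ × ℂ => b p.2) (0, 1) := b1.comp_of_eq analyticAt_snd rfl
  have aF : AnalyticAt ℂ F (0, 1) := (analyticAt_snd.pow 2).mul
    (hw.comp_of_eq (analyticAt_fst.mul bb) (zero_mul _))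
  have aG : AnalyticAt ℂ G (0, 1) := (analyticAt_snd.pow 2).mul ((bb.pow k).mul
    (r1.comp_of_eq (analyticAt_fst.mul bb) (zero_mul _)))
  have dv : ∀ {F : ℂ × ℂ → ℂ} {f : ℂ × ℂ × ℂ × ℂ → ℂ}, AnalyticAt ℂ F (0, 1) →
      AnalyticAt ℂ f (0, 1, 1, 1) → f (0, 1, 1, 1) = 1 →
      AnalyticAt ℂ (fun q => Dv F (q.1, q.2.2.1, f q)) (0, 1, 1, 1) := fun h h' e =>
    (hD ℂ _ 0 1 h).comp_of_eq (analyticAt_fst.prod
      ((analyticAt_fst.comp (analyticAt_snd.comp analyticAt_snd)).prod h')) (by rw [e])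
  have p1 : AnalyticAt ℂ (fun q : ℂ × ℂ × ℂ × ℂ => q.2.1) (0, 1, 1, 1) :=
    analyticAt_fst.comp analyticAt_snd
  have p2 : AnalyticAt ℂ (fun q : ℂ × ℂ × ℂ × ℂ => q.2.2.1) (0, 1, 1, 1) :=
    analyticAt_fst.comp (analyticAt_snd.comp analyticAt_snd)
  have p3 : AnalyticAt ℂ (fun q : ℂ × ℂ × ℂ × ℂ => q.2.2.2) (0, 1, 1, 1) :=
    analyticAt_snd.comp (analyticAt_snd.comp analyticAt_snd)
  have df : ∀ {F : ℂ × ℂ → ℂ}, AnalyticAt ℂ F (0, 1) → ∀ᶠ q in 𝓝 ((0 : ℂ), (1 : ℂ), (1 : ℂ), (1 : ℂ)),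
      DifferentiableAt ℂ (fun y => F (q.1, y)) q.2.2.1 := fun h =>
    ((analyticAt_fst.prod p2).continuousAt.eventually h.eventually_analyticAt).mono fun q k =>
      (k.comp_of_eq (analyticAt_const.prod analyticAt_id) rfl).differentiableAt
  obtain ⟨δ, δ1, δ2⟩ := hL (EE F) (fun q => Dv F (q.1, q.2.2.1, q.2.1) * Dv G (q.1, q.2.2.1, q.2.2.2) +
      Dv G (q.1, q.2.2.1, q.2.1) * Dv F (q.1, q.2.2.1, q.2.2.2) -
      2 * Dv F (q.1, q.2.2.1, q.2.2.1) * Dv G (q.1, q.2.2.1, q.2.2.1) + q.1 ^ k * EE G q) 1 ζ k H k0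
    hE hH (((((dv aF p1 rfl).mul (dv aG p3 rfl)).add ((dv aG p1 rfl).mul (dv aF p3 rfl))).sub
      ((analyticAt_const.mul (dv aF p2 rfl)).mul (dv aG p2 rfl))).add ((analyticAt_fst.pow k).mul
      (((dv aG p1 rfl).mul (dv aG p3 rfl)).sub ((dv aG p2 rfl).pow 2)))) (by
      filter_upwards [df aF, df aG] with q a1 a2
      have e : ∀ p, Dv F (ζ * q.1, q.2.2.1, p) =
          Dv F (q.1, q.2.2.1, p) + q.1 ^ k * Dv G (q.1, q.2.2.1, p) := fun p =>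
        (congrArg (dslope · _ _) (funext fun y => by
          simp only [F, G, mul_assoc ζ, r2, mul_pow]; ring)).trans (ds_add a1 a2 _ p)
      simp only [EE, e]
      ring)
  have F0 : ∀ y p, Dv F (0, y, p) = (y + p) * w 0 := fun y p => by
    simp only [Dv, F, zero_mul, ds_sq]
  have E0 := fun q : ℂ × ℂ × ℂ => show EE F (0, q) = (q.2.1 + q.1) * w 0 *
    ((q.2.1 + q.2.2) * w 0) - ((q.2.1 + q.2.1) * w 0) ^ 2 by simp only [EE, F0]
  let ν : ℂ := (a : ℂ)⁻¹ * k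
  let φ : ℂ → ℂ := fun y => y ^ 2 * (y ^ ν * r 0)
  have G0 : ∀ y p, Dv G (0, y, p) = dslope φ y p := fun y p => by
    simp only [Dv, G, zero_mul, φ, ν, cpow_mul_nat, b]
  let X : ℂ × ℂ → ℂ × ℂ := fun p => Ps (p.1 - y0 p.2, p.2)
  have x0 : AnalyticAt ℂ (fun p : ℂ × ℂ => (p.1 - y0 p.2, p.2)) (1, 0) :=
    (analyticAt_fst.sub (y0_an.comp_of_eq analyticAt_snd rfl)).prod analyticAt_snd
  have x1 : (fun p : ℂ × ℂ => (p.1 - y0 p.2, p.2)) (1, 0) = 0 := by simp [y0_zero]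
  have x2 : AnalyticAt ℂ X (1, 0) := Ps_an.comp_of_eq x0 x1
  have x3 : X (1, 0) = 0 := (congrArg Ps x1).trans Ps_zero
  have x4 : ∀ p : ℂ × ℂ, X (p.1 + p.2, p.2) = ((X p).1 + (X p).2, (X p).2) := fun p => by
    simp only [X, add_sub_right_comm]
    exact Ps_add (p.1 - y0 p.2, p.2)
  have x5 : ∀ p : ℂ × ℂ, X (p.1 - p.2, p.2) = ((X p).1 - (X p).2, (X p).2) := fun p => by
    simp only [X, sub_right_comm p.1 p.2]
    exact Ps_sub (p.1 - y0 p.2, p.2)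
  have s1 : AnalyticAt ℂ (fun p : ℂ × ℂ => (p.1 + p.2, p.2)) (1, 0) :=
    (analyticAt_fst.add analyticAt_snd).prod analyticAt_snd
  have s2 : AnalyticAt ℂ (fun p : ℂ × ℂ => (p.1 - p.2, p.2)) (1, 0) :=
    (analyticAt_fst.sub analyticAt_snd).prod analyticAt_snd
  have t1 := td s1 (y := (1, 0)) (by simp)
  have t2 := td s2 (y := (1, 0)) (by simp)
  let β : ℂ × ℂ → ℂ := fun p => p.1 ^ 2 - p.2 ^ 2 / 4
  have β1 : AnalyticAt ℂ β (1, 0) := (analyticAt_fst.pow 2).sub (analyticAt_snd.pow 2).div_const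
  have β2 : Tendsto β (𝓝 (1, 0)) (𝓝 1) := td β1 (by simp [β])
  have h1 : ∀ᶠ p in 𝓝 ((1 : ℂ), (0 : ℂ)), H (0, X p) = β p :=
    ((td x0 x1).eventually
      (model hU (hW.1 _ _ _ hE).2 hH E0)).mono fun p k => by simpa only [add_sub_cancel] using k
  have φ1 : AnalyticAt ℂ (fun p => φ (β p)) (1, 0) := (β1.pow 2).mul
    ((β1.cpow analyticAt_const (by simp [β])).mul analyticAt_const)
  have d1 : AnalyticAt ℂ (fun p => δ (X p)) (1, 0) := δ1.comp_of_eq x2 x3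
  have P1 : AnalyticAt ℂ (fun p : ℂ × ℂ => p.1 + p.2 / 2) (1, 0) :=
    analyticAt_fst.add analyticAt_snd.div_const
  have P2 := P1.continuousAt.eventually_ne (y := 0) (by simp)
  have nu : ¬ ∃ n : ℤ, ν = n := fun ⟨n, e⟩ => k1 (Int.natCast_dvd_natCast.1 ⟨n, by
    exact_mod_cast (inv_mul_eq_iff_eq_mul₀ a0).1 e⟩)
  have n1 : (2 * ν + 2) * r 0 ≠ 0 := mul_ne_zero
    (fun e => nu ⟨-1, by push_cast; linear_combination e / 2⟩) r0
  refine nu (last hK hN hA (J := fun p => (w 0 * p.2 * (p.1 * δ (X (p.1 + p.2, p.2)) -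
      (p.1 + p.2) * δ (X p)) / (p.1 + p.2 / 2) ^ 2 + (p.1 * φ (β (p.1 + p.2, p.2)) +
      (p.1 + p.2) * φ (β p)) / (2 * (p.1 + p.2 / 2) ^ 3)) / ((2 * ν + 2) * r 0))
    (((((analyticAt_const.mul analyticAt_snd).mul ((analyticAt_fst.mul (d1.comp_of_eq s1
      (by simp))).sub ((analyticAt_fst.add analyticAt_snd).mul d1))).div (P1.pow 2) (by simp)).add
      (((analyticAt_fst.mul (φ1.comp_of_eq s1 (by simp))).add ((analyticAt_fst.add
      analyticAt_snd).mul φ1)).div (analyticAt_const.mul (P1.pow 3)) (by simp))).div_const) ?_)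
  filter_upwards [h1, t1.eventually h1, t2.eventually h1, P2, t2.eventually P2,
    (td x2 x3).eventually δ2,
    (tendsto_const_nhds.prodMk_nhds ((β2.comp t2).prodMk_nhds (β2.prodMk_nhds
      (β2.comp t1)))).eventually hE.an.eventually_analyticAt,
    β2.eventually (isOpen_slitPlane.mem_nhds one_mem_slitPlane)] with p a1 a2 a3 a4 a5 a6 a7 a8
  simp only [Function.comp] at a7
  rw [← x4, ← x5, a1, a2, a3, fd a7.differentiableAt E0] at a6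
  simp only [F0, G0, zero_pow k0.ne', zero_mul, add_zero] at a6
  rw [show (p.1 - p.2 + p.2, p.2) = p by simp]
  refine alg w0 a4 a5 n1 rfl ?_ (sub_smul_dslope φ _ _) (sub_smul_dslope φ _ _) a6
  rw [dslope_same, ((hasDerivAt_pow 2 _).fun_mul (((hasDerivAt_id' _).cpow_const a8).mul_const
    (r 0))).deriv, cpow_sub _ _ (slitPlane_ne_zero a8), cpow_one]
  have := slitPlane_ne_zero a8
  change β p * _ = (2 + ν) * (β p ^ 2 * (β p ^ ν * r 0))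
  simp only [Nat.cast_ofNat, Nat.add_one_sub_one, pow_one]
  field_simp

end Vale.Agent.P097A
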