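import Vale.Agent.P097A.RamG1

/-!
# P097A: places of conic type with a non-isotropic tangent are not ramified (rows RG1, RG2)
-/

set_option linter.all false

noncomputable section

namespace Vale.Agent.P097A

open Filter Topology Set Metric

namespace RamG

/-! ### the kink computation -/

def g0 (r ν z : ℂ) : ℂ := -r * ((1 + z) ^ ν - (1 - z) ^ ν - 2 * ν * z)

def S1 (r ν t : ℂ) : ℂ := -r * ((t + 1) ^ ν - (t - 1) ^ ν - 2 * ν * t ^ (ν - 1))

def S1' (r ν t : ℂ) : ℂ :=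
  -r * ν * ((t + 1) ^ (ν - 1) - (t - 1) ^ (ν - 1) - 2 * (ν - 1) * t ^ (ν - 1 - 1))

lemma slit_of_im {t : ℂ} (h : 0 < t.im) : t ∈ Complex.slitPlane := Or.inr h.ne'

lemma hasDerivAt_S1 (r ν : ℂ) {t : ℂ} (ht : 0 < t.im) : HasDerivAt (S1 r ν) (S1' r ν t) t := by
  have h1 := ((hasDerivAt_id t).add_const 1).cpow_const (c := ν) (slit_of_im (by simpa using ht))
  have h2 := ((hasDerivAt_id t).sub_const 1).cpow_const (c := ν) (slit_of_im (by simpa using ht))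
  have h3 := (hasDerivAt_id t).cpow_const (c := ν - 1) (slit_of_im (by simpa using ht))
  have h4 := ((h1.sub h2).sub (h3.const_mul (2 * ν))).const_mul (-r)
  refine HasDerivAt.congr_deriv h4 ?_
  simp only [S1', id]
  ring

lemma homog (r ν : ℂ) (m : ℕ) {y w : ℂ} (hy : y ≠ 0) (h1 : (y + w) ^ ν = y ^ ν * (1 + w / y) ^ ν)
    (h2 : (y - w) ^ ν = y ^ ν * (1 - w / y) ^ ν) :
    y ^ m * (-r * ((y + w) ^ ν - (y - w) ^ ν - 2 * ν * w * y ^ (ν - 1))) =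
      y ^ (ν + m) * g0 r ν (w / y) := by
  rw [h1, h2, Complex.cpow_add _ _ hy, Complex.cpow_natCast, Complex.cpow_sub _ _ hy,
    Complex.cpow_one, g0]
  field_simp

lemma an_g0 (r ν : ℂ) : AnalyticAt ℂ (g0 r ν) 0 := by
  have h1 : AnalyticAt ℂ (fun z : ℂ => (1 + z) ^ ν) 0 :=
    (analyticAt_const.add analyticAt_id).cpow analyticAt_const (by simp [Complex.mem_slitPlane_iff])
  have h2 : AnalyticAt ℂ (fun z : ℂ => (1 - z) ^ ν) 0 :=
    (analyticAt_const.sub analyticAt_id).cpow analyticAt_const (by simp [Complex.mem_slitPlane_iff])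
  exact analyticAt_const.mul ((h1.sub h2).sub (analyticAt_const.mul analyticAt_id))

lemma kink_m (hK : Spec_KINK) (m : ℕ) (δ : ℂ × ℂ → ℂ) (c r ν : ℂ) (hδ : AnalyticAt ℂ δ 0)
    (h : ∀ᶠ p in 𝓝 (0 : ℂ × ℂ),
      p.2 * c * (δ (p.1 - p.2, p.2) + δ (p.1 + p.2, p.2) - 2 * δ p) = (1 + p.1) ^ m *
        (-r * ((1 + p.1 + p.2) ^ ν - (1 + p.1 - p.2) ^ ν - 2 * ν * p.2 * (1 + p.1) ^ (ν - 1)))) :
    ∃ N : ℕ, 1 ≤ N ∧ An (fun s => ∑ j ∈ Finset.Icc (-(N : ℤ)) N,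
      deriv (fun t => t ^ m * S1 r ν t) ((j : ℂ) + s)) := by
  have l1 : AnalyticAt ℂ (fun p : ℂ × ℂ => ((p.1 - 1 + p.2, p.2) : ℂ × ℂ)) (1, 0) :=
    ((analyticAt_fst.sub analyticAt_const).add analyticAt_snd).prod analyticAt_snd
  have l2 : AnalyticAt ℂ (fun p : ℂ × ℂ => ((p.1 - 1, p.2) : ℂ × ℂ)) (1, 0) :=
    (analyticAt_fst.sub analyticAt_const).prod analyticAt_snd
  have hI : AnalyticAt ℂ (fun p : ℂ × ℂ => p.2 * c * (δ (p.1 - 1 + p.2, p.2) - δ (p.1 - 1, p.2)))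
      (1, 0) :=
    (analyticAt_snd.mul analyticAt_const).mul
      ((AnalyticAt.comp_of_eq (g := δ) hδ l1 (by simp)).sub
        (AnalyticAt.comp_of_eq (g := δ) hδ l2 (by simp)))
  have t2 : Tendsto (fun p : ℂ × ℂ => ((p.1 - 1, p.2) : ℂ × ℂ)) (𝓝 (1, 0)) (𝓝 0) := by
    have := l2.continuousAt.tendsto
    simp only [sub_self] at this
    exact this
  have pos : ∀ f : ℂ × ℂ → ℂ, ContinuousAt f (1, 0) → f (1, 0) = 1 →
      ∀ᶠ p in 𝓝 ((1 : ℂ), (0 : ℂ)), 0 < (f p).re := by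
    intro f hf h1
    have h2 : ContinuousAt (fun p => (f p).re) (1, 0) := Complex.continuous_re.continuousAt.comp hf
    exact h2.eventually (lt_mem_nhds (by simp [h1]))
  have cd : ContinuousAt (fun p : ℂ × ℂ => p.2 / p.1) (1, 0) :=
    continuousAt_snd.div continuousAt_fst (by simp)
  obtain ⟨N₀, hN⟩ := hK _ (g0 r ν) (fun t => t ^ m * S1 r ν t) (ν + m) 0 hI (an_g0 r ν)
    (by
      filter_upwards [t2.eventually h, pos (fun p => p.1) continuousAt_fst rfl,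
        pos (fun p => p.1 + p.2) (continuousAt_fst.add continuousAt_snd) (by simp),
        pos (fun p => p.1 - p.2) (continuousAt_fst.sub continuousAt_snd) (by simp),
        pos (fun p => 1 + p.2 / p.1) (continuousAt_const.add cd) (by simp),
        pos (fun p => 1 - p.2 / p.1) (continuousAt_const.sub cd) (by simp)]
        with p hp q1 q2 q3 q4 q5
      have hy := ne_zero_of_re q1
      have e1 : p.1 * (1 + p.2 / p.1) = p.1 + p.2 := by field_simp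
      have e2 : p.1 * (1 - p.2 / p.1) = p.1 - p.2 := by field_simp
      have k1 := mul_cpow_re q1 q4 (by rw [e1]; exact q2) ν
      have k2 := mul_cpow_re q1 q5 (by rw [e2]; exact q3) ν
      rw [e1] at k1
      rw [e2] at k2
      rw [← homog r ν m hy k1 k2]
      have e3 : 1 + (p.1 - 1) = p.1 := by ring
      simp only [e3] at hp
      rw [← hp]
      have e4 : p.1 - p.2 - 1 + p.2 = p.1 - 1 := by ring
      have e5 : p.1 - p.2 - 1 = p.1 - 1 - p.2 := by ring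
      simp only [e4]
      simp only [e5]
      ring)
    (fun t ht => (((hasDerivAt_pow m t).mul (hasDerivAt_S1 r ν ht)).differentiableAt
      ).differentiableWithinAt)
    ⟨1, fun t ht => by
      have ht0 : 0 < t.im := by linarith
      have hy := ne_zero_of_im ht0
      have hn : ‖1 / t‖ < 1 := by
        rw [norm_div, norm_one, div_lt_one (norm_pos_iff.mpr hy)]
        exact lt_of_lt_of_le ht ((le_abs_self _).trans (Complex.abs_im_le_norm t))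
      have hre := abs_lt.mp (lt_of_le_of_lt (Complex.abs_re_le_norm (1 / t)) hn)
      have e1 : t * (1 + 1 / t) = t + 1 := by field_simp
      have e2 : t * (1 - 1 / t) = t - 1 := by field_simp
      have k1 := mul_cpow_im ht0 (y := 1 + 1 / t)
        (by rw [Complex.add_re, Complex.one_re]; linarith [hre.1]) (by rw [e1]; simpa using ht0) ν
      have k2 := mul_cpow_im ht0 (y := 1 - 1 / t)
        (by rw [Complex.sub_re, Complex.one_re]; linarith [hre.2]) (by rw [e2]; simpa using ht0) ν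
      rw [e1] at k1
      rw [e2] at k2
      rw [← one_div, ← homog r ν m hy k1 k2, S1, mul_one]⟩
  obtain ⟨F, hF, hF'⟩ := hN (max N₀ 1) (le_max_left _ _)
  refine ⟨max N₀ 1, le_max_right _ _, F, hF, ?_⟩
  simpa only [Complex.ofReal_zero, add_zero] using hF'

lemma mem_Icc1 {N : ℕ} (hN : 1 ≤ N) {m : ℤ} (h1 : -1 ≤ m) (h2 : m ≤ 1) :
    -m ∈ Finset.Icc (-(N : ℤ)) N := by
  rw [Finset.mem_Icc]
  omega

lemma kink0 (hK : Spec_KINK) (hNP : Spec_NP) (hAN : Spec_AN) (δ : ℂ × ℂ → ℂ) (c r ν : ℂ)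
    (hδ : AnalyticAt ℂ δ 0) (hr : r ≠ 0) (h0 : ν ≠ 0) (h1 : ν - 1 ≠ 0)
    (h : ∀ᶠ p in 𝓝 (0 : ℂ × ℂ),
      p.2 * c * (δ (p.1 - p.2, p.2) + δ (p.1 + p.2, p.2) - 2 * δ p) = (1 + p.1) ^ 0 *
        (-r * ((1 + p.1 + p.2) ^ ν - (1 + p.1 - p.2) ^ ν - 2 * ν * p.2 * (1 + p.1) ^ (ν - 1)))) :
    ∃ n : ℤ, ν - 1 - 1 = n := by
  obtain ⟨N, hN, hA⟩ := kink_m hK 0 δ c r ν hδ h
  have one : ∀ z : ℂ, AnalyticAt ℂ (fun _ : ℂ => (1 : ℂ)) z := fun _ => analyticAt_const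
  have x1 := an_sum hAN (ν - 1) _ one N 1 (mem_Icc1 hN (by norm_num) (by norm_num))
  have x2 := an_sum hAN (ν - 1) _ one N (-1) (mem_Icc1 hN (by norm_num) (by norm_num))
  have x3 := an_sum hAN (ν - 1 - 1) _ one N 0 (mem_Icc1 hN (by norm_num) (by norm_num))
  refine An.int hNP (c := 2 * r * ν * (ν - 1)) (by simp [hr, h0, h1]) ?_
  refine (hA.add (((x1.sub x2).sub (x3.cmul (2 * (ν - 1)))).cmul (r * ν))).congr fun s hs => ?_
  have e : ∑ j ∈ Finset.Icc (-(N : ℤ)) N, deriv (fun t => t ^ 0 * S1 r ν t) ((j : ℂ) + s) =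
      -(r * ν) * (∑ j ∈ Finset.Icc (-(N : ℤ)) N, 1 * ((j : ℂ) + s + ((1 : ℤ) : ℂ)) ^ (ν - 1) -
        ∑ j ∈ Finset.Icc (-(N : ℤ)) N, 1 * ((j : ℂ) + s + ((-1 : ℤ) : ℂ)) ^ (ν - 1) -
        2 * (ν - 1) *
          ∑ j ∈ Finset.Icc (-(N : ℤ)) N, 1 * ((j : ℂ) + s + ((0 : ℤ) : ℂ)) ^ (ν - 1 - 1)) := by
    rw [Finset.mul_sum, ← Finset.sum_sub_distrib, ← Finset.sum_sub_distrib, Finset.mul_sum]
    refine Finset.sum_congr rfl fun j _ => ?_
    have ht : 0 < ((j : ℂ) + s).im := by simpa using hs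
    simp only [pow_zero, one_mul]
    rw [(hasDerivAt_S1 r ν ht).deriv, S1']
    push_cast
    rw [add_zero, ← sub_eq_add_neg]
    ring
  rw [e]
  ring

lemma kink1 (hK : Spec_KINK) (hNP : Spec_NP) (hAN : Spec_AN) (δ : ℂ × ℂ → ℂ) (c r ν : ℂ)
    (hδ : AnalyticAt ℂ δ 0) (hr : r ≠ 0) (h0 : ν ≠ 0) (h1 : ν + 1 ≠ 0)
    (h : ∀ᶠ p in 𝓝 (0 : ℂ × ℂ),
      p.2 * c * (δ (p.1 - p.2, p.2) + δ (p.1 + p.2, p.2) - 2 * δ p) = (1 + p.1) ^ 1 *
        (-r * ((1 + p.1 + p.2) ^ ν - (1 + p.1 - p.2) ^ ν - 2 * ν * p.2 * (1 + p.1) ^ (ν - 1)))) :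
    ∃ n : ℤ, ν - 1 = n := by
  obtain ⟨N, hN, hA⟩ := kink_m hK 1 δ c r ν hδ h
  have one : ∀ z : ℂ, AnalyticAt ℂ (fun _ : ℂ => (1 : ℂ)) z := fun _ => analyticAt_const
  have idd : ∀ z : ℂ, AnalyticAt ℂ (fun t : ℂ => t) z := fun _ => analyticAt_id
  have x1 := an_sum hAN ν _ one N 1 (mem_Icc1 hN (by norm_num) (by norm_num))
  have x2 := an_sum hAN ν _ one N (-1) (mem_Icc1 hN (by norm_num) (by norm_num))
  have x3 := an_sum hAN (ν - 1) _ one N 0 (mem_Icc1 hN (by norm_num) (by norm_num))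
  have x4 := an_sum hAN (ν - 1) _ idd N 1 (mem_Icc1 hN (by norm_num) (by norm_num))
  have x5 := an_sum hAN (ν - 1) _ idd N (-1) (mem_Icc1 hN (by norm_num) (by norm_num))
  have x6 := an_sum hAN (ν - 1 - 1) _ idd N 0 (mem_Icc1 hN (by norm_num) (by norm_num))
  refine An.int hNP (c := 2 * r * ν * (ν + 1)) (by simp [hr, h0, h1]) ?_
  refine ((hA.add (((x1.sub x2).sub (x3.cmul (2 * ν))).cmul r)).add
    (((x4.sub x5).sub (x6.cmul (2 * (ν - 1)))).cmul (r * ν))).congr fun s hs => ?_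
  have e : ∑ j ∈ Finset.Icc (-(N : ℤ)) N, deriv (fun t => t ^ 1 * S1 r ν t) ((j : ℂ) + s) =
      -r * (∑ j ∈ Finset.Icc (-(N : ℤ)) N, 1 * ((j : ℂ) + s + ((1 : ℤ) : ℂ)) ^ ν -
        ∑ j ∈ Finset.Icc (-(N : ℤ)) N, 1 * ((j : ℂ) + s + ((-1 : ℤ) : ℂ)) ^ ν -
        2 * ν * ∑ j ∈ Finset.Icc (-(N : ℤ)) N, 1 * ((j : ℂ) + s + ((0 : ℤ) : ℂ)) ^ (ν - 1)) +
      -(r * ν) * (∑ j ∈ Finset.Icc (-(N : ℤ)) N,
          ((j : ℂ) + s) * ((j : ℂ) + s + ((1 : ℤ) : ℂ)) ^ (ν - 1) -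
        ∑ j ∈ Finset.Icc (-(N : ℤ)) N, ((j : ℂ) + s) * ((j : ℂ) + s + ((-1 : ℤ) : ℂ)) ^ (ν - 1) -
        2 * (ν - 1) * ∑ j ∈ Finset.Icc (-(N : ℤ)) N,
          ((j : ℂ) + s) * ((j : ℂ) + s + ((0 : ℤ) : ℂ)) ^ (ν - 1 - 1)) := by
    simp only [Finset.mul_sum, ← Finset.sum_sub_distrib, ← Finset.sum_add_distrib]
    refine Finset.sum_congr rfl fun j _ => ?_
    have ht : 0 < ((j : ℂ) + s).im := by simpa using hs
    have hd := ((hasDerivAt_pow 1 ((j : ℂ) + s)).mul (hasDerivAt_S1 r ν ht)).deriv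
    have e0 : ((fun x : ℂ => x ^ 1) * S1 r ν) = fun t => t ^ 1 * S1 r ν t := rfl
    rw [e0] at hd
    rw [hd, S1', S1]
    push_cast
    rw [add_zero, ← sub_eq_add_neg]
    ring
  rw [e]
  have hs0 := ne_zero_of_im hs
  have e2 : s ^ (ν - 1 - 1) = s ^ (ν - 1) / s := by
    rw [Complex.cpow_sub _ _ hs0, Complex.cpow_one]
  rw [e2]
  push_cast
  field_simp
  ring

/-! ### linearisation along the conic -/

lemma fd_line {E : ℂ × ℂ × ℂ × ℂ → ℂ} {κ : ℂ × ℂ × ℂ → ℂ} {z : ℂ × ℂ × ℂ} (d : ℂ × ℂ × ℂ)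
    (hE : DifferentiableAt ℂ E (0, z)) (hκ : DifferentiableAt ℂ κ z)
    (h : ∀ᶠ y in 𝓝 z, E (0, y) = κ y * (y.1 + y.2.2 - 2 * y.2.1))
    (hz : z.1 + z.2.2 - 2 * z.2.1 = 0) :
    fderiv ℂ E (0, z) (0, d) = κ z * (d.1 + d.2.2 - 2 * d.2.1) := by
  have l : HasDerivAt (fun t : ℂ => z + t • d) d 0 := by
    simpa using ((hasDerivAt_id (0 : ℂ)).smul_const d).const_add z
  have l0 : z + (0 : ℂ) • d = z := by simp
  have h1 : HasDerivAt (fun t : ℂ => E (0, z + t • d)) (fderiv ℂ E (0, z) (0, d)) 0 := by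
    have h2 : HasFDerivAt E (fderiv ℂ E (0, z)) ((0 : ℂ), z + (0 : ℂ) • d) := by
      rw [l0]; exact hE.hasFDerivAt
    exact h2.comp_hasDerivAt (0 : ℂ) ((hasDerivAt_const (0 : ℂ) (0 : ℂ)).prodMk l)
  have h3 : HasDerivAt (fun t : ℂ => κ (z + t • d)) (fderiv ℂ κ z d) 0 := by
    have h2 : HasFDerivAt κ (fderiv ℂ κ z) (z + (0 : ℂ) • d) := by
      rw [l0]; exact hκ.hasFDerivAt
    exact h2.comp_hasDerivAt (0 : ℂ) l
  have h4 := h3.mul ((hasDerivAt_id (0 : ℂ)).mul_const (d.1 + d.2.2 - 2 * d.2.1))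
  have ht : Tendsto (fun t : ℂ => z + t • d) (𝓝 0) (𝓝 z) := by
    have := l.continuousAt.tendsto
    rwa [l0] at this
  have h5 : (fun t : ℂ => E (0, z + t • d)) =ᶠ[𝓝 0]
      (fun t : ℂ => κ (z + t • d)) * fun t => id t * (d.1 + d.2.2 - 2 * d.2.1) := by
    filter_upwards [ht.eventually h] with t ht
    rw [ht]
    simp only [Pi.mul_apply, Prod.fst_add, Prod.snd_add, Prod.smul_fst, Prod.smul_snd, smul_eq_mul,
      id]
    linear_combination κ (z + t • d) * hz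
  have h6 := h1.unique (h4.congr_of_eventuallyEq h5)
  rw [h6]
  simp

lemma master (hLIN : Spec_LIN) (hU : Spec_UNIQ) (hL : Spec_LAWF) {E Et : ℂ × ℂ × ℂ × ℂ → ℂ}
    {ζ : ℂ} {k : ℕ} {H : ℂ × ℂ × ℂ → ℂ} {κ : ℂ × ℂ × ℂ → ℂ} (hk : 0 < k) (hE : IsLawF E 0 1)
    (hH : Gauged E 0 1 H) (hEt : AnalyticAt ℂ Et (0, 1, 1, 1))
    (hd : ∀ᶠ q in 𝓝 ((0 : ℂ), (1 : ℂ), (1 : ℂ), (1 : ℂ)), E (ζ * q.1, q.2) - E q = q.1 ^ k * Et q)
    (hκ : AnalyticAt ℂ κ (1, 1, 1))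
    (h : ∀ᶠ y in 𝓝 ((1 : ℂ), (1 : ℂ), (1 : ℂ)), E (0, y) = κ y * (y.1 + y.2.2 - 2 * y.2.1)) :
    ∃ δ : ℂ × ℂ → ℂ, AnalyticAt ℂ δ 0 ∧ ∀ᶠ p in 𝓝 (0 : ℂ × ℂ),
      κ (1 + p.1 - p.2, 1 + p.1, 1 + p.1 + p.2) *
          (δ (p.1 - p.2, p.2) + δ (p.1 + p.2, p.2) - 2 * δ p) +
        Et (0, 1 + p.1 - p.2, 1 + p.1, 1 + p.1 + p.2) = 0 := by
  obtain ⟨δ, hδ, hδ'⟩ := hLIN E Et 1 ζ k H hk hE hH hEt hd
  refine ⟨δ, hδ, ?_⟩
  have t0 : Tendsto (fun p : ℂ × ℂ => (((0 : ℂ), p) : ℂ × ℂ × ℂ)) (𝓝 0) (𝓝 (0, 0, 0)) :=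
    (Continuous.prodMk_right (0 : ℂ)).tendsto _
  have t1 : Tendsto (fun v : ℂ => (((0 : ℂ), v) : ℂ × ℂ)) (𝓝 0) (𝓝 (0, 0)) :=
    (Continuous.prodMk_right (0 : ℂ)).tendsto _
  have t3 : Tendsto (fun p : ℂ × ℂ => ((1 + p.1 - p.2, 1 + p.1, 1 + p.1 + p.2) : ℂ × ℂ × ℂ))
      (𝓝 0) (𝓝 (1, 1, 1)) :=
    Continuous.tendsto' (by fun_prop) 0 _ (by simp)
  have t4 : Tendsto (fun y : ℂ × ℂ × ℂ => (((0 : ℂ), y) : ℂ × ℂ × ℂ × ℂ)) (𝓝 (1, 1, 1))
      (𝓝 (0, 1, 1, 1)) := (Continuous.prodMk_right (0 : ℂ)).tendsto _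
  have tm : Tendsto (fun p : ℂ × ℂ => ((p.1 - p.2, p.2) : ℂ × ℂ)) (𝓝 0) (𝓝 0) :=
    Continuous.tendsto' (by fun_prop) 0 _ (by simp)
  have tp : Tendsto (fun p : ℂ × ℂ => ((p.1 + p.2, p.2) : ℂ × ℂ)) (𝓝 0) (𝓝 0) :=
    Continuous.tendsto' (by fun_prop) 0 _ (by simp)
  have hu := hU (fun y => E (0, y)) 1 (fun p => H (0, p)) (fun p => 1 + p.1) (hL.1 E 0 1 hE).2
    (AnalyticAt.comp_of_eq (g := H) (f := fun p : ℂ × ℂ => (((0 : ℂ), p) : ℂ × ℂ × ℂ)) hH.an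
      (analyticAt_const.prod analyticAt_id) rfl)
    (analyticAt_const.add analyticAt_fst) hH.g0.self_of_nhds (by simp)
    (t0.eventually hH.sol)
    (by
      filter_upwards [t3.eventually h] with p hp
      have e1 : 1 + (p.1 - p.2) = 1 + p.1 - p.2 := by ring
      have e2 : 1 + (p.1 + p.2) = 1 + p.1 + p.2 := by ring
      simp only [e1, e2]
      rw [hp]
      ring)
    (by
      filter_upwards [t1.eventually hH.g0, t1.eventually hH.g1] with v h1 h2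
      exact ⟨by simpa using h1, h2⟩)
  filter_upwards [hδ', hu, tm.eventually hu, tp.eventually hu,
    (t4.comp t3).eventually hE.an.eventually_analyticAt,
    t3.eventually hκ.eventually_analyticAt, t3.eventually h.eventually_nhds]
    with p h1 h2 h3 h4 h5 h6 h7
  have e1 : 1 + (p.1 - p.2) = 1 + p.1 - p.2 := by ring
  have e2 : 1 + (p.1 + p.2) = 1 + p.1 + p.2 := by ring
  simp only [e1, e2] at h3 h4
  rw [h2, h3, h4] at h1
  rw [fd_line _ h5.differentiableAt h6.differentiableAt h7 (by simp only; ring)] at h1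
  exact h1

lemma dslope_id' (a b : ℂ) : dslope (fun x : ℂ => x) a b = 1 := by
  by_cases h : b = a
  · subst h; simp
  · rw [dslope_of_ne _ h, slope_def_field, div_self (sub_ne_zero.mpr h)]

lemma dslope_sq (c a b : ℂ) : dslope (fun x : ℂ => x ^ 2 * c) a b = (a + b) * c := by
  by_cases h : b = a
  · subst h
    rw [dslope_same, ((hasDerivAt_pow 2 b).mul_const c).deriv]
    push_cast
    ring
  · have := sub_ne_zero.mpr h
    rw [dslope_of_ne _ h, slope_def_field]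
    field_simp
    ring

lemma dslope_inv' (c : ℂ) {a b : ℂ} (ha : a ≠ 0) (hb : b ≠ 0) :
    dslope (fun x : ℂ => x⁻¹ * c) a b = -c / (a * b) := by
  by_cases h : b = a
  · subst h
    rw [dslope_same, ((hasDerivAt_inv hb).mul_const c).deriv]
    field_simp
  · have := sub_ne_zero.mpr h
    rw [dslope_of_ne _ h, slope_def_field]
    field_simp
    ring

/-- the three slopes of the perturbation at `ε = 0` -/
lemma slopes {Ft : ℂ × ℂ → ℂ} {r μ : ℂ} (h : ∀ x : ℂ, x ≠ 0 → Ft (0, x) = r * x ^ μ) :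
    ∀ᶠ p in 𝓝 (0 : ℂ × ℂ), 1 + p.1 ≠ 0 ∧ 1 + p.1 - p.2 ≠ 0 ∧ 1 + p.1 + p.2 ≠ 0 ∧
      p.2 * dA Ft (0, 1 + p.1 - p.2, 1 + p.1, 1 + p.1 + p.2) =
        r * (1 + p.1) ^ μ - r * (1 + p.1 - p.2) ^ μ ∧
      dB Ft (0, 1 + p.1 - p.2, 1 + p.1, 1 + p.1 + p.2) = r * (μ * (1 + p.1) ^ (μ - 1)) ∧
      p.2 * dC Ft (0, 1 + p.1 - p.2, 1 + p.1, 1 + p.1 + p.2) =
        r * (1 + p.1 + p.2) ^ μ - r * (1 + p.1) ^ μ := by
  have pos : ∀ f : ℂ × ℂ → ℂ, Continuous f → f 0 = 1 → ∀ᶠ p in 𝓝 (0 : ℂ × ℂ), 0 < (f p).re := by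
    intro f hf h1
    have h2 : ContinuousAt (fun p => (f p).re) 0 := (Complex.continuous_re.comp hf).continuousAt
    exact h2.eventually (lt_mem_nhds (by simp [h1]))
  filter_upwards [pos (fun p => 1 + p.1) (by fun_prop) (by simp),
    pos (fun p => 1 + p.1 - p.2) (by fun_prop) (by simp),
    pos (fun p => 1 + p.1 + p.2) (by fun_prop) (by simp)] with p q1 q2 q3
  have n1 := ne_zero_of_re q1
  have n2 := ne_zero_of_re q2
  have n3 := ne_zero_of_re q3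
  refine ⟨n1, n2, n3, ?_, ?_, ?_⟩
  · have := sub_smul_dslope (fun y => Ft (0, y)) (1 + p.1) (1 + p.1 - p.2)
    rw [h _ n1, h _ n2, smul_eq_mul] at this
    simp only [dA]
    linear_combination -this
  · have e : (fun y => Ft (0, y)) =ᶠ[𝓝 (1 + p.1)] fun y => r * y ^ μ := by
      filter_upwards [isOpen_ne.mem_nhds n1] with y hy
      exact h y hy
    have d := (((hasDerivAt_id (1 + p.1)).cpow_const (c := μ) (Or.inl q1)).const_mul r).deriv
    simp only [dB]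
    rw [e.deriv_eq]
    simpa using d
  · have := sub_smul_dslope (fun y => Ft (0, y)) (1 + p.1) (1 + p.1 + p.2)
    rw [h _ n1, h _ n3, smul_eq_mul] at this
    simp only [dC]
    linear_combination this

lemma not_int {a k : ℕ} (ha : 0 < a) (hk : ¬ a ∣ k) (n : ℤ) : (k : ℂ) / a ≠ n := by
  intro h
  have ha' : (a : ℂ) ≠ 0 := by exact_mod_cast ha.ne'
  rw [div_eq_iff ha'] at h
  have h2 : (k : ℤ) = n * a := by exact_mod_cast h
  exact hk (Int.natCast_dvd_natCast.mp ⟨n, by rw [h2, mul_comm]⟩)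

lemma ne_of_pos (a k : ℕ) (c : ℕ) (hc : 0 < c) : (k : ℂ) / a + c ≠ 0 := by
  have h : (0 : ℝ) < (k : ℝ) / a + c := by positivity
  have e : (k : ℂ) / a + c = (((k : ℝ) / a + c : ℝ) : ℂ) := by push_cast; ring
  rw [e]
  exact_mod_cast h.ne'

lemma sc_one {a : ℕ} (ha : 0 < a) (ε : ℂ) : sc a (fun _ => 1) (rt a) ε = fun x => x := by
  funext x
  simp [sc, rt_pow ha]

end RamG

open RamG

theorem rg1 (hF : Spec_FAM) (hLIN : Spec_LIN) (hU : Spec_UNIQ) (hL : Spec_LAWF) (hK : Spec_KINK)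
    (hNP : Spec_NP) (hAN : Spec_AN) (hDD : Spec_DD) : Spec_RG1 := by
  intro a v ζ ha hζ hv hv0 hint
  by_contra hne
  obtain ⟨k, r, hk, hak, hr, hr0, hvr⟩ := order a v ζ ha hζ hv hne
  obtain ⟨hE, H, hH⟩ := hF.2 a (2 * a) (fun _ => 1) v (rt a) 1 (by omega) (by omega) (by omega)
    analyticAt_const hv one_ne_zero hv0 (rt_an a) (rt_one a) (rt_deriv ha) hint
  set F : ℂ × ℂ → ℂ := fun p => sc (2 * a) v (rt a) p.1 p.2 with hFdef
  set Ft : ℂ × ℂ → ℂ := fun p => rt a p.2 ^ k * sc (2 * a) r (rt a) p.1 p.2 with hFt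
  have aF : AnalyticAt ℂ F (0, 1) := an_sc _ hv (rt_an a) (rt_one a)
  have aFt : AnalyticAt ℂ Ft (0, 1) :=
    ((AnalyticAt.comp_of_eq (g := rt a) (rt_an a) analyticAt_snd rfl).pow k).mul
      (an_sc _ hr (rt_an a) (rt_one a))
  have hp := pert (ζ := ζ) (k := k) aF aFt (fun ε y => by
    simp only [hFdef, hFt, sc, mul_assoc, hvr]
    ring)
  have eN : (2 * (a : ℤ) - a).toNat = a := by omega
  have eE : ∀ q, famG a (2 * a) (fun _ => 1) v (rt a) q =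
      (dA F q + dC F q) * (1 + q.1 ^ (2 * a) * dB F q ^ 2) -
        2 * dB F q * (1 + q.1 ^ (2 * a) * (dA F q * dC F q)) := by
    intro q
    simp only [famG, lawG, sc_one ha, eN, dslope_id', deriv_id'', dA, dB, dC, hFdef]
    ring
  obtain ⟨a1, a2, a3⟩ := an_d hDD aF
  obtain ⟨b1, b2, b3⟩ := an_d hDD aFt
  have a0 := an_q1 ((0 : ℂ), (1 : ℂ), (1 : ℂ), (1 : ℂ))
  have e2 : ∀ x, rt a x ^ (2 * (a : ℤ)) = x ^ 2 := fun x => by
    rw [show (2 * (a : ℤ)) = ((a * 2 : ℕ) : ℤ) by push_cast; ring, zpow_natCast, pow_mul, rt_pow ha]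
  have eF0 : (fun y => F (0, y)) = fun y => y ^ 2 * v 0 := by
    funext y
    simp only [hFdef, sc, e2, zero_mul]
  obtain ⟨δ, hδ, hδ'⟩ := master hLIN hU hL (ζ := ζ) (κ := fun _ => v 0)
    (Et := fun q => (dA Ft q + dC Ft q) *
        (1 + q.1 ^ (2 * a) * (dB F q + q.1 ^ k * dB Ft q) ^ 2) +
      (dA F q + dC F q) * (q.1 ^ (2 * a) * (2 * dB F q * dB Ft q + q.1 ^ k * dB Ft q ^ 2)) -
      2 * dB Ft q * (1 + q.1 ^ (2 * a) *
        ((dA F q + q.1 ^ k * dA Ft q) * (dC F q + q.1 ^ k * dC Ft q))) -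
      2 * dB F q * (q.1 ^ (2 * a) *
        (dA F q * dC Ft q + dA Ft q * dC F q + q.1 ^ k * (dA Ft q * dC Ft q))))
    hk hE hH (by fun_prop)
    (by
      filter_upwards [hp] with q hq
      rw [eE, eE, hq.1, hq.2.1, hq.2.2]
      simp only
      rw [mul_pow ζ, mul_comm 2 a, pow_mul ζ, hζ, one_pow, one_mul]
      ring)
    analyticAt_const
    (Eventually.of_forall fun y => by
      rw [eE]
      simp only [dA, dB, dC, eF0, ← dslope_same, dslope_sq, zero_pow (by omega : 2 * a ≠ 0)]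
      ring)
  have hs := slopes (Ft := Ft) (r := r 0) (μ := (k : ℂ) / a + 2) (fun x hx => by
    simp only [hFt, sc, e2, zero_mul, rt_pow_k]
    rw [Complex.cpow_add _ _ hx, Complex.cpow_ofNat]
    ring)
  obtain ⟨n, hn⟩ := kink0 hK hNP hAN δ (v 0) (r 0) ((k : ℂ) / a + 2) hδ hr0
    (by exact_mod_cast ne_of_pos a k 2 (by norm_num))
    (by
      have := ne_of_pos a k 1 (by norm_num)
      intro h
      apply this
      push_cast
      linear_combination h)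
    (by
      filter_upwards [hδ', hs] with p h1 ⟨_, _, _, h2, h3, h4⟩
      simp only [zero_pow (by omega : 2 * a ≠ 0), zero_mul, add_zero, mul_zero, mul_one,
        sub_zero] at h1
      rw [h3] at h1
      linear_combination p.2 * h1 - h2 - h4)
  exact not_int ha hak n (by linear_combination hn)

theorem rg2 (hF : Spec_FAM) (hLIN : Spec_LIN) (hU : Spec_UNIQ) (hL : Spec_LAWF) (hK : Spec_KINK)
    (hNP : Spec_NP) (hAN : Spec_AN) (hDD : Spec_DD) : Spec_RG2 := by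
  intro a u ζ ha hζ hu hu0 hint
  by_contra hne
  obtain ⟨k, r, hk, hak, hr, hr0, hvr⟩ := order a u ζ ha hζ hu hne
  obtain ⟨hE, H, hH⟩ := hF.2 (-a) a u (fun _ => 1) (rt a) 1 (by omega) (by omega) (by omega)
    hu analyticAt_const hu0 one_ne_zero (rt_an a) (rt_one a) (rt_deriv ha) hint
  set F : ℂ × ℂ → ℂ := fun p => sc (-a) u (rt a) p.1 p.2 with hFdef
  set Ft : ℂ × ℂ → ℂ := fun p => rt a p.2 ^ k * sc (-a) r (rt a) p.1 p.2 with hFt
  have aF : AnalyticAt ℂ F (0, 1) := an_sc _ hu (rt_an a) (rt_one a)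
  have aFt : AnalyticAt ℂ Ft (0, 1) :=
    ((AnalyticAt.comp_of_eq (g := rt a) (rt_an a) analyticAt_snd rfl).pow k).mul
      (an_sc _ hr (rt_an a) (rt_one a))
  have hp := pert (ζ := ζ) (k := k) aF aFt (fun ε y => by
    simp only [hFdef, hFt, sc, mul_assoc, hvr]
    ring)
  have eN : 2 * ((a : ℤ) - -a).toNat = a * 4 := by omega
  have eE : ∀ q, famG (-a) a u (fun _ => 1) (rt a) q =
      (dC F q + dA F q) * (dB F q ^ 2 + q.1 ^ (a * 4)) -
        2 * dB F q * (dA F q * dC F q + q.1 ^ (a * 4)) := by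
    intro q
    simp only [famG, lawG, sc_one ha, eN, dslope_id', deriv_id'', dA, dB, dC, hFdef]
    ring
  obtain ⟨a1, a2, a3⟩ := an_d hDD aF
  obtain ⟨b1, b2, b3⟩ := an_d hDD aFt
  have a0 := an_q1 ((0 : ℂ), (1 : ℂ), (1 : ℂ), (1 : ℂ))
  have e2 : ∀ x, rt a x ^ (-(a : ℤ)) = x⁻¹ := fun x => by
    rw [zpow_neg, zpow_natCast, rt_pow ha]
  have eF0 : (fun y => F (0, y)) = fun y => y⁻¹ * u 0 := by
    funext y
    simp only [hFdef, sc, e2, zero_mul]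
  have eABC : ∀ y : ℂ × ℂ × ℂ, y.1 ≠ 0 → y.2.1 ≠ 0 → y.2.2 ≠ 0 →
      dA F (0, y) = -u 0 / (y.2.1 * y.1) ∧ dB F (0, y) = -u 0 / (y.2.1 * y.2.1) ∧
        dC F (0, y) = -u 0 / (y.2.1 * y.2.2) := by
    intro y h1 h2 h3
    simp only [dA, dB, dC, eF0, ← dslope_same]
    exact ⟨dslope_inv' _ h2 h1, dslope_inv' _ h2 h2, dslope_inv' _ h2 h3⟩
  have c1 : AnalyticAt ℂ (fun y : ℂ × ℂ × ℂ => y.1) (1, 1, 1) := analyticAt_fst
  have c2 : AnalyticAt ℂ (fun y : ℂ × ℂ × ℂ => y.2.1) (1, 1, 1) :=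
    AnalyticAt.comp (g := Prod.fst) (f := fun q : ℂ × ℂ × ℂ => q.2) analyticAt_fst analyticAt_snd
  have c3 : AnalyticAt ℂ (fun y : ℂ × ℂ × ℂ => y.2.2) (1, 1, 1) :=
    AnalyticAt.comp (g := Prod.snd) (f := fun q : ℂ × ℂ × ℂ => q.2) analyticAt_snd analyticAt_snd
  obtain ⟨δ, hδ, hδ'⟩ := master hLIN hU hL (ζ := ζ)
    (κ := fun y => -u 0 ^ 3 / (y.1 * y.2.1 ^ 5 * y.2.2))
    (Et := fun q => (dC Ft q + dA Ft q) * ((dB F q + q.1 ^ k * dB Ft q) ^ 2 + q.1 ^ (a * 4)) +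
      (dC F q + dA F q) * (2 * dB F q * dB Ft q + q.1 ^ k * dB Ft q ^ 2) -
      2 * dB Ft q * ((dA F q + q.1 ^ k * dA Ft q) * (dC F q + q.1 ^ k * dC Ft q) + q.1 ^ (a * 4)) -
      2 * dB F q * (dA F q * dC Ft q + dA Ft q * dC F q + q.1 ^ k * (dA Ft q * dC Ft q)))
    hk hE hH (by fun_prop)
    (by
      filter_upwards [hp] with q hq
      rw [eE, eE, hq.1, hq.2.1, hq.2.2]
      simp only
      rw [mul_pow ζ, pow_mul ζ, hζ, one_pow, one_mul]
      ring)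
    (analyticAt_const.div ((c1.mul (c2.pow 5)).mul c3) (by simp))
    (by
      filter_upwards [c1.continuousAt.eventually_ne one_ne_zero,
        c2.continuousAt.eventually_ne one_ne_zero, c3.continuousAt.eventually_ne one_ne_zero]
        with y h1 h2 h3
      obtain ⟨k1, k2, k3⟩ := eABC y h1 h2 h3
      rw [eE, k1, k2, k3]
      simp only [zero_pow (by omega : a * 4 ≠ 0)]
      field_simp
      ring)
  have hs := slopes (Ft := Ft) (r := r 0) (μ := (k : ℂ) / a - 1) (fun x hx => by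
    simp only [hFt, sc, e2, zero_mul, rt_pow_k]
    rw [Complex.cpow_sub _ _ hx, Complex.cpow_one]
    ring)
  obtain ⟨n, hn⟩ := kink1 hK hNP hAN δ (u 0) (r 0) ((k : ℂ) / a + 1) hδ hr0
    (by exact_mod_cast ne_of_pos a k 1 (by norm_num))
    (by
      have := ne_of_pos a k 2 (by norm_num)
      intro h
      apply this
      push_cast
      linear_combination h)
    (by
      filter_upwards [hδ', hs] with p h1 ⟨n1, n2, n3, h2, h3, h4⟩
      obtain ⟨k1, k2, k3⟩ := eABC (1 + p.1 - p.2, 1 + p.1, 1 + p.1 + p.2) n2 n1 n3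
      simp only [zero_pow (by omega : a * 4 ≠ 0), zero_pow hk.ne', zero_mul, add_zero] at h1
      rw [k1, k2, k3, h3] at h1
      have w1 : ∀ x : ℂ, x ≠ 0 → x ^ ((k : ℂ) / a + 1) = x ^ ((k : ℂ) / a - 1) * x ^ 2 := by
        intro x hx
        rw [← Complex.cpow_ofNat, ← Complex.cpow_add _ _ hx]
        congr 1
        ring
      have w2 : (1 + p.1) ^ ((k : ℂ) / a + 1 - 1) = (1 + p.1) ^ ((k : ℂ) / a - 1) * (1 + p.1) := by
        rw [Complex.cpow_sub _ _ n1, Complex.cpow_one, w1 _ n1]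
        field_simp
      have w3 : (1 + p.1) ^ ((k : ℂ) / a - 1 - 1) = (1 + p.1) ^ ((k : ℂ) / a - 1) / (1 + p.1) := by
        rw [Complex.cpow_sub _ _ n1, Complex.cpow_one]
      rw [w3] at h1
      rw [w1 _ n2, w1 _ n3, w2]
      simp only at h1
      generalize (1 + p.1) ^ ((k : ℂ) / a - 1) = P0 at *
      generalize (1 + p.1 - p.2) ^ ((k : ℂ) / a - 1) = Pm at *
      generalize (1 + p.1 + p.2) ^ ((k : ℂ) / a - 1) = Pp at *
      generalize dA Ft (0, 1 + p.1 - p.2, 1 + p.1, 1 + p.1 + p.2) = At at *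
      generalize dC Ft (0, 1 + p.1 - p.2, 1 + p.1, 1 + p.1 + p.2) = Ct at *
      generalize δ (p.1 - p.2, p.2) + δ (p.1 + p.2, p.2) - 2 * δ p = D at *
      generalize (k : ℂ) / a = κ at *
      generalize 1 + p.1 = y at *
      generalize p.2 = w at *
      have key : u 0 * D + y * (At * (y - w) ^ 2 + Ct * (y + w) ^ 2 -
          2 * (r 0 * ((κ - 1) * (P0 / y))) * y ^ 2) = 0 := by
        have hne : -u 0 ^ 2 / ((y - w) * y ^ 5 * (y + w)) ≠ 0 :=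
          div_ne_zero (neg_ne_zero.mpr (pow_ne_zero _ hu0))
            (mul_ne_zero (mul_ne_zero n2 (pow_ne_zero _ n1)) n3)
        refine mul_left_cancel₀ hne ?_
        rw [mul_zero]
        refine Eq.trans ?_ h1
        field_simp
        ring
      have e : 2 * (r 0 * ((κ - 1) * (P0 / y))) * y ^ 2 = 2 * r 0 * (κ - 1) * P0 * y := by
        field_simp
      rw [e] at key
      linear_combination w * key - y * (y - w) ^ 2 * h2 - y * (y + w) ^ 2 * h4)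
  exact not_int ha hak n (by linear_combination hn)

end Vale.Agent.P097A
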