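import Vale.Agent.P097A.Bern
import Vale.Agent.P097A.Step
import Vale.Agent.P097A.Propag
import Vale.Agent.P097A.Avg
import Vale.Agent.P097A.Gauge
import Vale.Agent.P097A.Fam
import Vale.Agent.P097A.Law
import Vale.Agent.P097A.GFun
import Vale.Agent.P097A.Fatou
import Vale.Agent.P097A.Exp
import Vale.Agent.P097A.Pui
import Vale.Agent.P097A.Pup
import Vale.Agent.P097A.Loc
import Vale.Agent.P097A.Push
import Vale.Agent.P097A.Mer
import Vale.Agent.P097A.Class
import Vale.Agent.P097A.Lin
import Vale.Agent.P097A.Kink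
import Vale.Agent.P097A.RamG
import Vale.Agent.P097A.RamE
import Vale.Agent.P097A.Desc
import Vale.Agent.P097A.GB
import Vale.Agent.P097A.Place
import Vale.Agent.P097A.Glob
import Vale.Agent.P097A.Bridge
import Vale.Agent.P097A.Ell

/-!
# P097A: assembly of the steps
-/

set_option linter.all false

noncomputable section

namespace Vale.Agent.P097A

open Filter Topology Set Vale.Agent.P097

theorem prop' : Spec_PROP := propag step lawf ext

theorem law' : Spec_LAW := law dd

theorem fam' : Spec_FAM := fam dd lawf (avg step lawf)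

theorem exp' : Spec_EXP := exp_of fam' (fatou dd lines) (mer (pui desc) (push loc)) clg cle

theorem place' : Spec_PLACE :=
  place nf law' gg exp' (rg1 fam' lin (uniq lines) lawf kink np an dd)
    (rg2 fam' lin (uniq lines) lawf kink np an dd) (re fam' lin (uniq lines) lawf kink np an dd)

theorem glob' : Spec_GLOB := glob pup prop' law' gg place'

theorem br' : Spec_BR := br lines dd

theorem t2' : Spec_T2 := t2 br' zw prop' law' exp' pb

theorem t1' : Spec_T1 := by
  intro h p hT hI p0 hinf
  obtain ⟨H, Ha, eH⟩ := zw.2.1 h 0 (hT.1 0)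
  have hρ := zw.2.2.1 h H 0 (hT.1 0) Ha eH
  have hR : Reg (Zc H) (Wc H) ((0 : ℝ) : ℂ) := by
    refine zw.1 H _ Ha ?_
    rw [hρ]
    exact_mod_cast (hT.2.2 0).ne'
  obtain ⟨P, P0, hP⟩ := zw.2.2.2 h H 0 p hT p0 hinf Ha eH
  exact ell_of h H 0 hT Ha eH (glob' P _ _ _ P0 hR (br' h H 0 hT hI Ha eH) hP)

end Vale.Agent.P097A
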