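import Vale.Agent.P097A.Spec
import Vale.Agent.P097.H407.Hol

/-!
# P097A, block 1: HOM, LINES, SUM, EXT
-/

noncomputable section

namespace Vale.Agent.P097A

open Filter Topology Set Metric Polynomial

namespace Bern

theorem tc_eq {f : ℂ → ℂ} {p : FormalMultilinearSeries ℂ ℂ ℂ} (h : HasFPowerSeriesAt f p 0)
    (k : ℕ) : tc k f = p.coeff k := by
  obtain ⟨r, h⟩ := h
  rw [tc, iteratedDeriv_eq_iteratedFDeriv, ← h.factorial_smul, nsmul_eq_mul,
    mul_div_cancel_left₀ _ (Nat.cast_ne_zero.2 k.factorial_ne_zero)]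
  rfl

theorem tc_congr {f g : ℂ → ℂ} (h : ∀ᶠ v in 𝓝 (0 : ℂ), f v = g v) (k : ℕ) : tc k f = tc k g := by
  rw [tc, tc, EventuallyEq.iteratedDeriv_eq k h]

theorem tc_zero (k : ℕ) : tc k (fun _ => 0) = 0 := by simp [tc]

/-- the coefficients of a convergent series -/
theorem tc_sum {f : ℂ → ℂ} {c : ℕ → ℂ} (h : ∀ᶠ v in 𝓝 (0 : ℂ), HasSum (fun n => v ^ n * c n) (f v))
    (k : ℕ) : tc k f = c k :=
  (tc_eq (p := FormalMultilinearSeries.ofScalars ℂ c) (hasFPowerSeriesAt_iff.2 (by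
    simpa using h)) k).trans (by simp)

theorem tc_line {G : ℂ × ℂ → ℂ} {p : FormalMultilinearSeries ℂ (ℂ × ℂ) ℂ}
    (h : HasFPowerSeriesAt G p 0) (k : ℕ) (s : ℂ) :
    tc k (fun v => G (s * v, v)) = p k fun _ => (s, 1) := by
  refine tc_sum (c := fun k => p k fun _ => (s, 1)) ?_ k
  have t : Tendsto (fun v : ℂ => (s * v, v)) (𝓝 0) (𝓝 0) :=
    (Continuous.tendsto' (by fun_prop) _ _ (by simp [Prod.mk_zero_zero]))
  filter_upwards [t.eventually h.eventually_hasSum] with v hv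
  rw [zero_add] at hv
  refine (congrArg (HasSum · _) (funext fun n => ?_)).mp hv
  rw [show (fun _ : Fin n => (s * v, v)) = fun _ => v • (s, (1 : ℂ)) from
    funext fun _ => by simp [mul_comm], (p n).map_smul_univ]
  simp

/-- germs with the same Taylor coefficients along the lines agree -/
theorem eq_of_tc {G G' : ℂ × ℂ → ℂ} (h : AnalyticAt ℂ G 0) (h' : AnalyticAt ℂ G' 0)
    (e : ∀ k s, tc k (fun v => G (s * v, v)) = tc k fun v => G' (s * v, v)) :
    ∀ᶠ p in 𝓝 (0 : ℂ × ℂ), G p = G' p := by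
  obtain ⟨p, h⟩ := h
  obtain ⟨p', h'⟩ := h'
  have e1 : ∀ k, (fun y => p k fun _ => y) = fun y => p' k fun _ => y := fun k =>
    Continuous.ext_on (dense_univ.prod (dense_compl_singleton (0 : ℂ))) (by fun_prop) (by fun_prop)
      fun y hy => by
        have hy : y.2 ≠ 0 := hy.2
        have e2 : (fun _ : Fin k => y) = fun _ => y.2 • (y.1 / y.2, (1 : ℂ)) :=
          funext fun _ => Prod.ext (by simp [mul_div_cancel₀ _ hy]) (by simp)
        rw [e2, (p k).map_smul_univ, (p' k).map_smul_univ, ← tc_line h, ← tc_line h', e]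
  filter_upwards [h.eventually_hasSum, h'.eventually_hasSum] with y k k'
  simp only [zero_add, fun n => congrFun (e1 n) y] at k k'
  exact k.unique k'

/-- the homogeneous form of a polynomial -/
def hm (k : ℕ) (P : ℂ[X]) (x y : ℂ) : ℂ := ∑ i ∈ Finset.range (k + 1), P.coeff i * x ^ i * y ^ (k - i)

theorem hm_line {k : ℕ} {P : ℂ[X]} (h : P.natDegree ≤ k) (s v : ℂ) :
    hm k P (s * v) v = v ^ k * P.eval s := by
  rw [hm, eval_eq_sum_range' (Nat.lt_succ_of_le h), Finset.mul_sum]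
  refine Finset.sum_congr rfl fun i hi => ?_
  obtain ⟨d, rfl⟩ := Nat.exists_eq_add_of_le (Nat.le_of_lt_succ (Finset.mem_range.1 hi))
  rw [Nat.add_sub_cancel_left]
  ring

theorem max_mod {f : ℂ → ℂ} (hf : Differentiable ℂ f) {ρ C : ℝ} (hρ : 0 < ρ)
    (h : ∀ w, ‖w‖ = ρ → ‖f w‖ ≤ C) {w : ℂ} (hw : ‖w‖ ≤ ρ) : ‖f w‖ ≤ C :=
  Complex.norm_le_of_forall_mem_frontier_norm_le (U := ball 0 ρ) isBounded_ball hf.diffContOnCl
    (fun z hz => h z (by rwa [frontier_ball _ hρ.ne', mem_sphere_zero_iff_norm] at hz))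
    (by rwa [closure_ball _ hρ.ne', mem_closedBall_zero_iff])

/-- the inequality of Bernstein -/
theorem bern {k : ℕ} {P : ℂ[X]} (h : P.natDegree ≤ k) {B S : ℝ} (hS : 0 < S)
    (hB : ∀ s : ℝ, 0 ≤ s → s ≤ S → ‖P.eval (s : ℂ)‖ ≤ B) {z : ℂ} (hz : ‖z‖ ≤ S) :
    ‖P.eval z‖ ≤ B * 7 ^ k := by
  have hS' : (S : ℂ) ≠ 0 := Complex.ofReal_ne_zero.2 hS.ne'
  obtain ⟨w, w', h1, h2, h3⟩ : ∃ w w' : ℂ, w * w' = 1 ∧ w + w' = 4 * z / S - 2 ∧ ‖w‖ ≤ 1 := by
    obtain ⟨d, hd⟩ := IsAlgClosed.exists_eq_mul_self ((2 * z / S - 1) ^ 2 - 1)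
    have e : (2 * z / S - 1 + d) * (2 * z / S - 1 - d) = 1 := by linear_combination hd
    by_cases k : ‖2 * z / S - 1 + d‖ ≤ 1
    · exact ⟨_, _, e, by ring, k⟩
    · refine ⟨_, _, (mul_comm _ _).trans e, by ring, ?_⟩
      have := congrArg norm e
      rw [norm_mul, norm_one] at this
      nlinarith [norm_nonneg (2 * z / S - 1 - d)]
  have h4 : ‖w'‖ ≤ 7 := by
    rw [show w' = 4 * z / S - 2 - w by linear_combination h2]
    have : ‖4 * z / S‖ ≤ 4 := by
      rw [norm_div, norm_mul, Complex.norm_real, Real.norm_of_nonneg hS.le, div_le_iff₀ hS]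
      simpa using hz
    have h5 := norm_sub_le (4 * z / S - 2) w
    have h6 := norm_sub_le (4 * z / S) 2
    simp only [Complex.norm_ofNat] at h6
    linarith
  have key : ∀ u u' : ℂ, u * u' = 1 → hm k P (S * u / 2 + S / 4 * (u ^ 2 + 1)) u =
      u ^ k * P.eval (S / 2 + S / 4 * (u + u')) := fun u u' e => by
    rw [← hm_line h]
    congr 1
    linear_combination (-S / 4) * e
  have h5 := max_mod (f := fun u => hm k P (S * u / 2 + S / 4 * (u ^ 2 + 1)) u) (C := B)
    (by unfold hm; fun_prop) one_pos (fun u hu => by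
      have e : u * (starRingEnd ℂ) u = 1 := by
        rw [Complex.mul_conj, Complex.normSq_eq_norm_sq, hu]; simp
      have := Complex.abs_re_le_norm u
      rw [hu, abs_le] at this
      rw [key u _ e, norm_mul, norm_pow, hu, one_pow, one_mul, Complex.add_conj,
        show (S / 2 + S / 4 * ((2 * u.re : ℝ) : ℂ) : ℂ) = ((S / 2 + S / 2 * u.re : ℝ) : ℂ) by
          push_cast; ring]
      exact hB _ (by nlinarith) (by nlinarith)) h3
  rw [key w w' h1, h2, show (S / 2 + S / 4 * (4 * z / S - 2) : ℂ) = z by field_simp; ring] at h5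
  calc ‖P.eval z‖ = ‖w ^ k * P.eval z‖ * ‖w'‖ ^ k := by
        rw [← norm_pow, ← norm_mul, mul_right_comm, ← mul_pow, h1, one_pow, one_mul]
    _ ≤ B * 7 ^ k := by gcongr; exact (norm_nonneg _).trans h5

/-- normally convergent series of holomorphic functions of several variables -/
theorem diff_tsum {E : Type} [NormedAddCommGroup E] [NormedSpace ℂ E] {U : Set E} (hU : IsOpen U)
    {f : ℕ → E → ℂ} {u : ℕ → ℝ} (hu : Summable u) (hf : ∀ n, DifferentiableOn ℂ (f n) U)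
    (hb : ∀ n, ∀ x ∈ U, ‖f n x‖ ≤ u n) : DifferentiableOn ℂ (fun x => ∑' n, f n x) U := by
  intro x hx
  obtain ⟨r, hr, h⟩ := Metric.isOpen_iff.1 hU x hx
  have h1 : ∀ y ∈ ball x (r / 2), ball y (r / 2) ⊆ U := fun y hy =>
    (ball_subset_ball' (by linarith [mem_ball.1 hy])).trans h
  have h2 := half_pos hr
  exact (hasFDerivAt_tsum_of_isPreconnected (hu.div_const (r / 2)) isOpen_ball
    (convex_ball x (r / 2)).isPreconnected (f' := fun n y => fderiv ℂ (f n) y)
    (fun n y hy => ((hf n).differentiableAt (hU.mem_nhds (h1 y hy (mem_ball_self h2)))).hasFDerivAt)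
    (fun n y hy => P097.Hol.norm_fderiv_le_of_ball h2 ((hf n).mono (h1 y hy))
      fun z hz => hb n z (h1 y hy hz)) (mem_ball_self h2)
    (.of_norm_bounded hu fun n => hb n x hx) (mem_ball_self h2)).differentiableAt.differentiableWithinAt

/-- the estimate of Cauchy -/
theorem tc_le {g : ℂ → ℂ} {r M : ℝ} (hr : 0 < r) (hg : DifferentiableOn ℂ g (ball 0 r))
    (hM : ∀ v ∈ ball (0 : ℂ) r, ‖g v‖ ≤ M) (k : ℕ) : ‖tc k g‖ ≤ M * r⁻¹ ^ k := by
  have t : Tendsto (fun R : ℝ => M * R⁻¹ ^ k) (𝓝[<] r) (𝓝 (M * r⁻¹ ^ k)) :=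
    (((continuousAt_inv₀ hr.ne').pow k).const_mul M).tendsto.mono_left nhdsWithin_le_nhds
  refine ge_of_tendsto t ?_
  filter_upwards [Ioo_mem_nhdsLT hr] with R hR
  have h := Complex.norm_iteratedDeriv_le_of_forall_mem_sphere_norm_le k hR.1
    ((hg.mono (closedBall_subset_ball hR.2)).diffContOnCl_ball le_rfl) fun z hz =>
      hM z (sphere_subset_ball hR.2 hz)
  have h0 : (0 : ℝ) < k.factorial := Nat.cast_pos.2 k.factorial_pos
  rw [tc, norm_div, Complex.norm_natCast, div_le_iff₀ h0]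
  refine h.trans_eq ?_
  rw [inv_pow]
  ring

end Bern

open Bern

theorem hom : Spec_HOM := by
  intro G ⟨p, h⟩ k
  refine ⟨∑ T : Finset (Fin k), C (p k (T.piecewise (fun _ => (1, 0)) fun _ => (0, 1))) *
    X ^ T.card, natDegree_sum_le_of_forall_le _ _ fun T _ => (natDegree_C_mul_X_pow_le _ _).trans
      (by simpa using T.card_le_univ), fun s => ?_⟩
  rw [tc_line h, show (fun _ : Fin k => (s, (1 : ℂ))) = (fun _ => s • ((1 : ℂ), (0 : ℂ))) +
    fun _ => (0, 1) from funext fun _ => by simp, (p k).map_add_univ, eval_finsetSum]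
  refine Finset.sum_congr rfl fun T _ => ?_
  have := (p k).map_piecewise_smul (fun _ => s) (T.piecewise (fun _ => (1, 0)) fun _ => (0, 1)) T
  rw [Finset.prod_const, smul_eq_mul, mul_comm] at this
  rw [eval_mul, eval_C, eval_pow, eval_X, ← this]
  congr 1
  funext i
  by_cases hi : i ∈ T <;> simp [hi]

theorem lines : Spec_LINES := by
  intro G n₀ h h0
  refine eq_of_tc h (G' := fun _ => 0) analyticAt_const fun k s => ?_
  obtain ⟨P, -, hP⟩ := hom G h k
  rw [hP, tc_zero, P.eq_zero_of_infinite_isRoot (((infinite_image_iff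
    (Nat.cast_injective (R := ℂ)).injOn).2 (Ici_infinite n₀)).mono ?_), eval_zero]
  rintro _ ⟨n, hn, rfl⟩
  exact (hP n).symm.trans ((tc_congr (h0 n hn) k).trans (tc_zero k))

theorem sum : Spec_SUM := by
  intro Ω P M a S hΩ ha hS hd hc hb
  have hρ : 0 < 1 / (14 * a) := by positivity
  have hU : IsOpen (Ω ×ˢ ball (0 : ℂ) (S / (14 * a)) ×ˢ ball (0 : ℂ) (1 / (14 * a))) :=
    hΩ.prod (isOpen_ball.prod isOpen_ball)
  have bd : ∀ k, ∀ q ∈ Ω ×ˢ ball (0 : ℂ) (S / (14 * a)) ×ˢ ball (0 : ℂ) (1 / (14 * a)),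
      ‖hm k (P k q.1) q.2.1 q.2.2‖ ≤ M * (1 / 2) ^ k := fun k q hq => by
    refine max_mod (f := hm k (P k q.1) q.2.1) (by unfold hm; fun_prop) hρ (fun v hv => ?_)
      (mem_ball_zero_iff.1 hq.2.2).le
    have h0 : v ≠ 0 := norm_pos_iff.1 (hv ▸ hρ)
    have h1 := bern (hd k _ hq.1) hS (hb k _ hq.1) (z := q.2.1 / v) (by
      rw [norm_div, hv, div_le_iff₀ hρ, mul_one_div]
      exact (mem_ball_zero_iff.1 hq.2.1).le)
    rw [← div_mul_cancel₀ q.2.1 h0, hm_line (hd k _ hq.1), norm_mul, norm_pow, hv]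
    refine (mul_le_mul_of_nonneg_left h1 (by positivity)).trans_eq ?_
    rw [mul_assoc, mul_left_comm, ← mul_pow, ← mul_pow]
    congr 2
    field_simp
    norm_num
  have hs := hasSum_geometric_two.mul_left M
  refine ⟨fun q => ∑' k, hm k (P k q.1) q.2.1 q.2.2, P097.Hol.analyticOnNhd_of_differentiableOn hU
    (diff_tsum hU hs.summable (fun k => DifferentiableOn.fun_sum fun i _ =>
      (((hc k i).comp differentiableOn_fst fun q hq => hq.1).mul (by fun_prop)).mul (by fun_prop))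
      bd), fun q hq => (tsum_of_norm_bounded hs fun k => bd k q hq).trans_eq (mul_comm _ _),
    fun ε hε s k => tc_sum (c := fun k => (P k ε).eval s) ?_ k⟩
  have t : Tendsto (fun v : ℂ => (ε, s * v, v)) (𝓝 0) (𝓝 (ε, 0, 0)) :=
    (Continuous.tendsto' (by fun_prop) _ _ (by simp))
  filter_upwards [t.eventually (hU.mem_nhds ⟨hε, mem_ball_self (by positivity),
    mem_ball_self hρ⟩)] with v hv
  simpa only [hm_line (hd _ _ hε)] using
    (Summable.of_norm_bounded hs.summable fun k => bd k _ hv).hasSum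

theorem ext : Spec_EXT := by
  intro G M r S hG hr hS h
  choose P P1 P2 using hom G hG
  obtain ⟨H, H1, H2, H3⟩ := sum univ (fun k _ => P k) M r⁻¹ S isOpen_univ (inv_pos.2 hr) hS
    (fun k _ _ => P1 k) (fun k i => differentiableOn_const _) fun k _ _ s s0 s1 => by
      obtain ⟨g, g1, g2, g3⟩ := h s s0 s1
      rw [← P2, ← tc_congr g3]
      exact tc_le hr g1 g2 k
  rw [show S / (14 * r⁻¹) = S * r / 14 by field_simp, show 1 / (14 * r⁻¹) = r / 14 by field_simp]
    at H1 H2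
  have H4 : AnalyticOnNhd ℂ (fun p => H (0, p)) (ball 0 (S * r / 14) ×ˢ ball 0 (r / 14)) :=
    fun p hp => (H1 (0, p) ⟨trivial, hp⟩).comp (analyticAt_const.prod analyticAt_id)
  exact ⟨_, H4, fun p hp => H2 (0, p) ⟨trivial, hp⟩, eq_of_tc (H4 0 ⟨mem_ball_self (by positivity),
    mem_ball_self (by positivity)⟩) hG fun k s => (H3 0 trivial s k).trans (P2 k s).symm⟩

end Vale.Agent.P097A
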