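import Mathlib

/-!
# P097A: definitions for the algebraic case of the near-boundary Birkhoff conjecture

See notes/P097/T1.md for the paper proof.
-/

set_option linter.all false

noncomputable section

namespace Vale.Agent.P097A

open Filter Topology

/-! ## Three-point laws -/

/-- A three-point law `E (a, b, c) = 0` (previous point, point, next point) near the diagonal
point `x`. -/
structure IsLaw (E : ℂ × ℂ × ℂ → ℂ) (x : ℂ) : Prop where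
  an : AnalyticAt ℂ E (x, x, x)
  symm : ∀ᶠ q in 𝓝 (x, x, x), E (q.2.2, q.2.1, q.1) = E q
  diag : ∀ᶠ y in 𝓝 x, E (y, y, y) = 0
  nd : fderiv ℂ E (x, x, x) (0, 0, 1) ≠ 0

/-- `Θ (η - v, v), Θ (η, v), Θ (η + v, v)` obey the law, near the origin. -/
def Solves (E : ℂ × ℂ × ℂ → ℂ) (Θ : ℂ × ℂ → ℂ) : Prop :=
  ∀ᶠ p in 𝓝 (0 : ℂ × ℂ), E (Θ (p.1 - p.2, p.2), Θ p, Θ (p.1 + p.2, p.2)) = 0

/-- The law is integrable at the diagonal point `x`. -/
def IntLaw (E : ℂ × ℂ × ℂ → ℂ) (x : ℂ) : Prop :=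
  ∃ Θ : ℂ × ℂ → ℂ, AnalyticAt ℂ Θ 0 ∧ Θ 0 = x ∧ fderiv ℂ Θ 0 (1, 0) ≠ 0 ∧ Solves E Θ

/-- A family of laws `E (ε, a, b, c) = 0`, near the parameter `ε` and the diagonal point `x`. -/
structure IsLawF (E : ℂ × ℂ × ℂ × ℂ → ℂ) (ε x : ℂ) : Prop where
  an : AnalyticAt ℂ E (ε, x, x, x)
  symm : ∀ᶠ q in 𝓝 (ε, x, x, x), E (q.1, q.2.2.2, q.2.2.1, q.2.1) = E q
  diag : ∀ᶠ q in 𝓝 (ε, x), E (q.1, q.2, q.2, q.2) = 0
  nd : fderiv ℂ E (ε, x, x, x) (0, 0, 0, 1) ≠ 0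

/-- `H (ε, η, v)` integrates the family of laws near `ε`, in the gauge
`H (ε, 0, v) = x`, `H (ε, v, v) = x + v`. -/
structure Gauged (E : ℂ × ℂ × ℂ × ℂ → ℂ) (ε x : ℂ) (H : ℂ × ℂ × ℂ → ℂ) : Prop where
  an : AnalyticAt ℂ H (ε, 0, 0)
  g0 : ∀ᶠ q in 𝓝 (ε, (0 : ℂ)), H (q.1, 0, q.2) = x
  g1 : ∀ᶠ q in 𝓝 (ε, (0 : ℂ)), H (q.1, q.2, q.2) = x + q.2
  sol : ∀ᶠ q in 𝓝 (ε, (0 : ℂ), (0 : ℂ)),
    E (q.1, H (q.1, q.2.1 - q.2.2, q.2.2), H q, H (q.1, q.2.1 + q.2.2, q.2.2)) = 0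

/-- Taylor coefficient at the origin. -/
def tc (k : ℕ) (f : ℂ → ℂ) : ℂ := iteratedDeriv k f 0 / (k.factorial : ℂ)

/-! ## The billiard laws of a complex curve -/

/-- The reflection law for the curve `(Z, W)` in isotropic coordinates (`ds² = dZ dW`). -/
def lawZ (Z W : ℂ → ℂ) (q : ℂ × ℂ × ℂ) : ℂ :=
  dslope W q.2.1 q.1 * dslope W q.2.1 q.2.2 * deriv Z q.2.1 ^ 2 -
    dslope Z q.2.1 q.1 * dslope Z q.2.1 q.2.2 * deriv W q.2.1 ^ 2

/-- The reflection law for the curve `(U, V)` and the metric `dU² - μ dV²`; `μ = 0` is the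
Galilean law (the slopes of the two chords add up to twice the slope of the tangent). -/
def lawG (μ : ℂ) (U V : ℂ → ℂ) (q : ℂ × ℂ × ℂ) : ℂ :=
  (dslope V q.2.1 q.1 * dslope U q.2.1 q.2.2 + dslope V q.2.1 q.2.2 * dslope U q.2.1 q.1) *
      (deriv U q.2.1 ^ 2 + μ * deriv V q.2.1 ^ 2) -
    2 * deriv U q.2.1 * deriv V q.2.1 *
      (dslope U q.2.1 q.1 * dslope U q.2.1 q.2.2 + μ * (dslope V q.2.1 q.1 * dslope V q.2.1 q.2.2))

/-- A regular point: immersed, tangent not isotropic, not an inflection point. -/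
structure Reg (Z W : ℂ → ℂ) (x : ℂ) : Prop where
  anZ : AnalyticAt ℂ Z x
  anW : AnalyticAt ℂ W x
  dZ : deriv Z x ≠ 0
  dW : deriv W x ≠ 0
  curv : deriv Z x * deriv (deriv W) x ≠ deriv W x * deriv (deriv Z) x

/-- The billiard in the complex curve `(Z, W)` is integrable near the point `x`. -/
def IntAt (Z W : ℂ → ℂ) (x : ℂ) : Prop := IntLaw (lawZ Z W) x

/-- The rescaled coordinate `ε ^ (-α) Z (ε b x)` of `Z τ = τ ^ α z τ`. -/
def sc (α : ℤ) (z b : ℂ → ℂ) (ε x : ℂ) : ℂ := b x ^ α * z (ε * b x)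

/-- The coordinate `τ ^ α z τ`. -/
def pw (α : ℤ) (z : ℂ → ℂ) (τ : ℂ) : ℂ := τ ^ α * z τ

/-- The family of rescaled laws at a place with `Z = τ ^ α z`, `W = τ ^ β w`. -/
def famZ (α β : ℤ) (z w b : ℂ → ℂ) (q : ℂ × ℂ × ℂ × ℂ) : ℂ :=
  lawZ (sc α z b q.1) (sc β w b q.1) q.2

/-- The family of rescaled laws at a place with `Z = U - V`, `W = U + V`, `U = τ ^ α u`,
`V = τ ^ β v`, `α < β`. -/
def famG (α β : ℤ) (u v b : ℂ → ℂ) (q : ℂ × ℂ × ℂ × ℂ) : ℂ :=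
  lawG (q.1 ^ (2 * (β - α).toNat)) (sc α u b q.1) (sc β v b q.1) q.2

/-! ## The function which is constant exactly on conics -/

/-- `2 i` times the derivative of the tangent angle. -/
def om (Z W : ℂ → ℂ) (τ : ℂ) : ℂ :=
  deriv (deriv Z) τ / deriv Z τ - deriv (deriv W) τ / deriv W τ

/-- `-4` times the square of the curvature. -/
def KK (Z W : ℂ → ℂ) (τ : ℂ) : ℂ := om Z W τ ^ 2 / (deriv Z τ * deriv W τ)

def ell (Z W : ℂ → ℂ) (τ : ℂ) : ℂ := deriv (KK Z W) τ / (3 * KK Z W τ * om Z W τ)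

/-- `-4 (u + u'' / 4) ^ 3`, where `u = ρ ^ (-2/3)` and the derivative is in the tangent angle. -/
def GG (Z W : ℂ → ℂ) (τ : ℂ) : ℂ :=
  KK Z W τ * (1 - deriv (ell Z W) τ / om Z W τ - ell Z W τ ^ 2) ^ 3

/-! ## The homogeneous models -/

/-- The invariant of a line, as a function of the normalised slope at one of its points. -/
def kap {K : Type*} [Field K] (α β : ℤ) (x : K) : K := (1 - x) ^ (β - α) * x ^ (-β)

/-- The reflection of normalised slopes: Euclidean (`true`) or Galilean (`false`). -/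
def refl {K : Type*} [Field K] (euc : Bool) (α β : ℤ) (x : K) : K :=
  if euc then ((β : K) / (α : K)) ^ 2 / x else 2 * ((β : K) / (α : K)) - x

/-- The exponents for which the monodromy argument works. -/
structure Good (euc : Bool) (α β : ℤ) : Prop where
  a0 : α ≠ 0
  b0 : β ≠ 0
  ab : α ≠ β
  cop : IsCoprime α β
  par : if euc then α + β ≠ 0 else 2 * β - α ≠ 0

/-- A Fatou coordinate of the model: `φ t = Φ (1 / t)` is the normalised slope. -/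
structure Fatou (euc : Bool) (α β : ℤ) (Φ : ℂ → ℂ) : Prop where
  an : AnalyticAt ℂ Φ 0
  val : Φ 0 = (β : ℂ) / (α : ℂ)
  der : deriv Φ 0 ≠ 0
  line : ∀ᶠ x in 𝓝[≠] (0 : ℂ), kap α β (Φ x) = kap α β (Φ (-x))
  step : ∀ᶠ x in 𝓝[≠] (0 : ℂ), Φ (x / (1 + x)) = refl euc α β (Φ (-x))

/-! ## Fields with a place and an inertia element -/

/-- A place of `K` over `ℂ` with residue field `ℂ`, and an automorphism preserving it. -/
structure ValData (K : Type) [Field K] [Algebra ℂ K] (Γ : Type)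
    [LinearOrderedCommGroupWithZero Γ] where
  v : Valuation K Γ
  g : K ≃ₐ[ℂ] K
  v_alg : ∀ c : ℂ, c ≠ 0 → v (algebraMap ℂ K c) = 1
  v_res : ∀ x, v x ≤ 1 → ∃ c : ℂ, v (x - algebraMap ℂ K c) < 1
  v_g : ∀ x, v (g x) = v x

/-- `x` has the centre `c` (`none` is the point at infinity). -/
def ValData.Cen {K : Type} [Field K] [Algebra ℂ K] {Γ : Type} [LinearOrderedCommGroupWithZero Γ]
    (D : ValData K Γ) (x : K) : Option ℂ → Prop
  | none => 1 < D.v x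
  | some c => D.v (x - algebraMap ℂ K c) < 1

/-- The field of convergent Puiseux series: `pm e F` is `F (s ^ (1 / e))`. -/
structure PuiData (K : Type) [Field K] [Algebra ℂ K] (Γ : Type)
    [LinearOrderedCommGroupWithZero Γ] extends ValData K Γ where
  pm : ℕ → (ℂ → ℂ) → K
  surj : ∀ x, ∃ (e : ℕ) (F : ℂ → ℂ), 0 < e ∧ MeromorphicAt F 0 ∧ x = pm e F
  pm_add : ∀ (e : ℕ) (F G : ℂ → ℂ), 0 < e → MeromorphicAt F 0 → MeromorphicAt G 0 →
    pm e (F + G) = pm e F + pm e G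
  pm_mul : ∀ (e : ℕ) (F G : ℂ → ℂ), 0 < e → MeromorphicAt F 0 → MeromorphicAt G 0 →
    pm e (F * G) = pm e F * pm e G
  pm_const : ∀ (e : ℕ) (c : ℂ), 0 < e → pm e (fun _ => c) = algebraMap ℂ K c
  pm_pow : ∀ (e d : ℕ) (F : ℂ → ℂ), 0 < e → 0 < d → MeromorphicAt F 0 →
    pm (e * d) (fun τ => F (τ ^ d)) = pm e F
  pm_inj : ∀ (e : ℕ) (F G : ℂ → ℂ), 0 < e → MeromorphicAt F 0 → MeromorphicAt G 0 →
    (pm e F = pm e G ↔ F =ᶠ[𝓝[≠] 0] G)
  g_one : ∀ F : ℂ → ℂ, MeromorphicAt F 0 → g (pm 1 F) = pm 1 F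
  fixed : ∀ x, g x = x → ∃ F : ℂ → ℂ, MeromorphicAt F 0 ∧ x = pm 1 F
  v_lt : ∀ (e : ℕ) (F : ℂ → ℂ), 0 < e → MeromorphicAt F 0 →
    (v (pm e F) < 1 ↔ Tendsto F (𝓝[≠] 0) (𝓝 0))

end Vale.Agent.P097A
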