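import Vale.Agent.P097A.Avg

/-!
# P097A: the linear kink lemma (step KINK) and two lemmas on powers (steps NP, AN)
-/

set_option linter.all false

noncomputable section

namespace Vale.Agent.P097A

open Filter Topology Set Metric Complex

namespace Kink

theorem mul_cpow' {x y : ℂ} (hx : x ≠ 0) (hy : y ≠ 0) (h : arg x + arg y ∈ Ioc (-Real.pi) Real.pi)
    (ν : ℂ) : (x * y) ^ ν = x ^ ν * y ^ ν := by
  rw [cpow_def_of_ne_zero (mul_ne_zero hx hy), cpow_def_of_ne_zero hx, cpow_def_of_ne_zero hy,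
    log_mul hx hy h, add_mul, exp_add]

theorem mul_cpow_re {x y : ℂ} (hx : 0 < x.re) (hy : 0 < y.re) (ν : ℂ) :
    (x * y) ^ ν = x ^ ν * y ^ ν := by
  have h1 := abs_lt.mp (abs_arg_lt_pi_div_two_iff.mpr (Or.inl hx))
  have h2 := abs_lt.mp (abs_arg_lt_pi_div_two_iff.mpr (Or.inl hy))
  refine mul_cpow' (fun e => by simp [e] at hx) (fun e => by simp [e] at hy) ⟨?_, ?_⟩ ν <;>
    linarith [h1.1, h1.2, h2.1, h2.2]

theorem mul_cpow_im {x y : ℂ} (hx0 : x ≠ 0) (hx : 0 ≤ x.im) (hy : y.im < 0) (ν : ℂ) :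
    (x * y) ^ ν = x ^ ν * y ^ ν := by
  have h1 := arg_nonneg_iff.mpr hx
  have h2 := arg_le_pi x
  have h3 := arg_neg_iff.mpr hy
  have h4 := neg_pi_lt_arg y
  refine mul_cpow' hx0 (fun e => by simp [e] at hy) ⟨?_, ?_⟩ ν <;> linarith

theorem up_open : IsOpen {t : ℂ | 0 < t.im} := isOpen_lt continuous_const continuous_im

theorem up_neBot : (𝓝[{t : ℂ | 0 < t.im}] (0 : ℂ)).NeBot := by
  rw [← mem_closure_iff_nhdsWithin_neBot, closure_setOfPred_lt_im]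
  simp

theorem up_le : 𝓝[{t : ℂ | 0 < t.im}] (0 : ℂ) ≤ 𝓝[≠] 0 :=
  nhdsWithin_mono _ fun t ht e => by
    have h : t = 0 := e
    simp [h] at ht

theorem up_ev {p : ℂ → Prop} (h : ∀ᶠ s in 𝓝[{t : ℂ | 0 < t.im}] (0 : ℂ), p s) :
    ∀ᶠ s in 𝓝[{t : ℂ | 0 < t.im}] (0 : ℂ), ∀ᶠ y in 𝓝 s, p y := by
  filter_upwards [eventually_eventually_nhdsWithin.mpr h, self_mem_nhdsWithin] with τ h1 h2
  rwa [nhdsWithin_eq_nhds.mpr (up_open.mem_nhds h2)] at h1

theorem slit {t : ℂ} (h : 0 < t.im) : t ∈ slitPlane := Or.inr h.ne'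

end Kink

theorem an : Spec_AN := by
  intro ν c hc
  rcases lt_or_gt_of_ne hc with h | h
  · refine ⟨fun s => (-(c : ℂ) - s) ^ ν * exp (Real.pi * I * ν), ?_, fun h' => absurd h' h.le.not_gt,
      fun _ => by simp, ?_⟩
    · refine AnalyticAt.mul (AnalyticAt.cpow (analyticAt_const.sub analyticAt_id)
        analyticAt_const ?_) analyticAt_const
      left; simpa using h
    · filter_upwards [self_mem_nhdsWithin] with s hs
      have hs' : 0 < s.im := hs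
      have e : (c : ℂ) + s = -1 * (-(c : ℂ) - s) := by ring
      rw [e, Kink.mul_cpow_im (by norm_num) (by simp) (by simpa using hs'),
        cpow_def_of_ne_zero (by norm_num : (-1 : ℂ) ≠ 0), log_neg_one, mul_comm]
  · refine ⟨fun s => ((c : ℂ) + s) ^ ν, ?_, fun _ => by simp, fun h' => absurd h' h.le.not_gt,
      Eventually.of_forall fun _ => rfl⟩
    refine AnalyticAt.cpow (analyticAt_const.add analyticAt_id) analyticAt_const ?_
    left; simpa using h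

theorem np : Spec_NP := by
  intro ν u F hu hu0 hF h
  haveI := Kink.up_neBot
  have hune : ∀ᶠ s in 𝓝[{t : ℂ | 0 < t.im}] (0 : ℂ), u s ≠ 0 :=
    nhdsWithin_le_nhds (hu.continuousAt.eventually_ne hu0)
  have htop : meromorphicOrderAt F 0 ≠ ⊤ := by
    intro e
    have h1 := Kink.up_le (meromorphicOrderAt_eq_top_iff.mp e)
    obtain ⟨s, ⟨a, b⟩, c, d⟩ := ((h.and hune).and
      ((show ∀ᶠ s in 𝓝[{t : ℂ | 0 < t.im}] (0 : ℂ), F s = 0 from h1).and
        self_mem_nhdsWithin)).exists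
    have d' : 0 < s.im := d
    rw [c] at a
    have hs : s ≠ 0 := fun e => by simp [e] at d'
    rcases mul_eq_zero.mp a with e | e
    · exact hs ((cpow_eq_zero_iff _ _).mp e).1
    · exact b e
  obtain ⟨g, hg, hg0, hev⟩ := (meromorphicOrderAt_ne_top_iff hF).mp htop
  set n : ℤ := (meromorphicOrderAt F 0).untop₀
  refine ⟨n, ?_⟩
  set k : ℂ → ℂ := fun s => g s / u s with hk
  have hkan : AnalyticAt ℂ k 0 := hg.div hu hu0
  have hk0 : k 0 ≠ 0 := div_ne_zero hg0 hu0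
  have e1 : ∀ᶠ s in 𝓝[{t : ℂ | 0 < t.im}] (0 : ℂ), s ^ ν = s ^ n * k s := by
    filter_upwards [h, hune, Kink.up_le hev] with s a b c
    have c' : F s = (s - 0) ^ n • g s := c
    rw [sub_zero, smul_eq_mul, ← a] at c'
    simp only [hk]
    field_simp
    exact c'
  have e2 : ∀ᶠ s in 𝓝[{t : ℂ | 0 < t.im}] (0 : ℂ), ν * k s = n * k s + s * deriv k s := by
    filter_upwards [Kink.up_ev e1, e1, self_mem_nhdsWithin,
      nhdsWithin_le_nhds hkan.eventually_analyticAt] with s a b c d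
    have c' : 0 < s.im := c
    have d' : AnalyticAt ℂ k s := d
    have hs : s ≠ 0 := fun e => by simp [e] at c'
    have d1 : HasDerivAt (fun y : ℂ => y ^ ν) (ν * s ^ (ν - 1)) s :=
      (hasStrictDerivAt_cpow_const (Kink.slit c')).hasDerivAt
    have d2 : HasDerivAt (fun y : ℂ => y ^ n * k y)
        ((n : ℂ) * s ^ (n - 1) * k s + s ^ n * deriv k s) s :=
      (hasDerivAt_zpow n s (Or.inl hs)).mul d'.differentiableAt.hasDerivAt
    have d3 := (d2.congr_of_eventuallyEq a).unique d1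
    have f1 : s ^ (ν - 1) = s ^ n * k s / s := by rw [cpow_sub _ _ hs, cpow_one, b]
    have f2 : s ^ (n - 1) = s ^ n / s := by rw [zpow_sub₀ hs, zpow_one]
    rw [f1, f2] at d3
    have f3 : s ^ n ≠ 0 := zpow_ne_zero _ hs
    field_simp at d3
    linear_combination -d3
  have t1 : Tendsto (fun s => ν * k s) (𝓝[{t : ℂ | 0 < t.im}] (0 : ℂ)) (𝓝 (ν * k 0)) :=
    (hkan.continuousAt.tendsto.const_mul ν).mono_left nhdsWithin_le_nhds
  have t2 : Tendsto (fun s => n * k s + s * deriv k s) (𝓝[{t : ℂ | 0 < t.im}] (0 : ℂ))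
      (𝓝 (n * k 0 + 0 * deriv k 0)) :=
    ((hkan.continuousAt.tendsto.const_mul (n : ℂ)).add
      (tendsto_id.mul hkan.deriv.continuousAt.tendsto)).mono_left nhdsWithin_le_nhds
  have := tendsto_nhds_unique (t1.congr' e2) t2
  rw [zero_mul, add_zero] at this
  exact mul_right_cancel₀ hk0 this

namespace Kink

/-- the derivative in the first variable -/
def dy (I : ℂ × ℂ → ℂ) (p : ℂ × ℂ) : ℂ := fderiv ℂ I p (1, 0)

theorem an_dy {I : ℂ × ℂ → ℂ} {p : ℂ × ℂ} (h : AnalyticAt ℂ I p) : AnalyticAt ℂ (dy I) p :=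
  ((ContinuousLinearMap.apply ℂ ℂ ((1, 0) : ℂ × ℂ)).analyticAt _).comp h.fderiv

theorem has_dy {I : ℂ × ℂ → ℂ} {f : ℂ → ℂ} {f' y w : ℂ} (h : AnalyticAt ℂ I (f y, w))
    (hf : HasDerivAt f f' y) : HasDerivAt (fun y => I (f y, w)) (f' * dy I (f y, w)) y := by
  have h1 : HasDerivAt (fun y => ((f y, w) : ℂ × ℂ)) (f', 0) y :=
    hf.prodMk (hasDerivAt_const y w)
  have h2 := h.differentiableAt.hasFDerivAt.comp_hasDerivAt y h1
  have e : ((f', 0) : ℂ × ℂ) = f' • ((1, 0) : ℂ × ℂ) := by simp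
  rw [e, map_smul, smul_eq_mul] at h2
  exact h2

/-- the defect of homogeneity -/
def KK' (I : ℂ × ℂ → ℂ) (d l y w : ℂ) : ℂ := l ^ (-d) * I (l * y, l * w) - I (y, w)

theorem shift {I : ℂ × ℂ → ℂ} {g : ℂ → ℂ} {d : ℂ}
    (h : ∀ᶠ p in 𝓝 ((1 : ℂ), (0 : ℂ)), I p - I (p.1 - p.2, p.2) = p.1 ^ d * g (p.2 / p.1)) :
    ∀ᶠ q in 𝓝 ((1 : ℂ), (1 : ℂ), (0 : ℂ)),
      KK' I d q.1 (q.2.1 - q.2.2) q.2.2 = KK' I d q.1 q.2.1 q.2.2 := by
  have c1 : Continuous (fun q : ℂ × ℂ × ℂ => ((q.1 * q.2.1, q.1 * q.2.2) : ℂ × ℂ)) := by fun_prop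
  have t1 := c1.tendsto' ((1 : ℂ), (1 : ℂ), (0 : ℂ)) (1, 0) (by simp)
  have t2 : Tendsto (fun q : ℂ × ℂ × ℂ => q.2) (𝓝 ((1 : ℂ), (1 : ℂ), (0 : ℂ))) (𝓝 (1, 0)) :=
    continuous_snd.tendsto _
  have c3 : Continuous (fun q : ℂ × ℂ × ℂ => q.1.re) := by fun_prop
  have c4 : Continuous (fun q : ℂ × ℂ × ℂ => q.2.1.re) := by fun_prop
  filter_upwards [t1.eventually h, t2.eventually h,
    c3.continuousAt.eventually (lt_mem_nhds (show (0 : ℝ) < (1 : ℂ).re by simp)),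
    c4.continuousAt.eventually (lt_mem_nhds (show (0 : ℝ) < (1 : ℂ).re by simp))] with q a b c e
  have c' : 0 < q.1.re := c
  have e' : 0 < q.2.1.re := e
  have hq : q.1 ≠ 0 := fun e => by simp [e] at c'
  have a' : I (q.1 * q.2.1, q.1 * q.2.2) - I (q.1 * q.2.1 - q.1 * q.2.2, q.1 * q.2.2) =
    (q.1 * q.2.1) ^ d * g (q.1 * q.2.2 / (q.1 * q.2.1)) := a
  have b' : I (q.2.1, q.2.2) - I (q.2.1 - q.2.2, q.2.2) = q.2.1 ^ d * g (q.2.2 / q.2.1) := b
  rw [mul_div_mul_left _ _ hq, mul_cpow_re c' e', ← mul_sub] at a'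
  have f : q.1 ^ (-d) * q.1 ^ d = 1 := by rw [← cpow_add _ _ hq]; simp
  simp only [KK']
  linear_combination (-q.1 ^ (-d)) * a' + b' - (q.2.1 ^ d * g (q.2.2 / q.2.1)) * f

theorem indep {I : ℂ × ℂ → ℂ} {g : ℂ → ℂ} {d : ℂ} (hI : AnalyticAt ℂ I (1, 0))
    (h : ∀ᶠ p in 𝓝 ((1 : ℂ), (0 : ℂ)), I p - I (p.1 - p.2, p.2) = p.1 ^ d * g (p.2 / p.1)) :
    ∀ᶠ q in 𝓝 ((1 : ℂ), (0 : ℂ × ℂ)),
      KK' I d q.1 (1 - q.2.1) q.2.2 - KK' I d q.1 1 q.2.2 = 0 := by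
  have a1 : AnalyticAt ℂ (fun q : ℂ × ℂ × ℂ => q.2.1) (1, 0) :=
    AnalyticAt.comp (g := Prod.fst) (f := fun q : ℂ × ℂ × ℂ => q.2) analyticAt_fst analyticAt_snd
  have a2 : AnalyticAt ℂ (fun q : ℂ × ℂ × ℂ => q.2.2) (1, 0) :=
    AnalyticAt.comp (g := Prod.snd) (f := fun q : ℂ × ℂ × ℂ => q.2) analyticAt_snd analyticAt_snd
  have a3 : ∀ y : ℂ × ℂ × ℂ → ℂ, AnalyticAt ℂ y (1, 0) → y (1, 0) = 1 →
      AnalyticAt ℂ (fun q : ℂ × ℂ × ℂ => KK' I d q.1 (y q) q.2.2) (1, 0) := by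
    intro y hy hy1
    refine AnalyticAt.sub (AnalyticAt.mul (AnalyticAt.cpow analyticAt_fst analyticAt_const
      (by simp)) ?_) ?_
    · exact AnalyticAt.comp_of_eq (g := I)
        (f := fun q : ℂ × ℂ × ℂ => ((q.1 * y q, q.1 * q.2.2) : ℂ × ℂ)) hI
        ((analyticAt_fst.mul hy).prod (analyticAt_fst.mul a2)) (by simp [hy1])
    · exact AnalyticAt.comp_of_eq (g := I)
        (f := fun q : ℂ × ℂ × ℂ => ((y q, q.2.2) : ℂ × ℂ)) hI (hy.prod a2) (by simp [hy1])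
  have han : AnalyticAt ℂ (fun q : ℂ × ℂ × ℂ =>
      KK' I d q.1 (1 - q.2.1) q.2.2 - KK' I d q.1 1 q.2.2) (1, 0) :=
    (a3 (fun q => 1 - q.2.1) (analyticAt_const.sub a1) (by simp)).sub
      (a3 (fun _ => 1) analyticAt_const rfl)
  refine Avg.joint han ?_
  have t1 : Tendsto (fun l : ℂ => ((l, 0) : ℂ × ℂ × ℂ)) (𝓝 1) (𝓝 (1, 0)) :=
    (Continuous.prodMk continuous_id continuous_const).tendsto' 1 _ rfl
  have t2 : Tendsto (fun l : ℂ => ((l, 1, 0) : ℂ × ℂ × ℂ)) (𝓝 1) (𝓝 (1, 1, 0)) :=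
    (Continuous.prodMk continuous_id continuous_const).tendsto' 1 _ rfl
  filter_upwards [t1.eventually han.eventually_analyticAt,
    t2.eventually (shift h).eventually_nhds] with l b1 b2
  have b3 : AnalyticAt ℂ (fun p : ℂ × ℂ => KK' I d l (1 - p.1) p.2 - KK' I d l 1 p.2) 0 :=
    AnalyticAt.comp_of_eq (g := fun q : ℂ × ℂ × ℂ =>
      KK' I d q.1 (1 - q.2.1) q.2.2 - KK' I d q.1 1 q.2.2)
      (f := fun p : ℂ × ℂ => ((l, p) : ℂ × ℂ × ℂ)) b1 (analyticAt_const.prod analyticAt_id) rfl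
  refine lines _ 0 b3 fun n _ => ?_
  induction n with
  | zero => exact Eventually.of_forall fun v => by simp
  | succ n ih =>
    have c3 : Continuous (fun v : ℂ => ((l, 1 - (n : ℂ) * v, v) : ℂ × ℂ × ℂ)) := by fun_prop
    filter_upwards [ih (Nat.zero_le _), (c3.tendsto' 0 (l, 1, 0) (by simp)).eventually b2]
      with v a b
    have a' : KK' I d l (1 - (n : ℂ) * v) v - KK' I d l 1 v = 0 := a
    have b' : KK' I d l (1 - (n : ℂ) * v - v) v = KK' I d l (1 - (n : ℂ) * v) v := b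
    have e : 1 - ((n + 1 : ℕ) : ℂ) * v = 1 - (n : ℂ) * v - v := by push_cast; ring
    show KK' I d l (1 - ((n + 1 : ℕ) : ℂ) * v) v - KK' I d l 1 v = 0
    rw [e, b', a']

/-- homogeneity of the derivative -/
theorem homdy {I : ℂ × ℂ → ℂ} {g : ℂ → ℂ} {d : ℂ} (hI : AnalyticAt ℂ I (1, 0))
    (h : ∀ᶠ p in 𝓝 ((1 : ℂ), (0 : ℂ)), I p - I (p.1 - p.2, p.2) = p.1 ^ d * g (p.2 / p.1)) :
    ∀ᶠ w in 𝓝 (0 : ℂ), dy I (1 - w, w) = (1 - w)⁻¹ ^ (1 - d) * dy I (1, (1 - w)⁻¹ * w) := by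
  have c0 : ContinuousAt (fun w : ℂ => (1 - w)⁻¹) 0 :=
    (continuousAt_const.sub continuousAt_id).inv₀ (by simp)
  have t0 : Tendsto (fun w : ℂ => (1 - w)⁻¹) (𝓝 0) (𝓝 1) := by simpa using c0.tendsto
  have t1 : Tendsto (fun w : ℂ => (((1 - w)⁻¹, w, w) : ℂ × ℂ × ℂ)) (𝓝 0) (𝓝 (1, 0)) :=
    t0.prodMk_nhds (tendsto_id.prodMk_nhds tendsto_id)
  have t2 : Tendsto (fun w : ℂ => ((1 - w, w) : ℂ × ℂ)) (𝓝 0) (𝓝 (1, 0)) :=
    (Continuous.prodMk (continuous_const.sub continuous_id) continuous_id).tendsto' 0 _ (by simp)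
  have t3 : Tendsto (fun w : ℂ => ((1, (1 - w)⁻¹ * w) : ℂ × ℂ)) (𝓝 0) (𝓝 (1, 0)) :=
    tendsto_const_nhds.prodMk_nhds (by simpa using t0.mul (tendsto_id (x := 𝓝 (0 : ℂ))))
  have hne : ∀ᶠ w in 𝓝 (0 : ℂ), 1 - w ≠ 0 :=
    (continuousAt_const.sub continuousAt_id).eventually_ne (by simp)
  filter_upwards [t1.eventually (indep hI h).eventually_nhds, t2.eventually hI.eventually_analyticAt,
    t3.eventually hI.eventually_analyticAt, hne] with w a b c e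
  set l := (1 - w)⁻¹ with hl
  have hl1 : l * (1 - w) = 1 := inv_mul_cancel₀ e
  have hl0 : l ≠ 0 := inv_ne_zero e
  have t4 : Tendsto (fun y : ℂ => ((l, y, w) : ℂ × ℂ × ℂ)) (𝓝 w) (𝓝 (l, w, w)) :=
    tendsto_const_nhds.prodMk_nhds (tendsto_id.prodMk_nhds tendsto_const_nhds)
  have a' : (fun y => KK' I d l (1 - y) w - KK' I d l 1 w) =ᶠ[𝓝 w] fun _ => 0 := t4.eventually a
  have d1 : HasDerivAt (fun y : ℂ => 1 - y) (-1) w := (hasDerivAt_id w).const_sub 1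
  have d2 : HasDerivAt (fun y : ℂ => l * (1 - y)) (l * -1) w := d1.const_mul l
  have d3 := has_dy (I := I) (w := l * w) (by rw [hl1]; exact c) d2
  have d4 := has_dy (I := I) (w := w) b d1
  have d5 : HasDerivAt (fun y => KK' I d l (1 - y) w - KK' I d l 1 w)
      (l ^ (-d) * (l * -1 * dy I (l * (1 - w), l * w)) - -1 * dy I (1 - w, w)) w :=
    ((d3.const_mul (l ^ (-d))).sub d4).sub_const _
  have d6 := ((hasDerivAt_const w (0 : ℂ)).congr_of_eventuallyEq a').unique d5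
  rw [hl1] at d6
  have f : l ^ (1 - d) = l * l ^ (-d) := by rw [sub_eq_add_neg, cpow_add _ _ hl0, cpow_one]
  rw [f]
  linear_combination -d6

theorem coh {I : ℂ × ℂ → ℂ} {g : ℂ → ℂ} {d : ℂ} (hI : AnalyticAt ℂ I (1, 0))
    (hg : AnalyticAt ℂ g 0)
    (h : ∀ᶠ p in 𝓝 ((1 : ℂ), (0 : ℂ)), I p - I (p.1 - p.2, p.2) = p.1 ^ d * g (p.2 / p.1)) :
    ∀ᶠ w in 𝓝 (0 : ℂ), dy I (1, w) - dy I (1 - w, w) = d * g w - w * deriv g w := by
  have t1 : Tendsto (fun w : ℂ => ((1, w) : ℂ × ℂ)) (𝓝 0) (𝓝 (1, 0)) :=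
    tendsto_const_nhds.prodMk_nhds tendsto_id
  have t2 : Tendsto (fun w : ℂ => ((1 - w, w) : ℂ × ℂ)) (𝓝 0) (𝓝 (1, 0)) :=
    (Continuous.prodMk (continuous_const.sub continuous_id) continuous_id).tendsto' 0 _ (by simp)
  filter_upwards [t1.eventually h.eventually_nhds, t1.eventually hI.eventually_analyticAt,
    t2.eventually hI.eventually_analyticAt, hg.eventually_analyticAt] with w a b c e
  have t4 : Tendsto (fun y : ℂ => ((y, w) : ℂ × ℂ)) (𝓝 1) (𝓝 (1, w)) :=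
    tendsto_id.prodMk_nhds tendsto_const_nhds
  have a' : (fun y => I (y, w) - I (y - w, w)) =ᶠ[𝓝 1] fun y => y ^ d * g (w / y) :=
    t4.eventually a
  have d1 := has_dy (I := I) (f := fun y => y) (w := w) b (hasDerivAt_id (1 : ℂ))
  have d2 := has_dy (I := I) (f := fun y => y - w) (w := w) c
    ((hasDerivAt_id (1 : ℂ)).sub_const w)
  have d3 : HasDerivAt (fun y : ℂ => y ^ d) (d * 1 ^ (d - 1)) 1 :=
    (hasStrictDerivAt_cpow_const (by simp)).hasDerivAt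
  have d4 : HasDerivAt (fun y : ℂ => w / y) (-w) 1 := by
    have := (hasDerivAt_inv (one_ne_zero (α := ℂ))).const_mul w
    simpa [div_eq_mul_inv] using this
  have d5 : HasDerivAt (fun y : ℂ => g (w / y)) (deriv g w * -w) 1 :=
    HasDerivAt.comp_of_eq (h₂ := g) (h := fun y : ℂ => w / y) (1 : ℂ)
      e.differentiableAt.hasDerivAt d4 (by simp)
  have d6 := ((d3.mul d5).congr_of_eventuallyEq a').unique (d1.sub d2)
  simp only [one_cpow, div_one, mul_one, one_mul] at d6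
  linear_combination -d6

theorem tele (f : ℤ → ℂ) (N : ℕ) :
    ∑ j ∈ Finset.Icc (-(N : ℤ)) N, (f j - f (j - 1)) = f N - f (-N - 1) := by
  induction N with
  | zero => simp
  | succ n ih =>
    have e : Finset.Icc (-((n + 1 : ℕ) : ℤ)) ((n + 1 : ℕ) : ℤ) =
        insert ((n : ℤ) + 1) (insert (-(n : ℤ) - 1) (Finset.Icc (-(n : ℤ)) n)) := by
      ext j; simp only [Finset.mem_Icc, Finset.mem_insert]; push_cast; omega
    rw [e, Finset.sum_insert (by simp only [Finset.mem_Icc, Finset.mem_insert]; omega),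
      Finset.sum_insert (by simp only [Finset.mem_Icc]; omega), ih]
    push_cast
    rw [show (n : ℤ) + 1 - 1 = n by ring, show -((n : ℤ) + 1) - 1 = -(n : ℤ) - 1 - 1 by ring]
    ring

end Kink

theorem kink : Spec_KINK := by
  intro I g S d c hI hg h hS ⟨R, hR⟩
  set b : ℂ → ℂ := fun w => Kink.dy I (1, w) with hb
  have hban : AnalyticAt ℂ b 0 :=
    AnalyticAt.comp_of_eq (g := Kink.dy I) (f := fun w : ℂ => ((1, w) : ℂ × ℂ)) (Kink.an_dy hI)
      (analyticAt_const.prod analyticAt_id) rfl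
  have key : ∀ᶠ w in 𝓝 (0 : ℂ), AnalyticAt ℂ b w ∧ AnalyticAt ℂ g w ∧
      b w - (1 - w)⁻¹ ^ (1 - d) * b ((1 - w)⁻¹ * w) = d * g w - w * deriv g w := by
    filter_upwards [hban.eventually_analyticAt, hg.eventually_analyticAt, Kink.homdy hI h,
      Kink.coh hI hg h] with w a1 a2 a3 a4
    refine ⟨a1, a2, ?_⟩
    rw [← a4, a3]
  obtain ⟨ρ, hρ, hk⟩ := Metric.eventually_nhds_iff.mp key
  have hk' : ∀ t : ℂ, ρ⁻¹ < ‖t‖ → dist t⁻¹ 0 < ρ := by
    intro t ht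
    rw [dist_zero_right, norm_inv]
    exact inv_lt_of_inv_lt₀ hρ ht
  set β : ℂ → ℂ := fun t => t ^ (d - 1) * b t⁻¹ with hβ
  have hβan : ∀ t : ℂ, 0 < t.im → ρ⁻¹ < ‖t‖ → AnalyticAt ℂ β t := by
    intro t h1 h2
    have ht : t ≠ 0 := fun e => by simp [e] at h1
    exact (AnalyticAt.cpow analyticAt_id analyticAt_const (Kink.slit h1)).mul
      (AnalyticAt.comp (g := b) (f := fun t : ℂ => t⁻¹) (hk (hk' t h2)).1
        (analyticAt_id.inv ht))
  have step : ∀ t : ℂ, max R ρ⁻¹ < t.im → deriv S t = β t - β (t - 1) := by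
    intro t ht
    have h1 : R < t.im := (le_max_left _ _).trans_lt ht
    have h2 : ρ⁻¹ < t.im := (le_max_right _ _).trans_lt ht
    have h3 : 0 < t.im := (inv_pos.mpr hρ).trans h2
    have h4 : ρ⁻¹ < ‖t‖ := h2.trans_le ((le_abs_self _).trans (abs_im_le_norm t))
    have ht0 : t ≠ 0 := fun e => by simp [e] at h3
    have ht1 : t - 1 ≠ 0 := fun e => by
      have : (t - 1).im = 0 := by rw [e]; simp
      simp at this; exact h3.ne' this
    obtain ⟨-, k2, k3⟩ := hk (hk' t h4)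
    have e1 : S =ᶠ[𝓝 t] fun y => y ^ d * g y⁻¹ := by
      filter_upwards [continuous_im.continuousAt.eventually (lt_mem_nhds h1)] with y hy
      exact hR y hy
    have d1 : HasDerivAt (fun y : ℂ => y ^ d) (d * t ^ (d - 1)) t :=
      (hasStrictDerivAt_cpow_const (Kink.slit h3)).hasDerivAt
    have d2 : HasDerivAt (fun y : ℂ => g y⁻¹) (deriv g t⁻¹ * -(t ^ 2)⁻¹) t :=
      HasDerivAt.comp (h₂ := g) (h := fun y : ℂ => y⁻¹) t k2.differentiableAt.hasDerivAt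
        (hasDerivAt_inv ht0)
    have d3 : HasDerivAt (fun y : ℂ => y ^ d * g y⁻¹)
      (d * t ^ (d - 1) * g t⁻¹ + t ^ d * (deriv g t⁻¹ * -(t ^ 2)⁻¹)) t := d1.mul d2
    have f1 : t ^ d = t ^ (d - 1) * t := by
      conv_lhs => rw [show d = d - 1 + 1 by ring, cpow_add _ _ ht0, cpow_one]
    have f2 : (1 - t⁻¹)⁻¹ = t / (t - 1) := by field_simp
    have f3 : t / (t - 1) * t⁻¹ = (t - 1)⁻¹ := by field_simp
    have f4 : (t / (t - 1)).im < 0 := by
      have : t / (t - 1) = 1 + (t - 1)⁻¹ := by field_simp; ring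
      rw [this, add_im, one_im, zero_add, inv_im]
      have := normSq_pos.mpr ht1
      simp only [sub_im, one_im, sub_zero]
      exact div_neg_of_neg_of_pos (by linarith) this
    have f5 : t ^ (d - 1) = (t - 1) ^ (d - 1) * (t / (t - 1)) ^ (d - 1) := by
      rw [← Kink.mul_cpow_im ht1 (by simpa using h3.le) f4]
      congr 1; field_simp
    have f6 : (t / (t - 1)) ^ (d - 1) * (t / (t - 1)) ^ (1 - d) = 1 := by
      rw [← cpow_add _ _ (div_ne_zero ht0 ht1)]; simp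
    rw [f2, f3] at k3
    rw [e1.deriv_eq, d3.deriv, f1]
    simp only [hβ]
    have f7 : t * (t ^ 2)⁻¹ = t⁻¹ := by field_simp
    linear_combination (-t ^ (d - 1)) * k3 - (t ^ (d - 1) * deriv g t⁻¹) * f7 -
      ((t / (t - 1)) ^ (1 - d) * b (t - 1)⁻¹) * f5 - ((t - 1) ^ (d - 1) * b (t - 1)⁻¹) * f6
  obtain ⟨N₀, hN₀⟩ := exists_nat_gt (ρ⁻¹ + |c| + 1)
  refine ⟨N₀, fun N hN => ?_⟩
  have hN' : ρ⁻¹ + |c| + 1 < N := hN₀.trans_le (by exact_mod_cast hN)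
  have hρ' : 0 < ρ⁻¹ := inv_pos.mpr hρ
  have hc1 := le_abs_self c
  have hc2 := neg_abs_le c
  set c₁ : ℝ := N + c with hc₁
  set c₂ : ℝ := -N - 1 + c with hc₂
  obtain ⟨F₁, hF₁, -, -, eF₁⟩ := an (d - 1) c₁ (by rw [hc₁]; intro e; linarith)
  obtain ⟨F₂, hF₂, -, -, eF₂⟩ := an (d - 1) c₂ (by rw [hc₂]; intro e; linarith)
  have n1 : ∀ s : ℂ, |s.re| < 1 → ρ⁻¹ < ‖(c₁ : ℂ) + s‖ := by
    intro s hs
    refine lt_of_lt_of_le ?_ ((le_abs_self _).trans (abs_re_le_norm _))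
    have := abs_lt.mp hs
    simp only [add_re, ofReal_re, hc₁]; linarith
  have n2 : ∀ s : ℂ, |s.re| < 1 → ρ⁻¹ < ‖(c₂ : ℂ) + s‖ := by
    intro s hs
    refine lt_of_lt_of_le ?_ ((neg_le_abs _).trans (abs_re_le_norm _))
    have := abs_lt.mp hs
    simp only [add_re, ofReal_re, hc₂]; linarith
  have hb' : ∀ e : ℝ, ρ⁻¹ < ‖(e : ℂ) + 0‖ → AnalyticAt ℂ (fun s : ℂ => b ((e : ℂ) + s)⁻¹) 0 := by
    intro e he
    have h0 : (e : ℂ) + 0 ≠ 0 := fun e' => by rw [e', norm_zero] at he; linarith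
    exact AnalyticAt.comp (g := b) (f := fun s : ℂ => ((e : ℂ) + s)⁻¹) (hk (hk' _ he)).1
      ((analyticAt_const.add analyticAt_id).inv h0)
  refine ⟨fun s => F₁ s * b ((c₁ : ℂ) + s)⁻¹ - F₂ s * b ((c₂ : ℂ) + s)⁻¹,
    (hF₁.mul (hb' c₁ (n1 0 (by simp)))).sub (hF₂.mul (hb' c₂ (n2 0 (by simp)))), ?_⟩
  set Ω : Set ℂ := {s | 0 < s.im} ∩ ({s | -1 < s.re} ∩ {s | s.re < 1}) with hΩ
  have hconv : Convex ℝ Ω :=
    (convex_halfSpace_im_gt 0).inter ((convex_halfSpace_re_gt (-1)).inter (convex_halfSpace_re_lt 1))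
  have hSan : AnalyticOnNhd ℂ (deriv S) {t | 0 < t.im} := (hS.analyticOnNhd Kink.up_open).deriv
  have A1 : AnalyticOnNhd ℂ (fun s : ℂ => ∑ j ∈ Finset.Icc (-(N : ℤ)) N,
      deriv S ((j : ℂ) + c + s)) Ω := by
    intro s hs
    refine Finset.analyticAt_fun_sum _ fun j _ => ?_
    refine AnalyticAt.comp (g := deriv S) (f := fun s : ℂ => (j : ℂ) + c + s) (hSan _ ?_)
      (analyticAt_const.add analyticAt_id)
    simpa using hs.1
  have A2 : AnalyticOnNhd ℂ (fun s : ℂ => β ((c₁ : ℂ) + s) - β ((c₂ : ℂ) + s)) Ω := by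
    intro s hs
    have h1 : |s.re| < 1 := abs_lt.mpr ⟨hs.2.1, hs.2.2⟩
    exact (AnalyticAt.comp (g := β) (f := fun s : ℂ => (c₁ : ℂ) + s)
      (hβan _ (by simpa using hs.1) (n1 s h1)) (analyticAt_const.add analyticAt_id)).sub
      (AnalyticAt.comp (g := β) (f := fun s : ℂ => (c₂ : ℂ) + s)
      (hβan _ (by simpa using hs.1) (n2 s h1)) (analyticAt_const.add analyticAt_id))
  set y₀ : ℝ := max R ρ⁻¹ + 1 with hy₀
  have hy : 0 < y₀ := by have := le_max_right R ρ⁻¹; linarith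
  have hz : ((y₀ : ℂ) * Complex.I) ∈ Ω := ⟨by simpa using hy, by simp, by simp⟩
  have hev : (fun s : ℂ => ∑ j ∈ Finset.Icc (-(N : ℤ)) N, deriv S ((j : ℂ) + c + s))
      =ᶠ[𝓝 ((y₀ : ℂ) * Complex.I)] fun s : ℂ => β ((c₁ : ℂ) + s) - β ((c₂ : ℂ) + s) := by
    have h1 : max R ρ⁻¹ < ((y₀ : ℂ) * Complex.I).im := by simp [hy₀]
    filter_upwards [continuous_im.continuousAt.eventually (lt_mem_nhds h1)] with s hs
    have := Kink.tele (fun j : ℤ => β ((j : ℂ) + c + s)) N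
    simp only [hc₁, hc₂]
    push_cast at this ⊢
    rw [← this]
    refine Finset.sum_congr rfl fun j _ => ?_
    rw [step _ (by simpa using hs)]
    congr 2; ring
  have heq := A1.eqOn_of_preconnected_of_eventuallyEq A2 hconv.isPreconnected hz hev
  have r1 : ∀ᶠ s in 𝓝 (0 : ℂ), -1 < s.re :=
    continuous_re.continuousAt.eventually (lt_mem_nhds (by simp))
  have r2 : ∀ᶠ s in 𝓝 (0 : ℂ), s.re < 1 :=
    continuous_re.continuousAt.eventually (gt_mem_nhds (by simp))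
  filter_upwards [self_mem_nhdsWithin, nhdsWithin_le_nhds r1, nhdsWithin_le_nhds r2, eF₁, eF₂]
    with s a1 a2 a3 a4 a5
  have := heq (⟨a1, a2, a3⟩ : s ∈ Ω)
  simp only [hβ] at this
  rw [this, a4, a5]

end Vale.Agent.P097A
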