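import Vale.Agent.P097A.Spec

/-!
# P097A, LOC, part 1: limits at the place, divided differences, deck transformations
-/

set_option linter.all false

noncomputable section

namespace Vale.Agent.P097A.Loc

variable {K : Type} [Field K] [Algebra ℂ K] {Γ : Type} [LinearOrderedCommGroupWithZero Γ]
  (D : ValData K Γ)

/-- the constant `c` -/
abbrev io (K : Type) [Field K] [Algebra ℂ K] (c : ℂ) : K := algebraMap ℂ K c

/-- `x` tends to `c` -/
def Lim (x : K) (c : ℂ) : Prop := D.v (x - io K c) < 1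

variable {D}

theorem io_one : io K 1 = 1 := map_one _

theorem io_zero : io K 0 = 0 := map_zero _

theorem io_inv (c : ℂ) : io K c⁻¹ = (io K c)⁻¹ := map_inv₀ _ _

theorem eq_one_of_zpow {a : Γ} {e : ℤ} (he : e ≠ 0) (h : a ^ e = 1) : a = 1 := by
  have aux : ∀ n : ℕ, n ≠ 0 → a ^ n = 1 → a = 1 := by
    intro n hn h
    rcases lt_trichotomy a 1 with h1 | h1 | h1
    · exact absurd h (pow_lt_one₀ zero_le' h1 hn).ne
    · exact h1
    · exact absurd h (one_lt_pow₀ h1 hn).ne'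
  obtain ⟨k, rfl | rfl⟩ := e.eq_nat_or_neg
  · exact aux k (by exact_mod_cast he) (by simpa using h)
  · exact aux k (by simpa using he) (by simpa using h)

theorem v_io_le (c : ℂ) : D.v (io K c) ≤ 1 := by
  by_cases h : c = 0
  · simp [h]
  · exact (D.v_alg c h).le

theorem Lim.const (c : ℂ) : Lim D (io K c) c := by simp [Lim]

theorem lim_zero {x : K} : Lim D x 0 ↔ D.v x < 1 := by simp [Lim]

theorem Lim.le {x : K} {c : ℂ} (h : Lim D x c) : D.v x ≤ 1 := by
  have : x = (x - io K c) + io K c := by ring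
  rw [this]
  exact D.v.map_add_le (le_of_lt h) (v_io_le c)

theorem Lim.add {x y : K} {c d : ℂ} (h : Lim D x c) (h' : Lim D y d) : Lim D (x + y) (c + d) := by
  unfold Lim at *
  have : x + y - io K (c + d) = (x - io K c) + (y - io K d) := by simp only [map_add]; ring
  rw [this]
  exact D.v.map_add_lt h h'

theorem Lim.neg {x : K} {c : ℂ} (h : Lim D x c) : Lim D (-x) (-c) := by
  unfold Lim at *
  have : -x - io K (-c) = -(x - io K c) := by simp only [map_neg]; ring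
  rw [this, D.v.map_neg]
  exact h

theorem Lim.sub {x y : K} {c d : ℂ} (h : Lim D x c) (h' : Lim D y d) : Lim D (x - y) (c - d) := by
  rw [sub_eq_add_neg, sub_eq_add_neg]
  exact h.add h'.neg

theorem Lim.mul {x y : K} {c d : ℂ} (h : Lim D x c) (h' : Lim D y d) : Lim D (x * y) (c * d) := by
  have hy := h'.le
  unfold Lim at *
  have : x * y - io K (c * d) = (x - io K c) * y + io K c * (y - io K d) := by
    simp only [map_mul]; ring
  rw [this]
  refine D.v.map_add_lt ?_ ?_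
  · rw [map_mul]
    exact mul_lt_one_of_lt_of_le h hy
  · rw [map_mul]
    calc D.v (io K c) * D.v (y - io K d) ≤ 1 * D.v (y - io K d) := by
          gcongr
          exact v_io_le c
      _ < 1 := by rw [one_mul]; exact h'

theorem Lim.unique {x : K} {c d : ℂ} (h : Lim D x c) (h' : Lim D x d) : c = d := by
  by_contra hne
  have h1 := h.sub h'
  rw [sub_self] at h1
  unfold Lim at h1
  rw [zero_sub, D.v.map_neg, D.v_alg _ (sub_ne_zero.2 hne)] at h1
  exact lt_irrefl _ h1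

theorem Lim.v_eq {x : K} {c : ℂ} (h : Lim D x c) (hc : c ≠ 0) : D.v x = 1 := by
  have h1 : x = io K c + (x - io K c) := by ring
  rw [h1, D.v.map_add_eq_of_lt_left, D.v_alg c hc]
  rw [D.v_alg c hc]
  exact h

theorem Lim.ne_zero {x : K} {c : ℂ} (h : Lim D x c) (hc : c ≠ 0) : x ≠ 0 := by
  intro h0
  have := h.v_eq hc
  rw [h0, map_zero] at this
  exact zero_ne_one this

theorem io_ne_zero {c : ℂ} (hc : c ≠ 0) : io K c ≠ 0 := by
  simpa using hc

theorem Lim.inv {x : K} {c : ℂ} (h : Lim D x c) (hc : c ≠ 0) : Lim D x⁻¹ c⁻¹ := by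
  have hx := h.ne_zero hc
  have hv := h.v_eq hc
  have hc' : io K c ≠ 0 := io_ne_zero hc
  unfold Lim at *
  have : x⁻¹ - io K c⁻¹ = -(x - io K c) * (x⁻¹ * (io K c)⁻¹) := by
    simp only [map_inv₀]; field_simp; ring
  rw [this, map_mul, map_mul, D.v.map_neg, map_inv₀, map_inv₀, hv, D.v_alg c hc]
  simpa using h

theorem Lim.div {x y : K} {c d : ℂ} (h : Lim D x c) (h' : Lim D y d) (hd : d ≠ 0) :
    Lim D (x / y) (c / d) := by
  rw [div_eq_mul_inv, div_eq_mul_inv]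
  exact h.mul (h'.inv hd)

theorem Lim.congr {x y : K} {c d : ℂ} (h : Lim D x c) (hx : x = y) (hc : c = d) : Lim D y d := by
  rw [← hx, ← hc]; exact h

theorem Lim.one : Lim D (1 : K) 1 := (Lim.const (D := D) 1).congr (map_one _) rfl

theorem Lim.zero : Lim D (0 : K) 0 := (Lim.const (D := D) 0).congr (map_zero _) rfl

theorem Lim.pow {x : K} {c : ℂ} (h : Lim D x c) (n : ℕ) : Lim D (x ^ n) (c ^ n) := by
  induction n with
  | zero => simpa using Lim.one
  | succ n ih => rw [pow_succ, pow_succ]; exact ih.mul h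

theorem Lim.zpow {x : K} {c : ℂ} (h : Lim D x c) (hc : c ≠ 0) (n : ℤ) :
    Lim D (x ^ n) (c ^ n) := by
  obtain ⟨k, rfl | rfl⟩ := n.eq_nat_or_neg
  · simpa using h.pow k
  · simpa using (h.pow k).inv (pow_ne_zero _ hc)

theorem Lim.g {x : K} {c : ℂ} (h : Lim D x c) : Lim D (D.g x) c := by
  unfold Lim at *
  have : D.g x - io K c = D.g (x - io K c) := by rw [map_sub, AlgEquiv.commutes]
  rw [this, D.v_g]
  exact h

theorem exists_lim {x : K} (h : D.v x ≤ 1) : ∃ c, Lim D x c := D.v_res x h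

theorem Lim.small_mul {x y : K} (h : Lim D x 0) (hy : D.v y ≤ 1) : Lim D (x * y) 0 := by
  obtain ⟨c, hc⟩ := exists_lim hy
  exact (h.mul hc).congr rfl (zero_mul _)

/-- the multiplier of `g` is the same for elements of the same order -/
theorem mult_transfer {x y : K} {ω ζ : ℂ} (hx : x ≠ 0) (hω : ω ≠ 0) (h : Lim D (y / x) ω)
    (h' : Lim D (D.g x / x) ζ) : Lim D (D.g y / y) ζ := by
  have hy : y ≠ 0 := by
    intro h0
    have := h.ne_zero hω
    simp [h0] at this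
  have hgx : D.g x ≠ 0 := by simpa using hx
  refine ((h.g.mul h').mul (h.inv hω)).congr ?_ ?_
  · rw [map_div₀]; field_simp
  · field_simp

/-! ## divided differences -/

variable (D) in
/-- `F` has the value `a` and the derivative `d` at the centre `c`, for divided differences -/
def DL (F : K → K) (c a d : ℂ) : Prop :=
  ∀ x y, Lim D x c → Lim D y c → Lim D (F x) a ∧ ∃ δ, Lim D δ d ∧ F x - F y = (x - y) * δ

theorem DL.const (c a : ℂ) : DL D (fun _ => io K a) c a 0 :=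
  fun x y _ _ => ⟨Lim.const a, 0, Lim.zero, by ring⟩

theorem DL.id (c : ℂ) : DL D (fun x => x) c c 1 :=
  fun x y hx _ => ⟨hx, 1, Lim.one, by ring⟩

theorem DL.congr {F G : K → K} {c a d a' d' : ℂ} (h : DL D F c a d)
    (hF : ∀ x, Lim D x c → F x = G x) (ha : a = a') (hd : d = d') : DL D G c a' d' := by
  intro x y hx hy
  obtain ⟨h1, δ, h2, h3⟩ := h x y hx hy
  exact ⟨h1.congr (hF x hx) ha, δ, h2.congr rfl hd, by rw [← hF x hx, ← hF y hy, h3]⟩

theorem DL.add {F G : K → K} {c a d a' d' : ℂ} (h : DL D F c a d) (h' : DL D G c a' d') :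
    DL D (fun x => F x + G x) c (a + a') (d + d') := by
  intro x y hx hy
  obtain ⟨h1, δ, h2, h3⟩ := h x y hx hy
  obtain ⟨h1', δ', h2', h3'⟩ := h' x y hx hy
  refine ⟨h1.add h1', δ + δ', h2.add h2', ?_⟩
  linear_combination h3 + h3'

theorem DL.mul {F G : K → K} {c a d a' d' : ℂ} (h : DL D F c a d) (h' : DL D G c a' d') :
    DL D (fun x => F x * G x) c (a * a') (d * a' + a * d') := by
  intro x y hx hy
  obtain ⟨h1, δ, h2, h3⟩ := h x y hx hy
  obtain ⟨h1', δ', h2', h3'⟩ := h' x y hx hy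
  obtain ⟨h4, -⟩ := h y y hy hy
  refine ⟨h1.mul h1', δ * G x + F y * δ', (h2.mul h1').add (h4.mul h2'), ?_⟩
  linear_combination G x * h3 + F y * h3'

theorem DL.inv {F : K → K} {c a d : ℂ} (h : DL D F c a d) (ha : a ≠ 0) :
    DL D (fun x => (F x)⁻¹) c a⁻¹ (-d * (a⁻¹ * a⁻¹)) := by
  intro x y hx hy
  obtain ⟨h1, δ, h2, h3⟩ := h x y hx hy
  obtain ⟨h4, -⟩ := h y y hy hy
  refine ⟨h1.inv ha, -δ * ((F x)⁻¹ * (F y)⁻¹), h2.neg.mul ((h1.inv ha).mul (h4.inv ha)), ?_⟩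
  have := h1.ne_zero ha
  have := h4.ne_zero ha
  field_simp
  linear_combination -h3

theorem DL.zpow {F : K → K} {c a d : ℂ} (h : DL D F c a d) (ha : a ≠ 0) (k : ℤ) :
    DL D (fun x => F x ^ k) c (a ^ k) (k * a ^ (k - 1) * d) := by
  induction k using Int.induction_on with
  | zero => exact (DL.const c 1).congr (fun x _ => by simp) (by simp) (by simp)
  | succ n ih =>
    refine (ih.mul h).congr (fun x hx => ?_) ?_ ?_
    · rw [zpow_add_one₀ ((h x x hx hx).1.ne_zero ha)]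
    · rw [zpow_add_one₀ ha]
    · rw [add_sub_cancel_right, zpow_sub_one₀ ha]; push_cast; field_simp
  | pred n ih =>
    refine (ih.mul (h.inv ha)).congr (fun x hx => ?_) ?_ ?_
    · rw [zpow_sub_one₀ ((h x x hx hx).1.ne_zero ha)]
    · rw [zpow_sub_one₀ ha]
    · rw [zpow_sub_one₀ ha, zpow_sub_one₀ ha, zpow_sub_one₀ ha]; push_cast; field_simp; ring

/-- the affine function `a + σ x` -/
theorem DL.aff (c a σ : ℂ) : DL D (fun x => io K a + io K σ * x) c (a + σ * c) σ :=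
  ((DL.const c a).add ((DL.const c σ).mul (DL.id c))).congr (fun _ _ => rfl) rfl (by ring)

/-! ## deck transformations at a zero or pole -/

theorem deck {z z' : K} {e k : ℤ} {σ : ℂ} (he : e ≠ 0) (hz : Lim D z 0) (hz' : Lim D z' 0)
    (h0 : z ≠ 0) (h0' : z' ≠ 0) (hne : z ≠ z')
    (h : z ^ e * (1 + io K σ * z) ^ k = z' ^ e * (1 + io K σ * z') ^ k) :
    ∃ ζ : ℂ, ζ ≠ 0 ∧ ζ ≠ 1 ∧ ζ ^ e = 1 ∧ Lim D (z' / z) ζ ∧
      Lim D (z'⁻¹ - io K ζ⁻¹ * z⁻¹) (σ * k / e - ζ⁻¹ * (σ * k / e)) := by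
  have hU : DL D (fun x => (1 + io K σ * x) ^ k) 0 1 (σ * k) :=
    ((DL.aff (D := D) 0 1 σ).zpow (by simp) k).congr (fun x _ => by simp) (by simp)
      (by simp; ring)
  obtain ⟨hU1, u, hu, hu'⟩ := hU z z' hz hz'
  obtain ⟨hU2, -⟩ := hU z' z' hz' hz'
  set ρ := z' / z with hρ
  have hU2n := hU2.ne_zero one_ne_zero
  have hρe : ρ ^ e = (1 + io K σ * z) ^ k / (1 + io K σ * z') ^ k := by
    rw [hρ, div_zpow, div_eq_div_iff (zpow_ne_zero _ h0) hU2n]
    linear_combination -h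
  have hρe1 : Lim D (ρ ^ e) 1 := (hU1.div hU2 one_ne_zero).congr hρe.symm (by simp)
  have hvρ : D.v ρ = 1 := by
    have h1 := hρe1.v_eq one_ne_zero
    rw [map_zpow₀] at h1
    exact eq_one_of_zpow he h1
  obtain ⟨ζ, hζ⟩ := exists_lim hvρ.le
  have hζ0 : ζ ≠ 0 := by
    rintro rfl
    rw [lim_zero, hvρ] at hζ
    exact lt_irrefl _ hζ
  have hζe : ζ ^ e = 1 := (hζ.zpow hζ0 e).unique hρe1
  obtain ⟨-, δ, hδ, hδ'⟩ := ((DL.id (D := D) ζ).zpow hζ0 e) ρ (io K ζ) hζ (Lim.const ζ)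
  have hio : io K ζ ^ e = 1 := by rw [← map_zpow₀, hζe, map_one]
  simp only [hio] at hδ'
  have heC : (e : ℂ) ≠ 0 := by exact_mod_cast he
  have hd0 : (e : ℂ) * ζ ^ (e - 1) * 1 ≠ 0 := by
    simp [heC, zpow_ne_zero _ hζ0]
  have hδ0 := hδ.ne_zero hd0
  -- the key identity
  have key : (ρ - io K ζ) / z = (1 - ρ) * u / (1 + io K σ * z') ^ k / δ := by
    have h1 : (ρ - io K ζ) * δ = (z - z') * u / (1 + io K σ * z') ^ k := by
      rw [← hδ', hρe, ← hu']; field_simp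
    have h2 : z - z' = z * (1 - ρ) := by rw [hρ]; field_simp
    rw [h2] at h1
    field_simp at h1 ⊢
    linear_combination h1
  have hkey : Lim D ((ρ - io K ζ) / z) ((1 - ζ) * (σ * k) / 1 / (e * ζ ^ (e - 1) * 1)) :=
    ((((Lim.one.sub hζ).mul hu).div hU2 one_ne_zero).div hδ hd0).congr key.symm rfl
  have hζ1 : ζ ≠ 1 := by
    rintro rfl
    have hρ1 : ρ - 1 ≠ 0 := by
      intro h1
      apply hne
      have : ρ = 1 := by linear_combination h1
      rw [hρ, div_eq_one_iff_eq h0] at this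
      exact this.symm
    have h3 : (1 : K) = -(z * (u / (1 + io K σ * z') ^ k / δ)) := by
      rw [io_one] at key
      have hk := key
      field_simp at hk ⊢
      apply mul_left_cancel₀ hρ1
      linear_combination hk
    have h4 : Lim D (-(z * (u / (1 + io K σ * z') ^ k / δ))) (-(0 * _)) :=
      (hz.mul ((hu.div hU2 one_ne_zero).div hδ hd0)).neg
    rw [← h3] at h4
    have := Lim.one.unique h4
    simp at this
  refine ⟨ζ, hζ0, hζ1, hζe, hζ, ?_⟩
  have hζK : io K ζ ≠ 0 := io_ne_zero hζ0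
  have hρ0 : ρ ≠ 0 := div_ne_zero h0' h0
  refine ((hkey.neg.div hζ hζ0).div (Lim.const ζ) hζ0).congr ?_ ?_
  · rw [io_inv, hρ]; field_simp; ring
  · have h5 : ζ ^ (e - 1) = ζ⁻¹ := by rw [zpow_sub_one₀ hζ0, hζe, one_mul]
    rw [h5]; field_simp; ring

/-! ## third order expansions -/

variable (D) in
def E3 (F : K → K) (f0 f1 f2 f3 : ℂ) : Prop :=
  ∃ (R : K → K) (d : ℂ), DL D R 0 f3 d ∧
    ∀ z, Lim D z 0 → F z = io K f0 + io K f1 * z + io K f2 * z ^ 2 + z ^ 3 * R z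

theorem E3.congr {F G : K → K} {f0 f1 f2 f3 g0 g1 g2 g3 : ℂ} (h : E3 D F f0 f1 f2 f3)
    (hF : ∀ z, Lim D z 0 → F z = G z) (h0 : f0 = g0) (h1 : f1 = g1) (h2 : f2 = g2)
    (h3 : f3 = g3) : E3 D G g0 g1 g2 g3 := by
  subst h0 h1 h2 h3
  obtain ⟨R, d, hR, h⟩ := h
  exact ⟨R, d, hR, fun z hz => by rw [← hF z hz, h z hz]⟩

theorem E3.mul {F G : K → K} {f0 f1 f2 f3 g0 g1 g2 g3 : ℂ} (h : E3 D F f0 f1 f2 f3)
    (h' : E3 D G g0 g1 g2 g3) :
    E3 D (fun z => F z * G z) (f0 * g0) (f0 * g1 + f1 * g0) (f0 * g2 + f1 * g1 + f2 * g0)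
      (f0 * g3 + f1 * g2 + f2 * g1 + f3 * g0) := by
  obtain ⟨R, d, hR, h⟩ := h
  obtain ⟨S, d', hS, h'⟩ := h'
  have hi := DL.id (D := D) 0
  have c := fun a => DL.const (D := D) (K := K) 0 a
  have h1 := (((c (f1 * g2 + f2 * g1)).add ((c (f2 * g2)).mul hi)).add
    (hR.mul ((((c g0).add ((c g1).mul hi)).add ((c g2).mul (hi.mul hi))).add
      ((hi.mul (hi.mul hi)).mul hS)))).add
    (hS.mul (((c f0).add ((c f1).mul hi)).add ((c f2).mul (hi.mul hi))))
  refine ⟨_, _, h1.congr (fun _ _ => rfl) (by ring) rfl, fun z hz => ?_⟩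
  simp only [h z hz, h' z hz, map_add, map_mul]
  ring

theorem E3.aff (σ : ℂ) : E3 D (fun z => 1 + io K σ * z) 1 σ 0 0 :=
  ⟨fun _ => io K 0, 0, DL.const 0 0, fun z _ => by simp⟩

theorem E3.aff_inv (σ : ℂ) : E3 D (fun z => (1 + io K σ * z)⁻¹) 1 (-σ) (σ ^ 2) (-σ ^ 3) := by
  have h1 : DL D (fun x => 1 + io K σ * x) 0 1 σ :=
    (DL.aff (D := D) 0 1 σ).congr (fun x _ => by simp) (by simp) rfl
  refine ⟨_, _, ((DL.const 0 (-σ ^ 3)).mul (h1.inv one_ne_zero)).congr (fun _ _ => rfl) (by simp) rfl,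
    fun z hz => ?_⟩
  have := (h1 z z hz hz).1.ne_zero one_ne_zero
  simp only [map_neg, map_pow, map_one]
  field_simp
  ring

theorem E3.aff_zpow (σ : ℂ) (k : ℤ) : E3 D (fun z => (1 + io K σ * z) ^ k) 1 (k * σ)
    (k * (k - 1) / 2 * σ ^ 2) (k * (k - 1) * (k - 2) / 6 * σ ^ 3) := by
  have h1 : ∀ z, Lim D z 0 → 1 + io K σ * z ≠ 0 := fun z hz =>
    (Lim.one.add ((Lim.const σ).mul hz)).ne_zero (by simp)
  induction k using Int.induction_on with
  | zero => exact (E3.aff 0).congr (fun z _ => by simp) rfl (by simp) (by simp) (by simp)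
  | succ n ih =>
    refine (ih.mul (E3.aff σ)).congr (fun z hz => ?_) (by simp) ?_ ?_ ?_
    · rw [zpow_add_one₀ (h1 z hz)]
    all_goals push_cast; ring
  | pred n ih =>
    refine (ih.mul (E3.aff_inv σ)).congr (fun z hz => ?_) (by simp) ?_ ?_ ?_
    · rw [zpow_sub_one₀ (h1 z hz)]
    all_goals push_cast; ring

theorem fold_aux {F : K → K} {f0 f2 f3 : ℂ} (h : E3 D F f0 0 f2 f3) (hf : f2 ≠ 0) {z z' : K}
    (hz : Lim D z 0) (hz' : Lim D z' 0) (hne : z ≠ z') (hF : F z = F z') (h0 : z ≠ 0)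
    (hle : D.v z' ≤ D.v z) :
    Lim D (z' / z) (-1) ∧ Lim D ((z + z') / z ^ 2) (-(f3 / f2)) := by
  obtain ⟨R, d, hR, h⟩ := h
  obtain ⟨hR1, δ, hδ, hδ'⟩ := hR z' z hz' hz
  have hv0 : D.v z ≠ 0 := by simpa using h0
  have hρ : D.v (z' / z) ≤ 1 := by
    rw [map_div₀]
    exact div_le_one_of_le₀ hle zero_le'
  obtain ⟨ρ, hρ⟩ := exists_lim hρ
  have hf' : io K f2 ≠ 0 := io_ne_zero hf
  have key : (z + z') / z ^ 2 = -((1 + z' / z + (z' / z) ^ 2) * R z' + z * δ) / io K f2 := by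
    rw [h z hz, h z' hz'] at hF
    have hs : z' - z ≠ 0 := sub_ne_zero.2 hne.symm
    simp only [map_zero] at hF
    field_simp
    apply mul_left_cancel₀ hs
    linear_combination -hF - z ^ 3 * hδ'
  have h2 : Lim D ((z + z') / z ^ 2) (-((1 + ρ + ρ ^ 2) * f3 + 0 * d) / f2) :=
    (((((Lim.one.add hρ).add (hρ.pow 2)).mul hR1).add (hz.mul hδ)).neg.div (Lim.const f2) hf).congr
      key.symm rfl
  have h3 : Lim D (z' / z) (-1) := by
    refine ((hz.mul h2).sub Lim.one).congr ?_ (by simp)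
    field_simp
    ring
  have h4 : ρ = -1 := hρ.unique h3
  refine ⟨h3, h2.congr rfl ?_⟩
  rw [h4]; ring

/-- deck transformation at a simple critical point -/
theorem fold {F : K → K} {f0 f2 f3 : ℂ} (h : E3 D F f0 0 f2 f3) (hf : f2 ≠ 0) {z z' : K}
    (hz : Lim D z 0) (hz' : Lim D z' 0) (hne : z ≠ z') (hF : F z = F z') :
    z ≠ 0 ∧ Lim D (z' / z) (-1) ∧ Lim D ((z + z') / z ^ 2) (-(f3 / f2)) := by
  rcases le_total (D.v z') (D.v z) with hle | hle
  · have h0 : z ≠ 0 := by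
      rintro rfl
      rw [map_zero, le_zero_iff, map_eq_zero] at hle
      exact hne hle.symm
    exact ⟨h0, fold_aux h hf hz hz' hne hF h0 hle⟩
  · have h0 : z' ≠ 0 := by
      rintro rfl
      rw [map_zero, le_zero_iff, map_eq_zero] at hle
      exact hne hle
    obtain ⟨h1, -⟩ := fold_aux h hf hz' hz hne.symm hF.symm h0 hle
    have h2 := h1.v_eq (by simp)
    have hz0 : z ≠ 0 := by
      rintro rfl
      simp at h2
    refine ⟨hz0, fold_aux h hf hz hz' hne hF hz0 ?_⟩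
    rw [map_div₀, div_eq_one_iff_eq (by simpa using h0)] at h2
    exact h2.ge

end Vale.Agent.P097A.Loc
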