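import Vale.Agent.P097A.Loc1

/-!
# P097A, LOC, part 2: two points on the same line with the same centre
-/

set_option linter.all false

noncomputable section

namespace Vale.Agent.P097A.Loc

variable {K : Type} [Field K] [Algebra ℂ K] {Γ : Type} [LinearOrderedCommGroupWithZero Γ]
  {D : ValData K Γ} {α β : ℤ}

/-- not a constant -/
def NC (x : K) : Prop := ∀ c : ℂ, x ≠ io K c

theorem NC.of_moved {x : K} (h : D.g x ≠ x) : NC x := by
  rintro c rfl
  exact h (AlgEquiv.commutes _ _)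

theorem NC.g {x : K} (h : NC x) : NC (D.g x) := by
  intro c hc
  apply h c
  apply D.g.injective
  rw [hc, AlgEquiv.commutes]

theorem NC.ne0 {x : K} (h : NC x) : x ≠ 0 := fun h0 => h 0 (by rw [h0, io_zero])

theorem NC.sub_ne {x : K} (h : NC x) (c : ℂ) : x - io K c ≠ 0 := sub_ne_zero.2 (h c)

theorem NC.one_sub {x : K} (h : NC x) : 1 - x ≠ 0 := fun h0 =>
  h 1 (by rw [io_one]; linear_combination -h0)

theorem eq_one_of_cop {ζ : ℂ} {a b : ℤ} (h0 : ζ ≠ 0) (ha : ζ ^ a = 1) (hb : ζ ^ b = 1)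
    (h : IsCoprime a b) : ζ = 1 := by
  obtain ⟨u, w, huw⟩ := h
  have : ζ ^ (u * a + w * b) = 1 := by
    rw [zpow_add₀ h0, mul_comm u, mul_comm w, zpow_mul, zpow_mul, ha, hb]; simp
  rwa [huw, zpow_one] at this

/-- the slope of the tangent -/
def mm (α β : ℤ) : ℂ := (β : ℂ) / (α : ℂ)

/-- the quadratic coefficient of the deck transformation at the tangent -/
def bb (α β : ℤ) : ℂ := 2 / 3 * (2 * mm α β - 1) / (mm α β * (1 - mm α β))

theorem g_kap (x : K) : D.g (kap α β x) = kap α β (D.g x) := by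
  simp [kap, map_zpow₀]

theorem io_kap (c : ℂ) : io K (kap α β c) = kap α β (io K c) := by
  simp [kap, map_zpow₀]

theorem kap_ne_zero {c : ℂ} (h0 : c ≠ 0) (h1 : c ≠ 1) : kap α β c ≠ 0 :=
  mul_ne_zero (zpow_ne_zero _ (sub_ne_zero.2 h1.symm)) (zpow_ne_zero _ h0)

theorem kap_DL {c : ℂ} (ha : α ≠ 0) (h0 : c ≠ 0) (h1 : c ≠ 1) : ∃ d : ℂ,
    DL D (kap α β) c (kap α β c) d ∧ (c ≠ mm α β → d ≠ 0) := by
  have h1' : 1 + -1 * c ≠ 0 := fun h => h1 (by linear_combination -h)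
  have h2 := ((DL.aff (D := D) (K := K) c 1 (-1)).zpow h1' (β - α)).mul
    ((DL.id (D := D) (K := K) c).zpow h0 (-β))
  refine ⟨_, h2.congr (fun x _ => ?_) ?_ rfl, fun hc => ?_⟩
  · simp [kap, sub_eq_add_neg]
  · simp [kap, sub_eq_add_neg]
  · rw [zpow_sub_one₀ h1', zpow_sub_one₀ h0]
    have hA := zpow_ne_zero (β - α) h1'
    have hB := zpow_ne_zero (-β) h0
    set A := (1 + -1 * c) ^ (β - α)
    set B := c ^ (-β)
    have haC : (α : ℂ) ≠ 0 := by exact_mod_cast ha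
    have h3 : (α : ℂ) * c - β ≠ 0 := by
      intro h
      apply hc
      rw [mm, eq_div_iff haC]
      linear_combination h
    have : ((β - α : ℤ) : ℂ) * (A * (1 + -1 * c)⁻¹) * -1 * B + A * (((-β : ℤ) : ℂ) * (B * c⁻¹) * 1)
        = A * B * ((α : ℂ) * c - β) / ((1 + -1 * c) * c) := by
      have h1'' : 1 - c ≠ 0 := sub_ne_zero.2 (Ne.symm h1)
      have e : 1 + -1 * c = 1 - c := by ring
      rw [e]
      push_cast
      field_simp
      ring
    rw [this]
    exact div_ne_zero (mul_ne_zero (mul_ne_zero hA hB) h3) (mul_ne_zero h1' h0)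

theorem lim_kap {x : K} {c : ℂ} (ha : α ≠ 0) (h0 : c ≠ 0) (h1 : c ≠ 1) (hx : Lim D x c) :
    Lim D (kap α β x) (kap α β c) := by
  obtain ⟨d, hd, -⟩ := kap_DL (D := D) (K := K) (β := β) ha h0 h1
  exact (hd x x hx hx).1

theorem v_kap_eq {x : K} {c : ℂ} (ha : α ≠ 0) (h0 : c ≠ 0) (h1 : c ≠ 1) (hx : Lim D x c) :
    D.v (kap α β x) = 1 := (lim_kap ha h0 h1 hx).v_eq (kap_ne_zero h0 h1)

theorem lim_inv_of_big {x : K} (h : 1 < D.v x) : Lim D x⁻¹ 0 := by
  rw [lim_zero, map_inv₀]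
  exact inv_lt_one_of_one_lt₀ h

theorem big_of_lim_inv {x : K} (h0 : x ≠ 0) (h : Lim D x⁻¹ 0) : 1 < D.v x := by
  rw [lim_zero, map_inv₀] at h
  have h1 : D.v x ≠ 0 := by simpa using h0
  exact (inv_lt_one₀ (zero_lt_iff.2 h1)).1 h

theorem ne_zero_of_big {x : K} (h : 1 < D.v x) : x ≠ 0 := by
  rintro rfl
  simp at h

theorem v_kap_zero {x : K} (hb : β ≠ 0) (hx : Lim D x 0) : D.v (kap α β x) ≠ 1 := by
  intro h
  have h1 : Lim D (1 - x) 1 := (Lim.one.sub hx).congr rfl (by simp)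
  rw [kap, map_mul, map_zpow₀, map_zpow₀, h1.v_eq one_ne_zero, one_zpow, one_mul] at h
  have := eq_one_of_zpow (neg_ne_zero.2 hb) h
  rw [lim_zero, this] at hx
  exact lt_irrefl _ hx

theorem v_kap_big {x : K} (ha : α ≠ 0) (hx : 1 < D.v x) : D.v (kap α β x) ≠ 1 := by
  intro h
  have h0 := ne_zero_of_big hx
  have h1 : Lim D (x⁻¹ - 1) (-1) := ((lim_inv_of_big hx).sub Lim.one).congr rfl (by simp)
  have h2 : 1 - x = (x⁻¹ - 1) * x := by field_simp
  have hv : D.v x ≠ 0 := by simpa using h0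
  rw [kap, h2, map_mul, map_zpow₀, map_zpow₀, map_mul, h1.v_eq (by simp), one_mul,
    ← zpow_add₀ hv] at h
  have := eq_one_of_zpow (by omega) h
  rw [this] at hx
  exact lt_irrefl _ hx

theorem mm_ne {euc : Bool} (G : Good euc α β) : mm α β ≠ 0 ∧ mm α β ≠ 1 := by
  have ha : (α : ℂ) ≠ 0 := by exact_mod_cast G.a0
  have hb : (β : ℂ) ≠ 0 := by exact_mod_cast G.b0
  refine ⟨div_ne_zero hb ha, fun h => ?_⟩
  rw [mm, div_eq_one_iff_eq ha] at h
  exact G.ab (by exact_mod_cast h.symm)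

theorem kap_E3 {euc : Bool} (G : Good euc α β) : ∃ f2 f3 : ℂ, f2 ≠ 0 ∧ f3 / f2 = bb α β ∧
    E3 D (fun z => kap α β (io K (mm α β) + z)) (kap α β (mm α β)) 0 f2 f3 := by
  obtain ⟨hm0, hm1⟩ := mm_ne G
  have ha : (α : ℂ) ≠ 0 := by exact_mod_cast G.a0
  set m := mm α β with hm
  have hm1' : 1 - m ≠ 0 := sub_ne_zero.2 hm1.symm
  have hβ : (β : ℂ) = α * m := by rw [hm, mm]; field_simp
  have hk := kap_ne_zero (α := α) (β := β) hm0 hm1
  have hc : E3 D (fun _ : K => io K (kap α β m)) (kap α β m) 0 0 0 :=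
    ⟨fun _ => io K 0, 0, DL.const 0 0, fun z _ => by simp⟩
  have h := hc.mul ((E3.aff_zpow (D := D) (K := K) (-(1 - m)⁻¹) (β - α)).mul
    (E3.aff_zpow (D := D) (K := K) m⁻¹ (-β)))
  refine ⟨kap α β m * (α / (2 * (1 - m) * m)), kap α β m * (α / (2 * (1 - m) * m)) * bb α β, ?_, ?_,
    h.congr (fun z _ => ?_) (by ring) ?_ ?_ ?_⟩
  · exact mul_ne_zero hk (div_ne_zero ha (mul_ne_zero (mul_ne_zero two_ne_zero hm1') hm0))
  · have : kap α β m * (α / (2 * (1 - m) * m)) ≠ 0 :=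
      mul_ne_zero hk (div_ne_zero ha (mul_ne_zero (mul_ne_zero two_ne_zero hm1') hm0))
    field_simp
  · have e0 : io K m ≠ 0 := io_ne_zero hm0
    have e1 : 1 - io K m ≠ 0 := by
      have := io_ne_zero (K := K) hm1'
      simpa using this
    have a1 : 1 - (io K m + z) = (1 - io K m) * (1 + io K (-(1 - m)⁻¹) * z) := by
      simp only [map_neg, map_inv₀, map_sub, map_one]; field_simp; ring
    have a2 : io K m + z = io K m * (1 + io K m⁻¹ * z) := by
      simp only [map_inv₀]; field_simp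
    rw [io_kap, kap, kap, a1]
    conv_rhs => rw [a2]
    rw [mul_zpow, mul_zpow]
    ring
  · push_cast; rw [hβ]; field_simp; ring
  · push_cast; rw [hβ]; field_simp; ring
  · rw [bb, ← hm]; push_cast; rw [hβ]; field_simp; ring

variable (D α β) in
def PM (x y : K) : Prop := Lim D x (mm α β) ∧ Lim D y (mm α β) ∧
  Lim D ((y - io K (mm α β)) / (x - io K (mm α β))) (-1) ∧
  Lim D (((x - io K (mm α β)) + (y - io K (mm α β))) / (x - io K (mm α β)) ^ 2) (-bb α β)

variable (D α β) in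
def P0 (x y : K) : Prop := Lim D x 0 ∧ Lim D y 0 ∧ ∃ ζ : ℂ, ζ ≠ 0 ∧ ζ ≠ 1 ∧ ζ ^ β = 1 ∧
  Lim D (y / x) ζ ∧ Lim D (y⁻¹ - io K ζ⁻¹ * x⁻¹) ((1 - (mm α β)⁻¹) - ζ⁻¹ * (1 - (mm α β)⁻¹))

variable (D α β) in
def P1 (x y : K) : Prop := Lim D x 1 ∧ Lim D y 1 ∧ ∃ ζ : ℂ, ζ ≠ 0 ∧ ζ ≠ 1 ∧ ζ ^ (β - α) = 1 ∧
  Lim D ((y - io K 1) / (x - io K 1)) ζ

variable (D α β) in
def PI (x y : K) : Prop := 1 < D.v x ∧ 1 < D.v y ∧ ∃ ξ : ℂ, ξ ≠ 0 ∧ ξ ≠ 1 ∧ ξ ^ α = 1 ∧
  Lim D (y / x) ξ ∧ Lim D (y - io K ξ * x) ((1 - mm α β) - ξ * (1 - mm α β))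

variable (D) in
def Same (x y : K) : Prop := (∃ c, Lim D x c ∧ Lim D y c) ∨ (1 < D.v x ∧ 1 < D.v y)

theorem same_g (x : K) : Same D x (D.g x) := by
  rcases le_or_gt (D.v x) 1 with h | h
  · obtain ⟨c, hc⟩ := exists_lim h
    exact Or.inl ⟨c, hc, hc.g⟩
  · exact Or.inr ⟨h, by rwa [D.v_g]⟩

theorem pair {euc : Bool} (G : Good euc α β) {x y : K} (hx : NC x) (hy : NC y) (hne : x ≠ y)
    (hs : Same D x y) (hk : kap α β x = kap α β y) :
    PM D α β x y ∨ P0 D α β x y ∨ P1 D α β x y ∨ PI D α β x y := by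
  obtain ⟨hm0, hm1⟩ := mm_ne G
  have ha : (α : ℂ) ≠ 0 := by exact_mod_cast G.a0
  have hb : (β : ℂ) ≠ 0 := by exact_mod_cast G.b0
  rcases hs with ⟨c, hc, hc'⟩ | ⟨h, h'⟩
  · by_cases h0 : c = 0
    · subst h0
      right; left
      obtain ⟨ζ, a1, a2, a3, a4, a5⟩ := deck (D := D) (e := -β) (k := β - α) (σ := -1)
        (neg_ne_zero.2 G.b0) hc hc' hx.ne0 hy.ne0 hne (by
          simp only [kap] at hk
          simp only [map_neg, map_one, neg_one_mul, ← sub_eq_add_neg]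
          linear_combination hk)
      refine ⟨hc, hc', ζ, a1, a2, by rw [zpow_neg] at a3; simpa using a3, a4, a5.congr rfl ?_⟩
      rw [mm]; push_cast; field_simp
    by_cases h1 : c = 1
    · subst h1
      right; right; left
      have hz : Lim D (x - io K 1) 0 := (hc.sub (Lim.const 1)).congr rfl (by simp)
      have hz' : Lim D (y - io K 1) 0 := (hc'.sub (Lim.const 1)).congr rfl (by simp)
      obtain ⟨ζ, a1, a2, a3, a4, -⟩ := deck (D := D) (e := β - α) (k := -β) (σ := 1)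
        (sub_ne_zero.2 G.ab.symm) hz hz' (hx.sub_ne 1) (hy.sub_ne 1)
        (fun h => hne (by linear_combination h)) (by
          simp only [kap] at hk
          simp only [map_one, one_mul, add_sub_cancel]
          have e1 : x - 1 = -1 * (1 - x) := by ring
          have e2 : y - 1 = -1 * (1 - y) := by ring
          rw [e1, e2, mul_zpow, mul_zpow]
          linear_combination (-1 : K) ^ (β - α) * hk)
      exact ⟨hc, hc', ζ, a1, a2, a3, a4⟩
    by_cases h2 : c = mm α β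
    · subst h2
      left
      obtain ⟨f2, f3, b1, b2, b3⟩ := kap_E3 (D := D) (K := K) G
      have hz : Lim D (x - io K (mm α β)) 0 := (hc.sub (Lim.const _)).congr rfl (by simp)
      have hz' : Lim D (y - io K (mm α β)) 0 := (hc'.sub (Lim.const _)).congr rfl (by simp)
      obtain ⟨-, c2, c3⟩ := fold b3 b1 hz hz' (fun h => hne (by linear_combination h))
        (by simpa using hk)
      exact ⟨hc, hc', c2, c3.congr rfl (by rw [b2])⟩
    · exfalso
      obtain ⟨d, hd, hd0⟩ := kap_DL (D := D) (K := K) (β := β) G.a0 h0 h1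
      obtain ⟨-, δ, hδ, hδ'⟩ := hd x y hc hc'
      rw [hk, sub_self] at hδ'
      exact mul_ne_zero (sub_ne_zero.2 hne) (hδ.ne_zero (hd0 h2)) hδ'.symm
  · right; right; right
    have hx0 := hx.ne0
    have hy0 := hy.ne0
    have aux : ∀ x : K, x ≠ 0 → x⁻¹ ^ α * (1 + io K (-1) * x⁻¹) ^ (β - α) =
        (-1) ^ (β - α) * kap α β x := by
      intro x hx0
      have e1 : 1 + io K (-1) * x⁻¹ = -1 * (1 - x) * x⁻¹ := by
        simp only [map_neg, map_one]; field_simp; ring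
      have e2 : x⁻¹ ^ α * x⁻¹ ^ (β - α) = x ^ (-β) := by
        rw [← zpow_add₀ (inv_ne_zero hx0), inv_zpow', add_sub_cancel]
      rw [e1, mul_zpow, mul_zpow, kap, ← e2]
      ring
    obtain ⟨ζ, a1, a2, a3, a4, a5⟩ := deck (D := D) (e := α) (k := β - α) (σ := -1)
      G.a0 (lim_inv_of_big h) (lim_inv_of_big h') (inv_ne_zero hx0) (inv_ne_zero hy0)
      (fun h => hne (inv_injective h)) (by rw [aux x hx0, aux y hy0, hk])
    refine ⟨h, h', ζ⁻¹, inv_ne_zero a1, fun h => a2 (inv_eq_one.1 h), by rw [inv_zpow, a3, inv_one],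
      (a4.inv a1).congr (by field_simp) rfl, a5.congr (by simp) ?_⟩
    rw [mm]; push_cast; field_simp; ring

/-- the ratio of the displacements of the line, at a point which is not critical -/
theorem ratio_reg {x y : K} {c ζ : ℂ} (ha : α ≠ 0) (h0 : c ≠ 0) (h1 : c ≠ 1) (h2 : c ≠ mm α β)
    (hx : Lim D x c) (hy : Lim D y c) (hn : NC x)
    (h : Lim D ((y - io K c) / (x - io K c)) ζ) :
    Lim D ((kap α β y - io K (kap α β c)) / (kap α β x - io K (kap α β c))) ζ := by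
  obtain ⟨d, hd, hd0⟩ := kap_DL (D := D) (K := K) (β := β) ha h0 h1
  obtain ⟨-, δ, hδ, hδ'⟩ := hd x (io K c) hx (Lim.const c)
  obtain ⟨-, ε, hε, hε'⟩ := hd y (io K c) hy (Lim.const c)
  have := hδ.ne_zero (hd0 h2)
  have := hn.sub_ne c
  have := hd0 h2
  refine (h.mul (hε.div hδ (hd0 h2))).congr ?_ ?_
  · rw [io_kap, hδ', hε']; field_simp
  · field_simp

/-- the same at the tangent -/
theorem ratio_fold {euc : Bool} (G : Good euc α β) {x y : K} (hx : Lim D x (mm α β))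
    (hy : Lim D y (mm α β)) (hn : NC x)
    (h : Lim D ((y - io K (mm α β)) / (x - io K (mm α β))) (-1)) :
    Lim D ((kap α β y - io K (kap α β (mm α β))) / (kap α β x - io K (kap α β (mm α β)))) 1 := by
  obtain ⟨f2, f3, b1, -, R, d, hR, b3⟩ := kap_E3 (D := D) (K := K) G
  have hz : Lim D (x - io K (mm α β)) 0 := (hx.sub (Lim.const _)).congr rfl (by simp)
  have hz' : Lim D (y - io K (mm α β)) 0 := (hy.sub (Lim.const _)).congr rfl (by simp)
  have e1 := b3 _ hz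
  have e2 := b3 _ hz'
  simp only [add_sub_cancel, map_zero, zero_mul, add_zero] at e1 e2
  have l1 := (Lim.const f2).add (hz.mul (hR _ _ hz hz).1)
  have l2 := (Lim.const f2).add (hz'.mul (hR _ _ hz' hz').1)
  have n1 : f2 + 0 * f3 ≠ 0 := by simpa using b1
  have := l1.ne_zero n1
  have := hn.sub_ne (mm α β)
  refine ((h.pow 2).mul (l2.div l1 n1)).congr ?_ ?_
  · have e3 : kap α β x - io K (kap α β (mm α β)) = (x - io K (mm α β)) ^ 2 *
        (io K f2 + (x - io K (mm α β)) * R (x - io K (mm α β))) := by rw [e1]; ring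
    have e4 : kap α β y - io K (kap α β (mm α β)) = (y - io K (mm α β)) ^ 2 *
        (io K f2 + (y - io K (mm α β)) * R (y - io K (mm α β))) := by rw [e2]; ring
    rw [e3, e4, div_pow, mul_div_mul_comm]
  · field_simp

theorem mult_zero {x y : K} {ζ : ℂ} (hx : Lim D x 0) (hy : Lim D y 0) (hζ : ζ ≠ 0)
    (h : Lim D (y / x) ζ) : Lim D (kap α β y / kap α β x) (ζ ^ (-β)) := by
  have h1 : Lim D ((1 - y) / (1 - x)) 1 :=
    ((Lim.one.sub hy).div (Lim.one.sub hx) (by simp)).congr rfl (by simp)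
  refine ((h1.zpow one_ne_zero (β - α)).mul (h.zpow hζ (-β))).congr ?_ (by simp)
  rw [kap, kap, div_zpow, div_zpow, mul_div_mul_comm]

theorem mult_big {x y : K} {ξ : ℂ} (hx : 1 < D.v x) (hξ : ξ ≠ 0)
    (h : Lim D (y / x) ξ) : Lim D (kap α β y / kap α β x) (ξ ^ (-α)) := by
  have h0 := ne_zero_of_big hx
  have hi := lim_inv_of_big hx
  have h2 := (hi.sub Lim.one).ne_zero (by simp)
  have h3 : 1 - x ≠ 0 := by
    intro h
    apply h2
    have : x = 1 := by linear_combination -h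
    simp [this]
  have h1 : Lim D ((1 - y) / (1 - x)) ξ :=
    ((hi.sub h).div (hi.sub Lim.one) (by simp)).congr (by field_simp) (by simp)
  refine ((h1.zpow hξ (β - α)).mul (h.zpow hξ (-β))).congr ?_ ?_
  · rw [kap, kap, div_zpow, div_zpow, mul_div_mul_comm]
  · rw [← zpow_add₀ hξ]; congr 1; ring

/-- two commuting rotations -/
theorem rot_comm {Y W : K} {ζ ω p p' : ℂ} (h1 : Lim D (D.g Y - io K ζ * Y) (p - ζ * p))
    (h2 : Lim D (D.g W - io K ζ * W) (p - ζ * p)) (h3 : Lim D (W - io K ω * Y) (p' - ω * p'))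
    (hζ : ζ ≠ 1) (hω : ω ≠ 1) : p = p' := by
  have h4 := h3.g
  rw [map_sub, map_mul, AlgEquiv.commutes] at h4
  have h5 := ((h2.add ((Lim.const ζ).mul h3)).sub ((Lim.const ω).mul h1)).congr
    (y := D.g W - io K ω * D.g Y) (by ring) rfl
  have h6 := h4.unique h5
  have h7 : (ζ - 1) * (ω - 1) * (p - p') = 0 := by linear_combination -h6
  rcases mul_eq_zero.1 h7 with h | h
  · rcases mul_eq_zero.1 h with h | h
    · exact absurd (by linear_combination h) hζ
    · exact absurd (by linear_combination h) hω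
  · linear_combination h

/-- two commuting folds -/
theorem fold_comm {z w : K} {b b' : ℂ} (hz : z ≠ 0) (h1 : Lim D ((z + D.g z) / z ^ 2) (-b))
    (h2 : Lim D ((w + D.g w) / w ^ 2) (-b)) (h3 : Lim D ((z + w) / z ^ 2) b')
    (h4 : Lim D (w / z) (-1)) (h5 : Lim D (D.g z / z) (-1)) : b' = -b := by
  have hw : w ≠ 0 := by
    intro h0
    have := h4.ne_zero (by simp)
    simp [h0] at this
  have hgz : D.g z ≠ 0 := by simpa using hz
  have h6 := h3.g
  rw [map_div₀, map_add, map_pow] at h6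
  have h7 := (h1.add (h2.mul (h4.pow 2))).congr (y := (z + D.g z + w + D.g w) / z ^ 2)
    (by field_simp; ring) rfl
  have h8 := (h3.add (h6.mul (h5.pow 2))).congr (y := (z + D.g z + w + D.g w) / z ^ 2)
    (by field_simp; ring) rfl
  have h9 := h7.unique h8
  linear_combination (-1 / 2 : ℂ) * h9

end Vale.Agent.P097A.Loc
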