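import Vale.Agent.P097A.Loc2

/-!
# P097A, LOC, part 3: the Galilean case
-/

set_option linter.all false

noncomputable section

namespace Vale.Agent.P097A.Loc

variable {K : Type} [Field K] [Algebra ℂ K] {Γ : Type} [LinearOrderedCommGroupWithZero Γ]
  {D : ValData K Γ} {α β : ℤ}

theorem io_mm : io K (mm α β) = (β : K) / (α : K) := by simp [mm]

theorem refl_false (x : K) : refl false α β x = 2 * io K (mm α β) - x := by
  simp [refl, io_mm]

theorem refl_true (x : K) : refl true α β x = io K (mm α β) ^ 2 / x := by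
  simp [refl, io_mm]

theorem g_refl (euc : Bool) (x : K) : D.g (refl euc α β x) = refl euc α β (D.g x) := by
  cases euc
  · rw [refl_false, refl_false, map_sub, map_mul, AlgEquiv.commutes, map_ofNat]
  · rw [refl_true, refl_true, map_div₀, map_pow, AlgEquiv.commutes]

theorem not_big {x : K} {c : ℂ} (h : Lim D x c) : ¬ 1 < D.v x := not_lt.2 h.le

/-- a pair with a centre which is not critical does not exist -/
theorem no_pair {euc : Bool} (G : Good euc α β) {x y : K} {c : ℂ} (hx : NC x) (hy : NC y)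
    (hne : x ≠ y) (h : Lim D x c) (h' : Lim D y c) (hk : kap α β x = kap α β y) (h0 : c ≠ 0)
    (h1 : c ≠ 1) (h2 : c ≠ mm α β) : False := by
  rcases pair G hx hy hne (Or.inl ⟨c, h, h'⟩) hk with p | p | p | p
  · exact h2 (h.unique p.1)
  · exact h0 (h.unique p.1)
  · exact h1 (h.unique p.1)
  · exact not_big h p.1

theorem pair_m {euc : Bool} (G : Good euc α β) {x y : K} (hx : NC x) (hy : NC y)
    (hne : x ≠ y) (h : Lim D x (mm α β)) (h' : Lim D y (mm α β)) (hk : kap α β x = kap α β y) :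
    PM D α β x y := by
  obtain ⟨m0, m1⟩ := mm_ne G
  rcases pair G hx hy hne (Or.inl ⟨_, h, h'⟩) hk with p | p | p | p
  · exact p
  · exact absurd (h.unique p.1) m0
  · exact absurd (h.unique p.1) m1
  · exact absurd p.1 (not_big h)

theorem pair_big {euc : Bool} (G : Good euc α β) {x y : K} (hx : NC x) (hy : NC y)
    (hne : x ≠ y) (h : 1 < D.v x) (h' : 1 < D.v y) (hk : kap α β x = kap α β y) :
    PI D α β x y := by
  rcases pair G hx hy hne (Or.inr ⟨h, h'⟩) hk with p | p | p | p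
  · exact absurd h (not_big p.1)
  · exact absurd h (not_big p.1)
  · exact absurd h (not_big p.1)
  · exact p

theorem pair_zero {euc : Bool} (G : Good euc α β) {x y : K} (hx : NC x) (hy : NC y)
    (hne : x ≠ y) (h : Lim D x 0) (h' : Lim D y 0) (hk : kap α β x = kap α β y) :
    P0 D α β x y := by
  obtain ⟨m0, m1⟩ := mm_ne G
  rcases pair G hx hy hne (Or.inl ⟨_, h, h'⟩) hk with p | p | p | p
  · exact absurd (h.unique p.1) m0.symm
  · exact p
  · exact absurd (h.unique p.1) zero_ne_one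
  · exact absurd p.1 (not_big h)

theorem ratio_of_rot {x y : K} {ω c : ℂ} (hx : 1 < D.v x) (h : Lim D (y - io K ω * x) c) :
    Lim D (y / x) ω := by
  have h0 := ne_zero_of_big hx
  exact ((Lim.const ω).add (h.mul (lim_inv_of_big hx))).congr (by field_simp; ring) (by simp)

/-- the data of a moved point whose line has a finite nonzero centre -/
def Fin1 (D : ValData K Γ) (κ : K) (μ : ℂ) : Prop :=
  ∃ c : ℂ, c ≠ 0 ∧ Lim D κ c ∧ Lim D ((D.g κ - io K c) / (κ - io K c)) μ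

theorem Fin1.unique {κ : K} {μ μ' : ℂ} (h : Fin1 D κ μ) (h' : Fin1 D κ μ') : μ = μ' := by
  obtain ⟨c, -, h1, h2⟩ := h
  obtain ⟨c', -, h1', h2'⟩ := h'
  obtain rfl := h1.unique h1'
  exact h2.unique h2'

theorem Fin1.v {κ : K} {μ : ℂ} (h : Fin1 D κ μ) : D.v κ = 1 := by
  obtain ⟨c, h0, h1, -⟩ := h
  exact h1.v_eq h0

theorem fin1_reg {x : K} {c ζ : ℂ} (ha : α ≠ 0) (h0 : c ≠ 0) (h1 : c ≠ 1) (h2 : c ≠ mm α β)
    (hx : Lim D x c) (hn : NC x) (h : Lim D ((D.g x - io K c) / (x - io K c)) ζ) :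
    Fin1 D (kap α β x) ζ :=
  ⟨kap α β c, kap_ne_zero h0 h1, lim_kap ha h0 h1 hx, by
    rw [g_kap]; exact ratio_reg ha h0 h1 h2 hx hx.g hn h⟩

theorem fin1_fold {euc : Bool} (G : Good euc α β) {x : K} (hx : Lim D x (mm α β)) (hn : NC x)
    (h : Lim D ((D.g x - io K (mm α β)) / (x - io K (mm α β))) (-1)) :
    Fin1 D (kap α β x) 1 := by
  obtain ⟨m0, m1⟩ := mm_ne G
  exact ⟨kap α β (mm α β), kap_ne_zero m0 m1, lim_kap G.a0 m0 m1 hx, by
    rw [g_kap]; exact ratio_fold G hx hx.g hn h⟩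

namespace Gal

/-- the reflected slope -/
def rf (α β : ℤ) (x : K) : K := 2 * io K (mm α β) - x

theorem rf_inj {x y : K} (h : x ≠ y) : rf α β x ≠ rf α β y := fun h' =>
  h (by unfold rf at h'; linear_combination -h')

theorem nc_rf {x : K} (h : NC x) : NC (rf α β x) := fun c hc =>
  h (2 * mm α β - c) (by
    unfold rf at hc
    simp only [map_sub, map_mul, map_ofNat]
    linear_combination -hc)

theorem g_rf (x : K) : D.g (rf α β x) = rf α β (D.g x) := by
  rw [rf, rf, map_sub, map_mul, AlgEquiv.commutes, map_ofNat]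

theorem lim_rf {x : K} {c : ℂ} (h : Lim D x c) : Lim D (rf α β x) (2 * mm α β - c) :=
  ((Lim.const (2 * mm α β)).sub h).congr (by simp only [rf, map_mul, map_ofNat]) rfl

theorem big_rf {x : K} (h : 1 < D.v x) : 1 < D.v (rf α β x) := by
  by_contra h'
  obtain ⟨c, hc⟩ := exists_lim (not_lt.1 h')
  have := lim_rf (α := α) (β := β) hc
  exact not_big (this.congr (y := x) (by simp [rf]) rfl) h

theorem half (G : Good false α β) : 2 * mm α β - 1 ≠ 0 := by
  have ha : (α : ℂ) ≠ 0 := by exact_mod_cast G.a0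
  have hp : ((2 * β - α : ℤ) : ℂ) ≠ 0 := by exact_mod_cast (by simpa using G.par)
  intro h
  apply hp
  rw [mm] at h
  field_simp at h
  push_cast
  linear_combination h

theorem bb_ne (G : Good false α β) : bb α β ≠ 0 := by
  obtain ⟨m0, m1⟩ := mm_ne G
  exact div_ne_zero (mul_ne_zero (by norm_num) (half G)) (mul_ne_zero m0 (sub_ne_zero.2 m1.symm))

theorem fold_rf {x y : K} (hx : NC x) (p : PM D α β (rf α β x) (rf α β y)) :
    Lim D ((y - io K (mm α β)) / (x - io K (mm α β))) (-1) ∧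
    Lim D (((x - io K (mm α β)) + (y - io K (mm α β))) / (x - io K (mm α β)) ^ 2) (bb α β) := by
  have h0 := hx.sub_ne (mm α β)
  have e : ∀ x : K, rf α β x - io K (mm α β) = -(x - io K (mm α β)) := fun x => by
    unfold rf; ring
  obtain ⟨-, -, p1, p2⟩ := p
  rw [e, e] at p1 p2
  exact ⟨p1.congr (by field_simp) rfl, p2.neg.congr (by field_simp; ring) (by simp)⟩

theorem rot_rf {x y : K} (p : PI D α β (rf α β x) (rf α β y)) : ∃ ω : ℂ, ω ≠ 0 ∧ ω ≠ 1 ∧
    Lim D (y - io K ω * x) ((3 * mm α β - 1) - ω * (3 * mm α β - 1)) := by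
  obtain ⟨-, -, ω, p1, p2, -, -, p5⟩ := p
  refine ⟨ω, p1, p2, ((Lim.const (2 * mm α β * (1 - ω))).sub p5).congr ?_ (by ring)⟩
  simp only [rf, map_mul, map_sub, map_one, map_ofNat]
  ring

/-- the line at a moved point with finite centre -/
theorem fin_M (G : Good false α β) {x : K} (hx : NC x) (p : PM D α β x (D.g x)) :
    Fin1 D (kap α β (rf α β x)) 1 := by
  have h0 := hx.sub_ne (mm α β)
  refine fin1_fold G ((lim_rf p.1).congr rfl (by ring)) (nc_rf hx) ?_
  rw [g_rf]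
  refine p.2.2.1.congr ?_ rfl
  have e : ∀ x : K, rf α β x - io K (mm α β) = -(x - io K (mm α β)) := fun x => by
    unfold rf; ring
  rw [e, e, neg_div_neg_eq]

theorem fin_c (G : Good false α β) {x : K} {c ζ : ℂ} (hc : c = 0 ∨ c = 1) (hx : NC x)
    (h : Lim D x c) (h' : Lim D ((D.g x - io K c) / (x - io K c)) ζ) :
    (2 * mm α β - c ≠ 0 ∧ 2 * mm α β - c ≠ 1 ∧ 2 * mm α β - c ≠ mm α β) ∧
    Fin1 D (kap α β (rf α β x)) ζ := by
  obtain ⟨m0, m1⟩ := mm_ne G
  have m2 := half G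
  have a : 2 * mm α β - c ≠ 0 ∧ 2 * mm α β - c ≠ 1 ∧ 2 * mm α β - c ≠ mm α β := by
    rcases hc with rfl | rfl
    · exact ⟨fun h => m0 (by linear_combination h / 2), fun h => m2 (by linear_combination h),
        fun h => m0 (by linear_combination h)⟩
    · exact ⟨m2, fun h => m1 (by linear_combination h / 2), fun h => m1 (by linear_combination h)⟩
  refine ⟨a, fin1_reg G.a0 a.1 a.2.1 a.2.2 (lim_rf h) (nc_rf hx) ?_⟩
  rw [g_rf]
  refine h'.congr ?_ rfl
  have e : ∀ x : K, rf α β x - io K (2 * mm α β - c) = -(x - io K c) := fun x => by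
    simp only [rf, map_sub, map_mul, map_ofNat]; ring
  rw [e, e, neg_div_neg_eq]

theorem B (G : Good false α β) (x : K) (h1 : D.g (kap α β x) = kap α β x)
    (h2 : D.g (kap α β (rf α β x)) = kap α β (rf α β x)) : D.g x = x := by
  by_contra hm
  have hx := NC.of_moved hm
  rw [g_kap] at h1
  rw [g_kap, g_rf] at h2
  have n1 := nc_rf (α := α) (β := β) hx
  have n2 := nc_rf (α := α) (β := β) (hx.g (D := D))
  have ne := rf_inj (α := α) (β := β) (Ne.symm hm)
  rcases pair G hx hx.g (Ne.symm hm) (same_g x) h1.symm with p | p | p | p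
  · have q := pair_m G n1 n2 ne ((lim_rf p.1).congr rfl (by ring))
      ((lim_rf p.2.1).congr rfl (by ring)) h2.symm
    have := (fold_rf hx q).2.unique p.2.2.2
    exact bb_ne G (by linear_combination this / 2)
  · obtain ⟨p1, p2, ζ, -, -, -, p3, -⟩ := p
    obtain ⟨a, -⟩ := fin_c G (Or.inl rfl) hx p1 (ζ := ζ) (p3.congr (by simp) rfl)
    exact no_pair G n1 n2 ne (lim_rf p1) (lim_rf p2) h2.symm a.1 a.2.1 a.2.2
  · obtain ⟨p1, p2, ζ, -, -, -, p3⟩ := p
    obtain ⟨a, -⟩ := fin_c G (Or.inr rfl) hx p1 p3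
    exact no_pair G n1 n2 ne (lim_rf p1) (lim_rf p2) h2.symm a.1 a.2.1 a.2.2
  · obtain ⟨ω, -, w1, w2⟩ := rot_rf (pair_big G n1 n2 ne (big_rf p.1) (big_rf p.2.1) h2.symm)
    obtain ⟨p1, -, ξ, -, -, -, p3, p4⟩ := p
    obtain rfl := p3.unique (ratio_of_rot p1 w2)
    have := p4.unique w2
    have h3 : (1 - ξ) * (2 * mm α β - 1) = 0 := by linear_combination -this / 2
    exact mul_ne_zero (sub_ne_zero.2 w1.symm) (half G) h3

theorem S (G : Good false α β) (x y : K) (hne : x ≠ y)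
    (hk : kap α β (rf α β x) = kap α β (rf α β y)) (h1 : D.g (kap α β x) = kap α β x)
    (h2 : D.g (kap α β y) = kap α β y) : D.g (kap α β (rf α β x)) = kap α β (rf α β x) := by
  by_contra hm
  have mx : D.g x ≠ x := fun h => hm (by rw [g_kap, g_rf, h])
  have my : D.g y ≠ y := fun h => hm (by rw [hk, g_kap, g_rf, h])
  have hx := NC.of_moved mx
  have hy := NC.of_moved my
  rw [g_kap] at h1 h2
  have n1 := nc_rf (α := α) (β := β) hx
  have n2 := nc_rf (α := α) (β := β) hy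
  have ne := rf_inj (α := α) (β := β) hne
  have cop : IsCoprime β (β - α) := by
    obtain ⟨u, w, h⟩ := G.cop
    exact ⟨u + w, -u, by linear_combination h⟩
  have px := pair G hx hx.g (Ne.symm mx) (same_g x) h1.symm
  have py := pair G hy hy.g (Ne.symm my) (same_g y) h2.symm
  have f0 : ∀ {x : K}, NC x → P0 D α β x (D.g x) → ∃ ζ : ℂ, ζ ≠ 0 ∧ ζ ≠ 1 ∧ ζ ^ β = 1 ∧
      Fin1 D (kap α β (rf α β x)) ζ := by
    rintro x hx ⟨p1, p2, ζ, a1, a2, a3, p3, -⟩
    exact ⟨ζ, a1, a2, a3, (fin_c G (Or.inl rfl) hx p1 (p3.congr (by simp) rfl)).2⟩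
  have f1 : ∀ {x : K}, NC x → P1 D α β x (D.g x) → ∃ ζ : ℂ, ζ ≠ 0 ∧ ζ ≠ 1 ∧ ζ ^ (β - α) = 1 ∧
      Fin1 D (kap α β (rf α β x)) ζ := by
    rintro x hx ⟨p1, p2, ζ, a1, a2, a3, p3⟩
    exact ⟨ζ, a1, a2, a3, (fin_c G (Or.inr rfl) hx p1 p3).2⟩
  have fI : ∀ {x : K}, PI D α β x (D.g x) → D.v (kap α β (rf α β x)) ≠ 1 := fun p =>
    v_kap_big G.a0 (big_rf p.1)
  rcases px with p | p | p | p <;> rcases py with q | q | q | q
  · have r := fold_rf hx (pair_m G n1 n2 ne ((lim_rf p.1).congr rfl (by ring))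
      ((lim_rf q.1).congr rfl (by ring)) hk)
    have e : ∀ x : K, D.g (x - io K (mm α β)) = D.g x - io K (mm α β) := fun x => by
      rw [map_sub, AlgEquiv.commutes]
    have := fold_comm (D := D) (hx.sub_ne (mm α β)) (by rw [e]; exact p.2.2.2)
      (by rw [e]; exact q.2.2.2) r.2 r.1 (by rw [e]; exact p.2.2.1)
    exact bb_ne G (by linear_combination this / 2)
  · obtain ⟨ζ, -, a, -, b⟩ := f0 hy q
    exact a ((hk ▸ b).unique (fin_M G hx p))
  · obtain ⟨ζ, -, a, -, b⟩ := f1 hy q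
    exact a ((hk ▸ b).unique (fin_M G hx p))
  · exact fI q (hk ▸ (fin_M G hx p).v)
  · obtain ⟨ζ, -, a, -, b⟩ := f0 hx p
    exact a (b.unique (hk ▸ fin_M G hy q))
  · obtain ⟨p1, -, ζ, -, -, -, p3, -⟩ := p
    obtain ⟨a, -⟩ := fin_c G (Or.inl rfl) hx p1 (ζ := ζ) (p3.congr (by simp) rfl)
    exact no_pair G n1 n2 ne (lim_rf p1) (lim_rf q.1) hk a.1 a.2.1 a.2.2
  · obtain ⟨ζ, a0, a, a', b⟩ := f0 hx p
    obtain ⟨ζ', -, -, c', d⟩ := f1 hy q
    obtain rfl := b.unique (hk ▸ d)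
    exact a (eq_one_of_cop a0 a' c' cop)
  · obtain ⟨ζ, -, -, -, b⟩ := f0 hx p
    exact fI q (hk ▸ b.v)
  · obtain ⟨ζ, -, a, -, b⟩ := f1 hx p
    exact a (b.unique (hk ▸ fin_M G hy q))
  · obtain ⟨ζ, a0, a, a', b⟩ := f1 hx p
    obtain ⟨ζ', -, -, c', d⟩ := f0 hy q
    obtain rfl := b.unique (hk ▸ d)
    exact a (eq_one_of_cop a0 c' a' cop)
  · obtain ⟨p1, -, ζ, -, -, -, p3⟩ := p
    obtain ⟨a, -⟩ := fin_c G (Or.inr rfl) hx p1 p3
    exact no_pair G n1 n2 ne (lim_rf p1) (lim_rf q.1) hk a.1 a.2.1 a.2.2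
  · obtain ⟨ζ, -, -, -, b⟩ := f1 hx p
    exact fI q (hk ▸ b.v)
  · exact fI p (hk ▸ (fin_M G hy q).v)
  · obtain ⟨ζ, -, -, -, b⟩ := f0 hy q
    exact fI p (hk ▸ b.v)
  · obtain ⟨ζ, -, -, -, b⟩ := f1 hy q
    exact fI p (hk ▸ b.v)
  · obtain ⟨ω, w0, w1, w2⟩ := rot_rf (pair_big G n1 n2 ne (big_rf p.1) (big_rf q.1) hk)
    obtain ⟨p1, -, ξ, -, x1, -, p3, p4⟩ := p
    obtain ⟨-, -, ξ', -, -, -, q3, q4⟩ := q
    obtain rfl := (mult_transfer hx.ne0 w0 (ratio_of_rot p1 w2) p3).unique q3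
    have := rot_comm p4 q4 w2 x1 w1
    exact half G (by linear_combination -this / 2)

end Gal

end Vale.Agent.P097A.Loc
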