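import Vale.Agent.P097A.Spec

/-!
# P097A: common tools for the ramified places (rows RG1, RG2, RE)
-/

set_option linter.all false

noncomputable section

namespace Vale.Agent.P097A

open Filter Topology Set Metric

namespace RamG

/-! ### the first ramified coefficient -/

lemma order (a : ℕ) (v : ℂ → ℂ) (ζ : ℂ) (ha : 0 < a) (hζ : ζ ^ a = 1) (hv : AnalyticAt ℂ v 0)
    (h : ¬ ∀ᶠ τ in 𝓝 (0 : ℂ), v (ζ * τ) = v τ) :
    ∃ (k : ℕ) (r : ℂ → ℂ), 0 < k ∧ ¬ a ∣ k ∧ AnalyticAt ℂ r 0 ∧ r 0 ≠ 0 ∧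
      ∀ τ, v (ζ * τ) = v τ + τ ^ k * r τ := by
  have hl : AnalyticAt ℂ (fun τ : ℂ => ζ * τ) 0 := analyticAt_const.mul analyticAt_id
  have hd : AnalyticAt ℂ (fun τ => v (ζ * τ) - v τ) 0 :=
    (AnalyticAt.comp_of_eq (g := v) hv hl (by simp)).sub hv
  have hne : ¬ ∀ᶠ τ in 𝓝 (0 : ℂ), v (ζ * τ) - v τ = 0 := fun h' =>
    h (h'.mono fun τ hτ => sub_eq_zero.mp hτ)
  obtain ⟨k, g, hg, hg0, hk⟩ := hd.exists_eventuallyEq_pow_smul_nonzero_iff.mpr hne
  simp only [sub_zero, smul_eq_mul] at hk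
  have hk0 : 0 < k := by
    rcases Nat.eq_zero_or_pos k with h0 | h0
    · have := hk.self_of_nhds
      simp [h0] at this
      exact absurd this.symm hg0
    · exact h0
  classical
  have hev : (fun τ => if τ = 0 then g 0 else (v (ζ * τ) - v τ) / τ ^ k) =ᶠ[𝓝 0] g := by
    filter_upwards [hk] with τ hτ
    by_cases h0 : τ = 0
    · simp [h0]
    · rw [if_neg h0, hτ]
      field_simp
  refine ⟨k, fun τ => if τ = 0 then g 0 else (v (ζ * τ) - v τ) / τ ^ k, hk0, ?_,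
    hg.congr hev.symm, by simpa using hg0, fun τ => ?_⟩
  · rintro ⟨m, hm⟩
    have hζk : ζ ^ k = 1 := by rw [hm, pow_mul, hζ, one_pow]
    have ht : ∀ j : ℕ, Tendsto (fun τ : ℂ => ζ ^ j * τ) (𝓝 0) (𝓝 0) := fun j =>
      (continuous_const.mul continuous_id).tendsto' 0 0 (by simp)
    have hall : ∀ᶠ τ in 𝓝 (0 : ℂ), ∀ j ∈ Finset.range a,
        v (ζ * (ζ ^ j * τ)) - v (ζ ^ j * τ) = (ζ ^ j * τ) ^ k * g (ζ ^ j * τ) :=
      (Finset.range a).eventually_all.mpr fun j _ => (ht j).eventually hk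
    have hsum : ∀ᶠ τ in 𝓝[≠] (0 : ℂ), ∑ j ∈ Finset.range a, g (ζ ^ j * τ) = 0 := by
      filter_upwards [mem_nhdsWithin_of_mem_nhds hall, self_mem_nhdsWithin] with τ hτ h0
      have h1 : ∑ j ∈ Finset.range a, (v (ζ ^ (j + 1) * τ) - v (ζ ^ j * τ)) = 0 := by
        rw [Finset.sum_range_sub (fun j => v (ζ ^ j * τ)), hζ, pow_zero, sub_self]
      have h2 : τ ^ k * ∑ j ∈ Finset.range a, g (ζ ^ j * τ) = 0 := by
        rw [Finset.mul_sum, ← h1]
        refine Finset.sum_congr rfl fun j hj => ?_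
        have e : ζ ^ (j + 1) * τ = ζ * (ζ ^ j * τ) := by ring
        rw [e, hτ j hj, mul_pow, ← pow_mul, mul_comm j k, pow_mul, hζk, one_pow, one_mul]
      exact (mul_eq_zero.mp h2).resolve_left (pow_ne_zero _ h0)
    have hlim : Tendsto (fun τ : ℂ => ∑ j ∈ Finset.range a, g (ζ ^ j * τ)) (𝓝[≠] 0)
        (𝓝 (∑ j ∈ Finset.range a, g 0)) :=
      (tendsto_finset_sum _ fun j _ => hg.continuousAt.tendsto.comp (ht j)).mono_left
        nhdsWithin_le_nhds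
    have h3 := tendsto_nhds_unique (hlim.congr' hsum) tendsto_const_nhds
    simp only [Finset.sum_const, Finset.card_range, nsmul_eq_mul, mul_eq_zero,
      Nat.cast_eq_zero] at h3
    rcases h3 with h3 | h3
    · omega
    · exact hg0 h3
  · by_cases h0 : τ = 0
    · simp [h0, hk0.ne']
    · simp only [if_neg h0]
      field_simp
      ring

/-! ### powers of products -/

lemma mul_cpow_of {x y : ℂ} (hx : x ≠ 0) (hy : y ≠ 0)
    (h : |Complex.arg (x * y) - Complex.arg x - Complex.arg y| < 2 * Real.pi) (ν : ℂ) :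
    (x * y) ^ ν = x ^ ν * y ^ ν := by
  have hxy : x * y ≠ 0 := mul_ne_zero hx hy
  have h1 : Complex.exp (Complex.log (x * y)) = Complex.exp (Complex.log x + Complex.log y) := by
    rw [Complex.exp_add, Complex.exp_log hxy, Complex.exp_log hx, Complex.exp_log hy]
  obtain ⟨n, hn⟩ := Complex.exp_eq_exp_iff_exists_int.mp h1
  have h2 := congrArg Complex.im hn
  simp only [Complex.add_im, Complex.log_im, Complex.mul_im, Complex.intCast_re, Complex.mul_re,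
    Complex.re_ofNat, Complex.ofReal_re, Complex.im_ofNat, Complex.ofReal_im, mul_zero, sub_zero,
    zero_mul, add_zero, Complex.I_im, mul_one, Complex.I_re, Complex.intCast_im, sub_self] at h2
  have h3 : Complex.arg (x * y) - Complex.arg x - Complex.arg y = n * (2 * Real.pi) := by linarith
  rw [h3, abs_mul, abs_of_pos (by positivity : (0 : ℝ) < 2 * Real.pi)] at h
  have h4 : |(n : ℝ)| < 1 := by
    have hp : (0 : ℝ) < 2 * Real.pi := by positivity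
    nlinarith
  have h5 : n = 0 := by
    have : |n| < 1 := by exact_mod_cast h4
    exact Int.abs_lt_one_iff.mp this
  rw [h5] at hn
  simp only [Int.cast_zero, zero_mul, add_zero] at hn
  rw [Complex.cpow_def_of_ne_zero hxy, Complex.cpow_def_of_ne_zero hx,
    Complex.cpow_def_of_ne_zero hy, hn, add_mul, Complex.exp_add]

lemma ne_zero_of_re {x : ℂ} (h : 0 < x.re) : x ≠ 0 := fun h0 => by simp [h0] at h

lemma ne_zero_of_im {x : ℂ} (h : 0 < x.im) : x ≠ 0 := fun h0 => by simp [h0] at h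

lemma mul_cpow_re {x y : ℂ} (hx : 0 < x.re) (hy : 0 < y.re) (hxy : 0 < (x * y).re) (ν : ℂ) :
    (x * y) ^ ν = x ^ ν * y ^ ν := by
  refine mul_cpow_of (ne_zero_of_re hx) (ne_zero_of_re hy) ?_ ν
  have h1 := abs_lt.mp (Complex.abs_arg_lt_pi_div_two_iff.mpr (Or.inl hx))
  have h2 := abs_lt.mp (Complex.abs_arg_lt_pi_div_two_iff.mpr (Or.inl hy))
  have h3 := abs_lt.mp (Complex.abs_arg_lt_pi_div_two_iff.mpr (Or.inl hxy))
  have := Real.pi_pos
  rw [abs_lt]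
  constructor <;> linarith [h1.1, h1.2, h2.1, h2.2, h3.1, h3.2]

lemma mul_cpow_im {x y : ℂ} (hx : 0 < x.im) (hy : 0 < y.re) (hxy : 0 < (x * y).im) (ν : ℂ) :
    (x * y) ^ ν = x ^ ν * y ^ ν := by
  refine mul_cpow_of (ne_zero_of_im hx) (ne_zero_of_re hy) ?_ ν
  have h1 := Complex.arg_nonneg_iff.mpr hx.le
  have h1' := Complex.arg_le_pi x
  have h2 := abs_lt.mp (Complex.abs_arg_lt_pi_div_two_iff.mpr (Or.inl hy))
  have h3 := Complex.arg_nonneg_iff.mpr hxy.le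
  have h3' := Complex.arg_le_pi (x * y)
  have := Real.pi_pos
  rw [abs_lt]
  constructor <;> linarith [h2.1, h2.2]

/-! ### functions on the upper half plane which extend analytically to the origin -/

/-- `f` agrees near the origin, in the upper half plane, with an analytic function -/
def An (f : ℂ → ℂ) : Prop :=
  ∃ F : ℂ → ℂ, AnalyticAt ℂ F 0 ∧ ∀ᶠ s in 𝓝[{t : ℂ | 0 < t.im}] (0 : ℂ), f s = F s

lemma An.of_an {f : ℂ → ℂ} (h : AnalyticAt ℂ f 0) : An f := ⟨f, h, Eventually.of_forall fun _ => rfl⟩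

lemma An.congr {f g : ℂ → ℂ} (h : An f) (e : ∀ s : ℂ, 0 < s.im → f s = g s) : An g := by
  obtain ⟨F, h1, h2⟩ := h
  refine ⟨F, h1, ?_⟩
  filter_upwards [h2, self_mem_nhdsWithin] with s h3 h4
  rw [← e s h4, h3]

lemma An.add {f g : ℂ → ℂ} (h : An f) (h' : An g) : An (fun s => f s + g s) := by
  obtain ⟨F, h1, h2⟩ := h
  obtain ⟨G, h3, h4⟩ := h'
  refine ⟨fun s => F s + G s, h1.add h3, ?_⟩
  filter_upwards [h2, h4] with s h5 h6
  rw [h5, h6]

lemma An.mul {f g : ℂ → ℂ} (h : An f) (h' : An g) : An (fun s => f s * g s) := by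
  obtain ⟨F, h1, h2⟩ := h
  obtain ⟨G, h3, h4⟩ := h'
  refine ⟨fun s => F s * G s, h1.mul h3, ?_⟩
  filter_upwards [h2, h4] with s h5 h6
  rw [h5, h6]

lemma An.cmul {f : ℂ → ℂ} (c : ℂ) (h : An f) : An (fun s => c * f s) :=
  (An.of_an analyticAt_const).mul h

lemma An.sub {f g : ℂ → ℂ} (h : An f) (h' : An g) : An (fun s => f s - g s) :=
  (h.add (h'.cmul (-1))).congr fun s _ => by ring

lemma An.sum {ι : Type*} (t : Finset ι) (f : ι → ℂ → ℂ) (h : ∀ i ∈ t, An (f i)) :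
    An (fun s => ∑ i ∈ t, f i s) := by
  classical
  induction t using Finset.induction_on with
  | empty => simpa using An.of_an (analyticAt_const (v := (0 : ℂ)))
  | insert i t hi ih =>
    simp only [Finset.sum_insert hi]
    exact (h i (Finset.mem_insert_self _ _)).add
      (ih fun j hj => h j (Finset.mem_insert_of_mem hj))

lemma an_pow (hAN : Spec_AN) (ν : ℂ) (j : ℤ) (hj : j ≠ 0) : An (fun s => ((j : ℂ) + s) ^ ν) := by
  obtain ⟨F, h1, -, -, h2⟩ := hAN ν (j : ℝ) (by exact_mod_cast hj)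
  exact ⟨F, h1, by simpa using h2⟩

/-- only one term of the lattice sum is singular -/
lemma an_sum (hAN : Spec_AN) (ν : ℂ) (Q : ℂ → ℂ) (hQ : ∀ z, AnalyticAt ℂ Q z) (N : ℕ) (m : ℤ)
    (hm : -m ∈ Finset.Icc (-(N : ℤ)) N) :
    An (fun s => ∑ j ∈ Finset.Icc (-(N : ℤ)) N, Q ((j : ℂ) + s) * ((j : ℂ) + s + m) ^ ν -
      Q (-m + s) * s ^ ν) := by
  have h := An.sum ((Finset.Icc (-(N : ℤ)) N).erase (-m))
    (fun j s => Q ((j : ℂ) + s) * ((j : ℂ) + s + m) ^ ν) (fun j hj => by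
      have hj0 : j + m ≠ 0 := fun h0 => Finset.ne_of_mem_erase hj (by omega)
      have l : AnalyticAt ℂ (fun s : ℂ => (j : ℂ) + s) 0 := analyticAt_const.add analyticAt_id
      refine ((An.of_an (AnalyticAt.comp_of_eq (g := Q) (hQ _) l rfl)).mul
        (an_pow hAN ν (j + m) hj0)).congr fun s _ => ?_
      simp only [Function.comp_apply]
      congr 2
      push_cast
      ring)
  refine h.congr fun s _ => ?_
  rw [← Finset.add_sum_erase _ _ hm]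
  push_cast
  have e : -(m : ℂ) + s + m = s := by ring
  rw [e]
  ring

lemma An.int (hNP : Spec_NP) {ν c : ℂ} (hc : c ≠ 0) (h : An (fun s => c * s ^ ν)) :
    ∃ n : ℤ, ν = n := by
  obtain ⟨F, h1, h2⟩ := h
  refine hNP ν (fun _ => c) F analyticAt_const hc h1.meromorphicAt ?_
  filter_upwards [h2] with s hs
  rw [← hs, mul_comm]

/-! ### divided differences of a family -/

/-- slope of the incoming chord -/
def dA (F : ℂ × ℂ → ℂ) (q : ℂ × ℂ × ℂ × ℂ) : ℂ := dslope (fun y => F (q.1, y)) q.2.2.1 q.2.1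
/-- slope of the tangent -/
def dB (F : ℂ × ℂ → ℂ) (q : ℂ × ℂ × ℂ × ℂ) : ℂ := deriv (fun y => F (q.1, y)) q.2.2.1
/-- slope of the outgoing chord -/
def dC (F : ℂ × ℂ → ℂ) (q : ℂ × ℂ × ℂ × ℂ) : ℂ := dslope (fun y => F (q.1, y)) q.2.2.1 q.2.2.2

lemma an_q1 (z : ℂ × ℂ × ℂ × ℂ) : AnalyticAt ℂ (fun q : ℂ × ℂ × ℂ × ℂ => q.1) z := analyticAt_fst

lemma an_q21 (z : ℂ × ℂ × ℂ × ℂ) : AnalyticAt ℂ (fun q : ℂ × ℂ × ℂ × ℂ => q.2.1) z :=
  AnalyticAt.comp (g := Prod.fst) (f := fun q : ℂ × ℂ × ℂ × ℂ => q.2) analyticAt_fst analyticAt_snd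

lemma an_q22 (z : ℂ × ℂ × ℂ × ℂ) : AnalyticAt ℂ (fun q : ℂ × ℂ × ℂ × ℂ => q.2.2) z :=
  AnalyticAt.comp (g := Prod.snd) (f := fun q : ℂ × ℂ × ℂ × ℂ => q.2) analyticAt_snd analyticAt_snd

lemma an_q221 (z : ℂ × ℂ × ℂ × ℂ) : AnalyticAt ℂ (fun q : ℂ × ℂ × ℂ × ℂ => q.2.2.1) z :=
  AnalyticAt.comp (g := Prod.fst) (f := fun q : ℂ × ℂ × ℂ × ℂ => q.2.2) analyticAt_fst (an_q22 z)

lemma an_q222 (z : ℂ × ℂ × ℂ × ℂ) : AnalyticAt ℂ (fun q : ℂ × ℂ × ℂ × ℂ => q.2.2.2) z :=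
  AnalyticAt.comp (g := Prod.snd) (f := fun q : ℂ × ℂ × ℂ × ℂ => q.2.2) analyticAt_snd (an_q22 z)

lemma an_d (hDD : Spec_DD) {F : ℂ × ℂ → ℂ} {x : ℂ} (hF : AnalyticAt ℂ F (0, x)) :
    AnalyticAt ℂ (dA F) (0, x, x, x) ∧ AnalyticAt ℂ (dB F) (0, x, x, x) ∧
      AnalyticAt ℂ (dC F) (0, x, x, x) := by
  have h := hDD ℂ F 0 x hF
  refine ⟨?_, ?_, ?_⟩
  · exact AnalyticAt.comp_of_eq (f := fun q : ℂ × ℂ × ℂ × ℂ => (q.1, q.2.2.1, q.2.1)) h
      ((an_q1 _).prod ((an_q221 _).prod (an_q21 _))) rfl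
  · have := AnalyticAt.comp_of_eq (f := fun q : ℂ × ℂ × ℂ × ℂ => (q.1, q.2.2.1, q.2.2.1)) h
      ((an_q1 (0, x, x, x)).prod ((an_q221 _).prod (an_q221 _))) rfl
    refine this.congr (Eventually.of_forall fun q => ?_)
    simp only [Function.comp_apply, dslope_same, dB]
  · exact AnalyticAt.comp_of_eq (f := fun q : ℂ × ℂ × ℂ × ℂ => (q.1, q.2.2.1, q.2.2.2)) h
      ((an_q1 _).prod ((an_q221 _).prod (an_q222 _))) rfl

lemma dslope_lin {f g : ℂ → ℂ} {a : ℂ} (hf : DifferentiableAt ℂ f a) (hg : DifferentiableAt ℂ g a)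
    (c b : ℂ) : dslope (fun y => f y + c * g y) a b = dslope f a b + c * dslope g a b := by
  by_cases h : b = a
  · subst h
    simp only [dslope_same]
    exact (hf.hasDerivAt.add (hg.hasDerivAt.const_mul c)).deriv
  · simp only [dslope_of_ne _ h, slope_def_field]
    ring

lemma pert {F Ft : ℂ × ℂ → ℂ} {x ζ : ℂ} {k : ℕ} (hF : AnalyticAt ℂ F (0, x))
    (hFt : AnalyticAt ℂ Ft (0, x)) (h : ∀ ε y, F (ζ * ε, y) = F (ε, y) + ε ^ k * Ft (ε, y)) :
    ∀ᶠ q in 𝓝 ((0 : ℂ), x, x, x), dA F (ζ * q.1, q.2) = dA F q + q.1 ^ k * dA Ft q ∧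
      dB F (ζ * q.1, q.2) = dB F q + q.1 ^ k * dB Ft q ∧
      dC F (ζ * q.1, q.2) = dC F q + q.1 ^ k * dC Ft q := by
  have t : Tendsto (fun q : ℂ × ℂ × ℂ × ℂ => (q.1, q.2.2.1)) (𝓝 (0, x, x, x)) (𝓝 (0, x)) :=
    ((an_q1 (0, x, x, x)).prod (an_q221 _)).continuousAt
  filter_upwards [t.eventually hF.eventually_analyticAt, t.eventually hFt.eventually_analyticAt]
    with q h1 h2
  have l : AnalyticAt ℂ (fun y : ℂ => ((q.1, y) : ℂ × ℂ)) q.2.2.1 :=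
    analyticAt_const.prod analyticAt_id
  have d1 : DifferentiableAt ℂ (fun y => F (q.1, y)) q.2.2.1 :=
    (AnalyticAt.comp_of_eq (g := F) h1 l rfl).differentiableAt
  have d2 : DifferentiableAt ℂ (fun y => Ft (q.1, y)) q.2.2.1 :=
    (AnalyticAt.comp_of_eq (g := Ft) h2 l rfl).differentiableAt
  simp only [dA, dB, dC, h, ← dslope_same]
  exact ⟨dslope_lin d1 d2 _ _, dslope_lin d1 d2 _ _, dslope_lin d1 d2 _ _⟩

/-- the root `x ^ (1 / a)` -/
def rt (a : ℕ) (x : ℂ) : ℂ := x ^ ((a : ℂ)⁻¹)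

lemma rt_pow {a : ℕ} (ha : 0 < a) (x : ℂ) : rt a x ^ a = x := Complex.cpow_nat_inv_pow x ha.ne'

lemma rt_one (a : ℕ) : rt a 1 = 1 := Complex.one_cpow _

lemma rt_an (a : ℕ) : AnalyticAt ℂ (rt a) 1 :=
  analyticAt_id.cpow analyticAt_const (by simp [Complex.mem_slitPlane_iff])

lemma rt_deriv {a : ℕ} (ha : 0 < a) : deriv (rt a) 1 ≠ 0 := by
  have h : HasDerivAt (fun x : ℂ => x ^ ((a : ℂ)⁻¹)) ((a : ℂ)⁻¹ * (1 : ℂ) ^ ((a : ℂ)⁻¹ - 1) * 1) 1 :=
    (hasDerivAt_id (1 : ℂ)).cpow_const (by simp [Complex.mem_slitPlane_iff])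
  have e : deriv (rt a) 1 = _ := h.deriv
  rw [e]
  simp [ha.ne']

lemma rt_pow_k (a k : ℕ) (x : ℂ) : rt a x ^ k = x ^ ((k : ℂ) / a) := by
  rw [rt, ← Complex.cpow_nat_mul, div_eq_mul_inv]

lemma an_sc (α : ℤ) {v b : ℂ → ℂ} (hv : AnalyticAt ℂ v 0) (hb : AnalyticAt ℂ b 1) (hb1 : b 1 = 1) :
    AnalyticAt ℂ (fun p : ℂ × ℂ => sc α v b p.1 p.2) (0, 1) := by
  have h1 : AnalyticAt ℂ (fun p : ℂ × ℂ => b p.2) (0, 1) :=
    AnalyticAt.comp_of_eq (g := b) hb analyticAt_snd rfl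
  have h2 : AnalyticAt ℂ (fun p : ℂ × ℂ => v (p.1 * b p.2)) (0, 1) :=
    AnalyticAt.comp_of_eq (g := v) hv (analyticAt_fst.mul h1) (by simp)
  exact (h1.zpow (by simp [hb1])).mul h2

end RamG

end Vale.Agent.P097A
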