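import Vale.Agent.P097A.Defs

/-!
# P097A: the statements of the steps of the proof

Each step `X` is a `Prop` `Spec_X`; it is proved in its own file as
`theorem x (h1 : Spec_A) (h2 : Spec_B) : Spec_X`. See notes/P097/T1.md.
-/

set_option linter.all false

noncomputable section

namespace Vale.Agent.P097A

open Filter Topology Set Metric

/-! ## Block 1: power series in two variables -/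

/-- homogeneous parts of an analytic germ -/
def Spec_HOM : Prop := ∀ G : ℂ × ℂ → ℂ, AnalyticAt ℂ G 0 → ∀ k : ℕ, ∃ P : Polynomial ℂ,
  P.natDegree ≤ k ∧ ∀ s : ℂ, tc k (fun v => G (s * v, v)) = P.eval s

/-- a germ vanishing on the lines `η = n v` vanishes -/
def Spec_LINES : Prop := ∀ (G : ℂ × ℂ → ℂ) (n₀ : ℕ), AnalyticAt ℂ G 0 →
  (∀ n : ℕ, n₀ ≤ n → ∀ᶠ v in 𝓝 (0 : ℂ), G ((n : ℂ) * v, v) = 0) → ∀ᶠ p in 𝓝 (0 : ℂ × ℂ), G p = 0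

/-- summation of homogeneous parts bounded on a real segment (Bernstein), with a parameter -/
def Spec_SUM : Prop := ∀ (Ω : Set ℂ) (P : ℕ → ℂ → Polynomial ℂ) (M a S : ℝ), IsOpen Ω →
  0 < a → 0 < S → (∀ k, ∀ ε ∈ Ω, (P k ε).natDegree ≤ k) →
  (∀ k i, DifferentiableOn ℂ (fun ε => (P k ε).coeff i) Ω) →
  (∀ k, ∀ ε ∈ Ω, ∀ s : ℝ, 0 ≤ s → s ≤ S → ‖(P k ε).eval (s : ℂ)‖ ≤ M * a ^ k) →
  ∃ H : ℂ × ℂ × ℂ → ℂ,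
    AnalyticOnNhd ℂ H (Ω ×ˢ ball 0 (S / (14 * a)) ×ˢ ball 0 (1 / (14 * a))) ∧
    (∀ q ∈ Ω ×ˢ ball (0 : ℂ) (S / (14 * a)) ×ˢ ball (0 : ℂ) (1 / (14 * a)), ‖H q‖ ≤ 2 * M) ∧
    ∀ ε ∈ Ω, ∀ (s : ℂ) (k : ℕ), tc k (fun v => H (ε, s * v, v)) = (P k ε).eval s

/-- extension of a germ which extends along the real lines `η = s v`, `0 ≤ s ≤ S` -/
def Spec_EXT : Prop := ∀ (G : ℂ × ℂ → ℂ) (M r S : ℝ), AnalyticAt ℂ G 0 → 0 < r → 0 < S →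
  (∀ s : ℝ, 0 ≤ s → s ≤ S → ∃ g : ℂ → ℂ, DifferentiableOn ℂ g (ball 0 r) ∧
    (∀ v ∈ ball (0 : ℂ) r, ‖g v‖ ≤ M) ∧ ∀ᶠ v in 𝓝 (0 : ℂ), g v = G ((s : ℂ) * v, v)) →
  ∃ H : ℂ × ℂ → ℂ, AnalyticOnNhd ℂ H (ball 0 (S * r / 14) ×ˢ ball 0 (r / 14)) ∧
    (∀ p ∈ ball (0 : ℂ) (S * r / 14) ×ˢ ball (0 : ℂ) (r / 14), ‖H p‖ ≤ 2 * M) ∧
    ∀ᶠ p in 𝓝 (0 : ℂ × ℂ), H p = G p

/-! ## Block 2: divided differences, the step map, uniqueness -/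

/-- divided differences are jointly analytic -/
def Spec_DD : Prop := ∀ (P : Type) [NormedAddCommGroup P] [NormedSpace ℂ P]
  [FiniteDimensional ℂ P] (F : P × ℂ → ℂ) (p : P) (x : ℂ), AnalyticAt ℂ F (p, x) →
  AnalyticAt ℂ (fun q : P × ℂ × ℂ => dslope (fun y => F (q.1, y)) q.2.1 q.2.2) (p, x, x)

/-- the step map of a family of laws -/
def Spec_STEP : Prop := ∀ (E : ℂ × ℂ × ℂ × ℂ → ℂ) (ε x : ℂ), IsLawF E ε x →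
  ∃ J : ℂ × ℂ × ℂ → ℂ, AnalyticAt ℂ J (ε, x, x) ∧ J (ε, x, x) = x ∧
    (∀ᶠ q in 𝓝 (ε, x, x, x), E q = 0 ↔ q.2.2.2 = J (q.1, q.2.1, q.2.2.1)) ∧
    ∃ C : ℝ, ∀ᶠ q in 𝓝 (ε, x, x), ‖J q - (2 * q.2.2 - q.2.1)‖ ≤ C * ‖q.2.2 - q.2.1‖ ^ 2

/-- elementary facts on families of laws -/
def Spec_LAWF : Prop :=
  (∀ (E : ℂ × ℂ × ℂ × ℂ → ℂ) (ε x : ℂ), IsLawF E ε x →
    (∀ᶠ q in 𝓝 (ε, x), IsLawF E q.1 q.2) ∧ IsLaw (fun y => E (ε, y)) x) ∧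
  (∀ (E : ℂ × ℂ × ℂ → ℂ) (ε x : ℂ), IsLaw E x → IsLawF (fun q => E q.2) ε x)

/-- two solutions with the same first two points agree -/
def Spec_UNIQ : Prop := ∀ (E : ℂ × ℂ × ℂ → ℂ) (x : ℂ) (Θ₁ Θ₂ : ℂ × ℂ → ℂ), IsLaw E x →
  AnalyticAt ℂ Θ₁ 0 → AnalyticAt ℂ Θ₂ 0 → Θ₁ 0 = x → Θ₂ 0 = x → Solves E Θ₁ → Solves E Θ₂ →
  (∀ᶠ v in 𝓝 (0 : ℂ), Θ₁ (0, v) = Θ₂ (0, v) ∧ Θ₁ (v, v) = Θ₂ (v, v)) →
  ∀ᶠ p in 𝓝 (0 : ℂ × ℂ), Θ₁ p = Θ₂ p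

/-! ## Block 3: propagation, gauge, averaging over the scale -/

/-- integrability propagates along regular points -/
def Spec_PROP : Prop := ∀ (E : ℂ × ℂ × ℂ → ℂ) (D : Set ℂ), IsOpen D → IsPreconnected D →
  (∀ x ∈ D, IsLaw E x) → ∀ x₀ ∈ D, IntLaw E x₀ → ∀ x ∈ D, IntLaw E x

/-- gauge fixing -/
def Spec_GAUGE : Prop := ∀ (E : ℂ × ℂ × ℂ → ℂ) (E' : ℂ × ℂ × ℂ × ℂ → ℂ) (B : ℂ × ℂ → ℂ)
  (ε x : ℂ), AnalyticAt ℂ B (ε, x) → fderiv ℂ B (ε, x) (0, 1) ≠ 0 → IntLaw E (B (ε, x)) →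
  (∀ᶠ q in 𝓝 (ε, x, x, x),
    E (B (q.1, q.2.1), B (q.1, q.2.2.1), B (q.1, q.2.2.2)) = 0 → E' q = 0) →
  ∃ H, Gauged E' ε x H

/-- integrability on a circle of parameters gives integrability at the centre -/
def Spec_AVG : Prop := ∀ (E : ℂ × ℂ × ℂ × ℂ → ℂ) (x : ℂ) (ε₀ : ℝ), 0 < ε₀ →
  (∀ ε : ℂ, ‖ε‖ ≤ ε₀ → IsLawF E ε x) → (∀ ε : ℂ, ‖ε‖ = ε₀ → ∃ H, Gauged E ε x H) →
  ∃ H, Gauged E 0 x H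

/-! ## Block 4: the billiard laws -/

/-- basic properties of `lawZ`, `Reg`, `IntAt` -/
def Spec_LAW : Prop :=
  (∀ Z W x, Reg Z W x → IsLaw (lawZ Z W) x ∧ ∀ᶠ y in 𝓝 x, Reg Z W y) ∧
  (∀ (Z W Z' W' : ℂ → ℂ) (x : ℂ), Z =ᶠ[𝓝 x] Z' → W =ᶠ[𝓝 x] W' →
    (Reg Z W x → Reg Z' W' x) ∧ (IntAt Z W x → IntAt Z' W' x)) ∧
  (∀ (Z W : ℂ → ℂ) (x a b c d : ℂ), a ≠ 0 → c ≠ 0 →
    (Reg Z W x → Reg (fun τ => a * Z τ + b) (fun τ => c * W τ + d) x) ∧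
    (AnalyticAt ℂ Z x → AnalyticAt ℂ W x → IntAt Z W x →
      IntAt (fun τ => a * Z τ + b) (fun τ => c * W τ + d) x)) ∧
  (∀ Z W x, (Reg Z W x → Reg W Z x) ∧ (IntAt Z W x → IntAt W Z x)) ∧
  (∀ (Z W B : ℂ → ℂ) (x : ℂ), AnalyticAt ℂ B x → deriv B x ≠ 0 →
    AnalyticAt ℂ Z (B x) → AnalyticAt ℂ W (B x) →
    (Reg Z W (B x) ↔ Reg (Z ∘ B) (W ∘ B) x) ∧ (IntAt Z W (B x) ↔ IntAt (Z ∘ B) (W ∘ B) x))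

/-- the rescaled families at a place are integrable at `ε = 0` -/
def Spec_FAM : Prop :=
  (∀ (α β : ℤ) (z w b : ℂ → ℂ) (x : ℂ), α ≠ 0 → β ≠ 0 → α ≠ β → AnalyticAt ℂ z 0 →
    AnalyticAt ℂ w 0 → z 0 ≠ 0 → w 0 ≠ 0 → AnalyticAt ℂ b x → b x = 1 → deriv b x ≠ 0 →
    (∀ᶠ τ in 𝓝[≠] (0 : ℂ), IntAt (pw α z) (pw β w) τ) →
    IsLawF (famZ α β z w b) 0 x ∧ ∃ H, Gauged (famZ α β z w b) 0 x H) ∧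
  (∀ (α β : ℤ) (u v b : ℂ → ℂ) (x : ℂ), α ≠ 0 → β ≠ 0 → α < β → AnalyticAt ℂ u 0 →
    AnalyticAt ℂ v 0 → u 0 ≠ 0 → v 0 ≠ 0 → AnalyticAt ℂ b x → b x = 1 → deriv b x ≠ 0 →
    (∀ᶠ τ in 𝓝[≠] (0 : ℂ), IntAt (pw α u - pw β v) (pw α u + pw β v) τ) →
    IsLawF (famG α β u v b) 0 x ∧ ∃ H, Gauged (famG α β u v b) 0 x H)

/-! ## Block 5: the models -/

/-- Fatou coordinate of an integrable translation invariant law -/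
def Spec_FATOU : Prop := ∀ (G : ℂ → ℂ) (ϑ : ℂ × ℂ → ℂ), AnalyticAt ℂ G 0 → G 0 = 0 →
  deriv G 0 ≠ 0 → deriv (deriv G) 0 ≠ 0 → AnalyticAt ℂ ϑ 0 →
  (∀ᶠ v in 𝓝 (0 : ℂ), ϑ (0, v) = 0 ∧ ϑ (v, v) = v) →
  (∀ᶠ p in 𝓝 (0 : ℂ × ℂ),
    G (ϑ (p.1 + p.2, p.2) - ϑ p) + G (ϑ (p.1 - p.2, p.2) - ϑ p) = 0) →
  ∃ a : ℂ → ℂ, AnalyticAt ℂ a 0 ∧ a 0 = 0 ∧ deriv a 0 ≠ 0 ∧ (∀ᶠ x in 𝓝 (0 : ℂ), a (-x) = -a x) ∧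
    ∀ᶠ x in 𝓝 (0 : ℂ), G (a (x / (1 + x))) + G (-a x) = 0

/-- a separable monic polynomial with meromorphic coefficients has a Puiseux root -/
def Spec_ROOT : Prop := ∀ (d : ℕ) (q : ℕ → ℂ → ℂ), 0 < d → (∀ i, MeromorphicAt (q i) 0) →
  (∀ᶠ s in 𝓝[≠] (0 : ℂ), ∀ y : ℂ, y ^ d + ∑ i ∈ Finset.range d, q i s * y ^ i = 0 →
    (d : ℂ) * y ^ (d - 1) + ∑ i ∈ Finset.range d, (i : ℂ) * q i s * y ^ (i - 1) ≠ 0) →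
  ∃ (e : ℕ) (F : ℂ → ℂ), 0 < e ∧ MeromorphicAt F 0 ∧
    ∀ᶠ τ in 𝓝[≠] (0 : ℂ), F τ ^ d + ∑ i ∈ Finset.range d, q i (τ ^ e) * F τ ^ i = 0

/-- the field of convergent Puiseux series -/
def Spec_PUI : Prop := ∃ (K : Type) (_ : Field K) (_ : Algebra ℂ K) (Γ : Type)
  (_ : LinearOrderedCommGroupWithZero Γ), IsAlgClosed K ∧ Nonempty (PuiData K Γ)

/-- local rigidity: (C) a moved point with a fixed outgoing line is at a critical point,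
(B) a point between two fixed lines is fixed, (S) a line with two fixed neighbours is fixed -/
def Spec_LOC : Prop := ∀ (euc : Bool) (α β : ℤ), Good euc α β →
  ∀ (K : Type) [Field K] [Algebra ℂ K] (Γ : Type) [LinearOrderedCommGroupWithZero Γ]
    (D : ValData K Γ),
    (∀ x : K, D.g x ≠ x → D.g (kap α β x) = kap α β x →
      D.Cen x none ∨ D.Cen x (some 0) ∨ D.Cen x (some 1) ∨ D.Cen x (some ((β : ℂ) / (α : ℂ)))) ∧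
    (∀ x : K, D.g (kap α β x) = kap α β x →
      D.g (kap α β (refl euc α β x)) = kap α β (refl euc α β x) → D.g x = x) ∧
    (∀ x y : K, x ≠ y → kap α β (refl euc α β x) = kap α β (refl euc α β y) →
      D.g (kap α β x) = kap α β x → D.g (kap α β y) = kap α β y →
      D.g (kap α β (refl euc α β x)) = kap α β (refl euc α β x))

/-- centres propagate in finite sets -/
def Spec_FIN : Prop := ∀ (euc : Bool) (α β : ℤ), Good euc α β →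
  ∀ A : Set (Option ℂ), A.Finite → ∃ A' : Set (Option ℂ), A'.Finite ∧
  ∀ (K : Type) [Field K] [Algebra ℂ K] (Γ : Type) [LinearOrderedCommGroupWithZero Γ]
    (D : ValData K Γ) (x y : K), x ∉ Set.range (algebraMap ℂ K) → y ∉ Set.range (algebraMap ℂ K) →
    kap α β x = kap α β (refl euc α β y) → (∃ c ∈ A, D.Cen x c) → ∃ c ∈ A', D.Cen y c

/-- the pushing argument: no branching -/
def Spec_PUSH : Prop := ∀ (euc : Bool) (α β : ℤ), Good euc α β →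
  ∀ (K : Type) [Field K] [Algebra ℂ K] [IsAlgClosed K] (Γ : Type)
    [LinearOrderedCommGroupWithZero Γ] (D : ValData K Γ) (a : ℤ → K) (c : ℤ → ℂ) (M : ℤ),
    (∀ j, a j ∉ Set.range (algebraMap ℂ K)) →
    (∀ j, kap α β (a j) = kap α β (refl euc α β (a (j + 1)))) →
    (∀ P : MvPolynomial ℤ ℂ, MvPolynomial.aeval a P = 0 ↔
      MvPolynomial.aeval (fun j => a (j + 1)) P = 0) →
    (∀ j, M ≤ |j| → D.g (a j) = a j) →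
    (∀ j, M ≤ j → D.Cen (a j) (some (c j))) →
    (∀ z : ℂ, ∀ᶠ j in atTop, c j ≠ z) →
    ∀ j, D.g (a j) = a j

/-- the slope function is single valued -/
def Spec_MER : Prop := ∀ (euc : Bool) (α β : ℤ) (Φ : ℂ → ℂ), Good euc α β → Fatou euc α β Φ →
  ∃ φ : ℂ → ℂ, MeromorphicOn φ univ ∧ ∀ᶠ t in Bornology.cobounded ℂ, φ t = Φ t⁻¹

/-- the degree of a rational function -/
def Spec_DEG : Prop := ∀ (f h : ℂ → ℂ) (d : ℤ), MeromorphicOn f univ → AnalyticAt ℂ h 0 →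
  h 0 ≠ 0 → (∀ᶠ t in Bornology.cobounded ℂ, f t = t ^ d * h t⁻¹) →
  ∃ l : ℂ → ℤ, (∀ t, meromorphicOrderAt f t = (l t : WithTop ℤ)) ∧ (Function.support l).Finite ∧
    ∑ᶠ t, l t = d

/-- classification of the Galilean models -/
def Spec_CLG : Prop := ∀ (α β : ℤ) (Φ φ : ℂ → ℂ), Good false α β → α < β → Fatou false α β Φ →
  MeromorphicOn φ univ → (∀ᶠ t in Bornology.cobounded ℂ, φ t = Φ t⁻¹) →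
  (α = 1 ∧ β = 2) ∨ (α = -1 ∧ β = 1)

/-- classification of the Euclidean models -/
def Spec_CLE : Prop := ∀ (α β : ℤ) (Φ φ : ℂ → ℂ), Good true α β → α < β → 0 < α + β →
  Fatou true α β Φ → MeromorphicOn φ univ → (∀ᶠ t in Bornology.cobounded ℂ, φ t = Φ t⁻¹) →
  α = 1 ∧ β = 2

/-- exponents of an integrable place -/
def Spec_EXP : Prop :=
  (∀ (α β : ℤ) (z w : ℂ → ℂ), α ≠ 0 → β ≠ 0 → α < β → 0 < α + β → AnalyticAt ℂ z 0 →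
    AnalyticAt ℂ w 0 → z 0 ≠ 0 → w 0 ≠ 0 →
    (∀ᶠ τ in 𝓝[≠] (0 : ℂ), IntAt (pw α z) (pw β w) τ) → 0 < α ∧ β = 2 * α) ∧
  (∀ (α β : ℤ) (u v : ℂ → ℂ), α ≠ 0 → β ≠ 0 → α < β → 2 * β - α ≠ 0 → AnalyticAt ℂ u 0 →
    AnalyticAt ℂ v 0 → u 0 ≠ 0 → v 0 ≠ 0 →
    (∀ᶠ τ in 𝓝[≠] (0 : ℂ), IntAt (pw α u - pw β v) (pw α u + pw β v) τ) →
    (0 < α ∧ β = 2 * α) ∨ (0 < β ∧ α = -β))

/-! ## Block 6: ramified places of conic type -/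

/-- linearisation of the difference between the parameters `ε` and `ζ ε` -/
def Spec_LIN : Prop := ∀ (E Et : ℂ × ℂ × ℂ × ℂ → ℂ) (x ζ : ℂ) (k : ℕ) (H : ℂ × ℂ × ℂ → ℂ),
  0 < k → IsLawF E 0 x → Gauged E 0 x H → AnalyticAt ℂ Et (0, x, x, x) →
  (∀ᶠ q in 𝓝 ((0 : ℂ), x, x, x), E (ζ * q.1, q.2) - E q = q.1 ^ k * Et q) →
  ∃ δ : ℂ × ℂ → ℂ, AnalyticAt ℂ δ 0 ∧ ∀ᶠ p in 𝓝 (0 : ℂ × ℂ),
    fderiv ℂ E (0, H (0, p.1 - p.2, p.2), H (0, p), H (0, p.1 + p.2, p.2))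
        (0, δ (p.1 - p.2, p.2), δ p, δ (p.1 + p.2, p.2)) +
      Et (0, H (0, p.1 - p.2, p.2), H (0, p), H (0, p.1 + p.2, p.2)) = 0

/-- the linear kink lemma: a homogeneous cohomological equation with an analytic solution -/
def Spec_KINK : Prop := ∀ (I : ℂ × ℂ → ℂ) (g S : ℂ → ℂ) (d : ℂ) (c : ℝ),
  AnalyticAt ℂ I (1, 0) → AnalyticAt ℂ g 0 →
  (∀ᶠ p in 𝓝 ((1 : ℂ), (0 : ℂ)), I p - I (p.1 - p.2, p.2) = p.1 ^ d * g (p.2 / p.1)) →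
  DifferentiableOn ℂ S {t | 0 < t.im} →
  (∃ R : ℝ, ∀ t : ℂ, R < t.im → S t = t ^ d * g t⁻¹) →
  ∃ N₀ : ℕ, ∀ N : ℕ, N₀ ≤ N → ∃ F : ℂ → ℂ, AnalyticAt ℂ F 0 ∧
    ∀ᶠ s in 𝓝[{t | 0 < t.im}] (0 : ℂ),
      ∑ j ∈ Finset.Icc (-(N : ℤ)) N, deriv S ((j : ℂ) + c + s) = F s

/-- a non-integral power is not meromorphic -/
def Spec_NP : Prop := ∀ (ν : ℂ) (u F : ℂ → ℂ), AnalyticAt ℂ u 0 → u 0 ≠ 0 → MeromorphicAt F 0 →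
  (∀ᶠ s in 𝓝[{t | 0 < t.im}] (0 : ℂ), s ^ ν * u s = F s) → ∃ n : ℤ, ν = n

/-- powers of `c + s`, continued from the upper half plane, are analytic at `s = 0` -/
def Spec_AN : Prop := ∀ (ν : ℂ) (c : ℝ), c ≠ 0 → ∃ F : ℂ → ℂ, AnalyticAt ℂ F 0 ∧
  (0 < c → F 0 = (c : ℂ) ^ ν) ∧
  (c < 0 → F 0 = ((-c : ℝ) : ℂ) ^ ν * Complex.exp (Real.pi * Complex.I * ν)) ∧
  ∀ᶠ s in 𝓝[{t | 0 < t.im}] (0 : ℂ), ((c : ℂ) + s) ^ ν = F s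

/-- a place `(a, 2 a)` with non-isotropic tangent is not ramified -/
def Spec_RG1 : Prop := ∀ (a : ℕ) (v : ℂ → ℂ) (ζ : ℂ), 0 < a → ζ ^ a = 1 → AnalyticAt ℂ v 0 →
  v 0 ≠ 0 → (∀ᶠ τ in 𝓝[≠] (0 : ℂ),
    IntAt (pw a (fun _ => 1) - pw (2 * a) v) (pw a (fun _ => 1) + pw (2 * a) v) τ) →
  ∀ᶠ τ in 𝓝 (0 : ℂ), v (ζ * τ) = v τ

/-- a place `(-a, a)` at infinity is not ramified -/
def Spec_RG2 : Prop := ∀ (a : ℕ) (u : ℂ → ℂ) (ζ : ℂ), 0 < a → ζ ^ a = 1 → AnalyticAt ℂ u 0 →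
  u 0 ≠ 0 → (∀ᶠ τ in 𝓝[≠] (0 : ℂ),
    IntAt (pw (-a) u - pw a (fun _ => 1)) (pw (-a) u + pw a (fun _ => 1)) τ) →
  ∀ᶠ τ in 𝓝 (0 : ℂ), u (ζ * τ) = u τ

/-- a place `(a, 2 a)` with isotropic tangent is not ramified -/
def Spec_RE : Prop := ∀ (a : ℕ) (w : ℂ → ℂ) (ζ : ℂ), 0 < a → ζ ^ a = 1 → AnalyticAt ℂ w 0 →
  w 0 ≠ 0 → (∀ᶠ τ in 𝓝[≠] (0 : ℂ), IntAt (pw a (fun _ => 1)) (pw (2 * a) w) τ) →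
  ∀ᶠ τ in 𝓝 (0 : ℂ), w (ζ * τ) = w τ

/-- descent and normalisation of the local parameter -/
def Spec_DESC : Prop :=
  (∀ (a : ℕ) (w : ℂ → ℂ), 0 < a → AnalyticAt ℂ w 0 →
    (∀ ζ : ℂ, ζ ^ a = 1 → ∀ᶠ τ in 𝓝 (0 : ℂ), w (ζ * τ) = w τ) →
    ∃ w₁ : ℂ → ℂ, AnalyticAt ℂ w₁ 0 ∧ ∀ᶠ τ in 𝓝 (0 : ℂ), w τ = w₁ (τ ^ a)) ∧
  (∀ (α β : ℤ) (z w : ℂ → ℂ), α ≠ 0 → AnalyticAt ℂ z 0 → AnalyticAt ℂ w 0 → z 0 ≠ 0 → w 0 ≠ 0 →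
    ∃ B w₁ : ℂ → ℂ, AnalyticAt ℂ B 0 ∧ B 0 = 0 ∧ deriv B 0 ≠ 0 ∧ AnalyticAt ℂ w₁ 0 ∧ w₁ 0 ≠ 0 ∧
      ∀ᶠ τ in 𝓝[≠] (0 : ℂ), pw α z (B τ) = pw α (fun _ => 1) τ ∧ pw β w (B τ) = pw β w₁ τ)

/-! ## Block 7: the function `GG` -/

/-- basic properties of `GG` -/
def Spec_GG : Prop :=
  (∀ Z W x, Reg Z W x → AnalyticAt ℂ (GG Z W) x) ∧
  (∀ (Z W Z' W' : ℂ → ℂ) (x : ℂ), Z =ᶠ[𝓝 x] Z' → W =ᶠ[𝓝 x] W' → GG Z W =ᶠ[𝓝 x] GG Z' W') ∧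
  (∀ (Z W : ℂ → ℂ) (x a b c d : ℂ), a ≠ 0 → c ≠ 0 → Reg Z W x →
    GG (fun τ => a * Z τ + b) (fun τ => c * W τ + d) x = (a * c)⁻¹ * GG Z W x) ∧
  (∀ Z W x, Reg Z W x → GG W Z x = GG Z W x) ∧
  (∀ (Z W B : ℂ → ℂ) (x : ℂ), AnalyticAt ℂ B x → deriv B x ≠ 0 → Reg Z W (B x) →
    GG (Z ∘ B) (W ∘ B) x = GG Z W (B x))

/-- `f` is bounded near the origin -/
def Bdd0 (f : ℂ → ℂ) : Prop := ∃ C : ℝ, ∀ᶠ τ in 𝓝[≠] (0 : ℂ), ‖f τ‖ ≤ C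

/-- bounds for `GG` at the places which are not excluded -/
def Spec_GB : Prop :=
  (∀ (α β : ℤ) (z w : ℂ → ℂ), α ≠ 0 → β ≠ 0 → α ≠ β → AnalyticAt ℂ z 0 →
    AnalyticAt ℂ w 0 → z 0 ≠ 0 → w 0 ≠ 0 → (α + β ≤ 0 ∨ (α = 1 ∧ β = 2)) →
    Bdd0 (GG (pw α z) (pw β w))) ∧
  (∀ (α β : ℤ) (u v : ℂ → ℂ), α ≠ 0 → β ≠ 0 → α < β → AnalyticAt ℂ u 0 →
    AnalyticAt ℂ v 0 → u 0 ≠ 0 → v 0 ≠ 0 →
    (2 * β - α ≤ 0 ∨ (α = 1 ∧ β = 2) ∨ (α = -1 ∧ β = 1 ∧ ∀ τ, v τ = 1)) →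
    Bdd0 (GG (pw α u - pw β v) (pw α u + pw β v)))

/-- normal form of a place -/
def Spec_NF : Prop := ∀ Z W : ℂ → ℂ, MeromorphicAt Z 0 → MeromorphicAt W 0 →
  (∀ᶠ τ in 𝓝[≠] (0 : ℂ), Reg Z W τ) →
  (∃ (α β : ℤ) (z w : ℂ → ℂ) (b d : ℂ), α ≠ 0 ∧ β ≠ 0 ∧ α ≠ β ∧ AnalyticAt ℂ z 0 ∧
    AnalyticAt ℂ w 0 ∧ z 0 ≠ 0 ∧ w 0 ≠ 0 ∧
    ∀ᶠ τ in 𝓝[≠] (0 : ℂ), pw α z τ = Z τ + b ∧ pw β w τ = W τ + d) ∨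
  (∃ (α β : ℤ) (u v : ℂ → ℂ) (b c d : ℂ), α ≠ 0 ∧ β ≠ 0 ∧ α < β ∧ AnalyticAt ℂ u 0 ∧
    AnalyticAt ℂ v 0 ∧ u 0 ≠ 0 ∧ v 0 ≠ 0 ∧ c ≠ 0 ∧
    ∀ᶠ τ in 𝓝[≠] (0 : ℂ), pw α u τ - pw β v τ = Z τ + b ∧ pw α u τ + pw β v τ = c * W τ + d)

/-- `GG` is bounded at every integrable place -/
def Spec_PLACE : Prop := ∀ Z W : ℂ → ℂ, MeromorphicAt Z 0 → MeromorphicAt W 0 →
  (∀ᶠ τ in 𝓝[≠] (0 : ℂ), Reg Z W τ ∧ IntAt Z W τ) → Bdd0 (GG Z W)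

/-! ## Block 8: global arguments -/

/-- punctured discs are connected -/
def Spec_PB : Prop := ∀ (z : ℂ) (r : ℝ), IsPreconnected (ball z r \ {z})

/-- Puiseux factorisation of a polynomial with meromorphic coefficients -/
def Spec_PUP : Prop := ∀ (d : ℕ) (q : ℕ → ℂ → ℂ), (∀ i, MeromorphicAt (q i) 0) →
  (∀ᶠ s in 𝓝[≠] (0 : ℂ), q d s ≠ 0) →
  ∃ (e : ℕ) (F : Fin d → ℂ → ℂ), 0 < e ∧ (∀ i, MeromorphicAt (F i) 0) ∧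
    ∀ᶠ τ in 𝓝[≠] (0 : ℂ), ∀ y : ℂ,
      ∑ i ∈ Finset.range (d + 1), q i (τ ^ e) * y ^ i = q d (τ ^ e) * ∏ i, (y - F i τ)

/-- on an algebraic curve `GG` is constant -/
def Spec_GLOB : Prop := ∀ (P : MvPolynomial (Fin 2) ℂ) (Z W : ℂ → ℂ) (x : ℂ), P ≠ 0 →
  Reg Z W x → IntAt Z W x → (∀ᶠ τ in 𝓝 x, MvPolynomial.eval ![Z τ, W τ] P = 0) →
  ∀ᶠ τ in 𝓝 x, GG Z W τ = GG Z W x

end Vale.Agent.P097A
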