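import Vale.Agent.P097A.Spec
import Vale.Agent.P097.H402.RealB
import Vale.Agent.P097.H407.Final

/-!
# P097A: the statements of the steps which involve the real table
-/

set_option linter.all false

noncomputable section

namespace Vale.Agent.P097A

open Filter Topology Set Metric Vale.Agent.P097

/-- the complexified boundary, `H` a holomorphic extension of the support function -/
def Zc (H : ℂ → ℂ) (ψ : ℂ) : ℂ := (H ψ + deriv H ψ * Complex.I) * Complex.exp (ψ * Complex.I)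

def Wc (H : ℂ → ℂ) (ψ : ℂ) : ℂ := (H ψ - deriv H ψ * Complex.I) * Complex.exp (-(ψ * Complex.I))

/-- the bridge from the real billiard -/
def Spec_BR : Prop := ∀ (h : ℝ → ℝ) (H : ℂ → ℂ) (ψ₀ : ℝ), IsTable h → H402.IntBd h →
  AnalyticAt ℂ H ψ₀ → (∀ᶠ ψ in 𝓝 ψ₀, H (ψ : ℝ) = (h ψ : ℝ)) → IntAt (Zc H) (Wc H) ψ₀

/-- regular points of the complexified boundary, and the algebraic equation -/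
def Spec_ZW : Prop :=
  (∀ (H : ℂ → ℂ) (x : ℂ), AnalyticAt ℂ H x → H x + deriv (deriv H) x ≠ 0 →
    Reg (Zc H) (Wc H) x) ∧
  (∀ (h : ℝ → ℝ) (ψ₀ : ℝ), AnalyticAt ℝ h ψ₀ → ∃ H : ℂ → ℂ, AnalyticAt ℂ H ψ₀ ∧
    ∀ᶠ ψ in 𝓝 ψ₀, H (ψ : ℝ) = (h ψ : ℝ)) ∧
  (∀ (h : ℝ → ℝ) (H : ℂ → ℂ) (ψ₀ : ℝ), AnalyticAt ℝ h ψ₀ → AnalyticAt ℂ H ψ₀ →
    (∀ᶠ ψ in 𝓝 ψ₀, H (ψ : ℝ) = (h ψ : ℝ)) →
    H ψ₀ + deriv (deriv H) ψ₀ = (h ψ₀ + deriv (deriv h) ψ₀ : ℝ)) ∧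
  (∀ (h : ℝ → ℝ) (H : ℂ → ℂ) (ψ₀ : ℝ) (p : MvPolynomial (Fin 2) ℝ), IsTable h → p ≠ 0 →
    {ψ ∈ Icc 0 (2 * Real.pi) | MvPolynomial.eval ![(bdry h ψ).re, (bdry h ψ).im] p = 0}.Infinite →
    AnalyticAt ℂ H ψ₀ → (∀ᶠ ψ in 𝓝 ψ₀, H (ψ : ℝ) = (h ψ : ℝ)) →
    ∃ P : MvPolynomial (Fin 2) ℂ, P ≠ 0 ∧
      ∀ᶠ τ in 𝓝 (ψ₀ : ℂ), MvPolynomial.eval ![Zc H τ, Wc H τ] P = 0)

/-- `GG` constant means an ellipse -/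
def Spec_ELL : Prop := ∀ (h : ℝ → ℝ) (H : ℂ → ℂ) (ψ₀ : ℝ), IsTable h → AnalyticAt ℂ H ψ₀ →
  (∀ᶠ ψ in 𝓝 ψ₀, H (ψ : ℝ) = (h ψ : ℝ)) →
  (∀ᶠ τ in 𝓝 (ψ₀ : ℂ), GG (Zc H) (Wc H) τ = GG (Zc H) (Wc H) ψ₀) → H407.IsEllipse h

/-- no complex zero of the radius of curvature -/
def Spec_T2 : Prop := ∀ (h : ℝ → ℝ) (H : ℂ → ℂ) (U : Set ℂ) (ψ₀ : ℝ), IsTable h → H402.IntBd h →
  IsOpen U → IsPreconnected U → DifferentiableOn ℂ H U → (ψ₀ : ℂ) ∈ U →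
  (∀ᶠ ψ in 𝓝 ψ₀, H (ψ : ℝ) = (h ψ : ℝ)) → ∀ z ∈ U, H z + deriv (deriv H) z ≠ 0

/-- the algebraic case -/
def Spec_T1 : Prop := ∀ (h : ℝ → ℝ) (p : MvPolynomial (Fin 2) ℝ), IsTable h → H402.IntBd h →
  p ≠ 0 →
  {ψ ∈ Icc 0 (2 * Real.pi) | MvPolynomial.eval ![(bdry h ψ).re, (bdry h ψ).im] p = 0}.Infinite →
  H407.IsEllipse h

end Vale.Agent.P097A
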